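import Vale.Agent.P167.CAQ.Path
import Vale.Agent.P167.CAQ.Ode
import Vale.Agent.P167.CA.Final

/-!
# P167, general `q`, CORE-ASM: from the inputs to the core, along a filter
-/

namespace Vale.Agent.P167.CAQ

open MeasureTheory Filter Topology Set Complex Metric
open Vale.Agent.P167.BR (sites)
open Vale.Agent.P167.BVP (Test npot)
open Vale.Agent.P167.CA (Dat cms en Pair enl cms_smul cms_zero cms_sub Hol NeuLim exists_lim
  lim_pair neu_lim integrable_pair isCompact_region site_region)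
open P198W (lap)
open scoped ContDiff

/-- Replace a sequence by one which is good for all large indices. -/
theorem hol_fix {Q : Finset (ℤ × ℤ)} (w : ℕ → ℤ × ℤ → ℝ) {C β M : ℝ} (hC : 0 ≤ C) (hM : 0 ≤ M) :
    ∃ w' : ℕ → ℤ × ℤ → ℝ, (∀ᶠ n : ℕ in atTop, Hol Q w' C β M n) ∧
      ∀ n, Hol Q w C β M n → w' n = w n := by
  classical
  refine ⟨fun n => if Hol Q w C β M n then w n else fun _ => 0, ?_, fun n hn => if_pos hn⟩
  filter_upwards [eventually_gt_atTop 0] with n hn
  by_cases h : Hol Q w C β M n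
  · refine ⟨hn, fun z hz => ?_, fun z hz z' hz' => ?_⟩
    · simp only [if_pos h]; exact h.bd z hz
    · simp only [if_pos h]; exact h.hol z hz z' hz'
  · refine ⟨hn, fun z hz => ?_, fun z hz z' hz' => ?_⟩
    · simp only [if_neg h, abs_zero]; exact hM
    · simp only [if_neg h, sub_self, abs_zero]
      exact mul_nonneg hC (Real.rpow_nonneg (by positivity) _)

variable {S : Dat} (F : Fam S)

/-- The potentials `W_n` are uniformly Hölder and bounded. -/
theorem hol_W (hE : F.EQ) {f : ℂ → ℝ} (hf : S.FF f) :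
    ∃ C β M : ℝ, 0 ≤ C ∧ 0 < β ∧ 0 ≤ M ∧
      ∀ᶠ n : ℕ in F.L, Hol S.Q (fun n z => F.W n f z) C β M n := by
  obtain ⟨C, β, hβ, h⟩ := hE f hf
  set d := Metric.diam (E6.region 1 S.Q) with hd
  have hb := (isCompact_region S.Q).isBounded
  refine ⟨max C 0, β, max C 0 * d ^ β, le_max_right _ _, hβ,
    mul_nonneg (le_max_right _ _) (Real.rpow_nonneg Metric.diam_nonneg _), ?_⟩
  filter_upwards [h, F.good] with n hn hg
  obtain ⟨hn0, hF⟩ := hg
  have hn' : (0 : ℝ) < n := by exact_mod_cast hn0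
  have hhol : ∀ z ∈ sites (enl S.Q n), ∀ z' ∈ sites (enl S.Q n),
      |F.W n f z - F.W n f z'| ≤ max C 0 * (‖E6.pt z - E6.pt z'‖ / n) ^ β := fun z hz z' hz' =>
    (hn z hz z' hz').trans (mul_le_mul_of_nonneg_right (le_max_left _ _)
      (Real.rpow_nonneg (by positivity) _))
  refine ⟨hn0, fun z hz => ?_, hhol⟩
  have h1 := hhol z hz (F.b n) hF.mem
  rw [W_base F hn0 hF hf.1, sub_zero] at h1
  refine h1.trans (mul_le_mul_of_nonneg_left ?_ (le_max_right _ _))
  refine Real.rpow_le_rpow (by positivity) ?_ hβ.le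
  have e1 : ‖E6.pt z - E6.pt (F.b n)‖ / n = dist (E6.pt z / n) (E6.pt (F.b n) / n) := by
    rw [dist_eq_norm, ← sub_div, norm_div, Complex.norm_natCast]
  rw [e1]
  exact Metric.dist_le_diam_of_mem hb (site_region hn0 hz) (site_region hn0 hF.mem)

/-- **The limit of the potentials.** -/
theorem lim_W (hMOM : F.MOM) (hM : F.M2) (hE : F.EQ) (hN : F.NEU)
    {ψ g : ℂ → ℂ} (hP : Pair S.P ψ g) {f : ℂ → ℝ} (hf : S.FF f) :
    Tendsto (fun n : ℕ => F.HS n f f - F.V n f * F.U n f - F.s * en g f f * F.V n f)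
      F.L (𝓝 0) := by
  rw [tendsto_iff_ultrafilter]
  intro U hU
  have hU0 : (U : Filter ℕ) ≤ atTop := hU.trans F.le
  obtain ⟨C, β, M, hC, hβ, hM0, hH0⟩ := hol_W F hE hf
  obtain ⟨w, hH, hw⟩ := hol_fix (Q := S.Q) (β := β) (fun n z => F.W n f z) hC hM0
  have hwU : ∀ᶠ n in (U : Filter ℕ), w n = fun z => F.W n f z := by
    filter_upwards [hU hH0] with n hn using hw n hn
  obtain ⟨W, hW1, hW2, hW3⟩ := exists_lim hC hβ hH U hU0
  -- the limit of `V_n`
  obtain ⟨C', hC'⟩ := path_bounds F hM hf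
  have hVb : ∀ᶠ n in (U : Filter ℕ), F.V n f ∈ Icc (-C') C' := by
    refine hU (hC'.mono fun n hn => ?_)
    have := (hn.1 1 (by simp)).1
    simp only [one_mul] at this
    exact abs_le.1 this
  obtain ⟨v, -, hv⟩ := (isCompact_Icc (a := -C') (b := C')).ultrafilter_le_nhds
    (U.map fun n => F.V n f) (by rw [le_principal_iff]; exact hVb)
  have hv' : Tendsto (fun n => F.V n f) U (𝓝 v) := hv
  have hWc : ContinuousOn W (E6.region 1 S.Q) := by
    intro x hx
    rw [Metric.continuousWithinAt_iff']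
    intro ε hε
    have h4 : Tendsto (fun y : ℂ => C * ‖x - y‖ ^ β) (𝓝 x) (𝓝 (C * ‖x - x‖ ^ β)) := by
      have h5 : Tendsto (fun y : ℂ => ‖x - y‖) (𝓝 x) (𝓝 ‖x - x‖) :=
        (tendsto_const_nhds.sub tendsto_id).norm
      exact (((Real.continuous_rpow_const hβ.le).tendsto _).comp h5).const_mul C
    rw [sub_self, norm_zero, Real.zero_rpow hβ.ne', mul_zero] at h4
    filter_upwards [(h4.eventually (gt_mem_nhds hε)).filter_mono nhdsWithin_le_nhds,
      self_mem_nhdsWithin] with y hy hy2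
    rw [dist_comm, Real.dist_eq]
    exact (hW3 x hx y hy2).trans_lt hy
  have hWm : AEStronglyMeasurable W (volume.restrict (interior (E6.region 1 S.Q))) :=
    (hWc.mono interior_subset).aestronglyMeasurable isOpen_interior.measurableSet
  -- the weak equation
  have hweak : ∀ φ, Test S.P φ → ∫ z, W z * lap φ z = -(F.s * v) * ∫ z, f z * φ z := by
    intro φ hφ
    have hli : Integrable (lap φ) :=
      (BVP.cont_lap (hφ.1.of_le P198W.two_le_infty)).integrable_of_hasCompactSupport
        (BVP.hcs_lap hφ.2.1)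
    have h1 := lim_pair hC hβ hH U hU0 hW1 hW2 hW3 hli (fun x hx => hφ.2.2 (CA.lap_ne hx)) hWm
    have h2 := (hMOM f φ hf hφ).mono_left hU
    have h3 := (hMOM (fun _ => 0) φ (CA.FF.zero S) hφ).mono_left hU
    have h4 : Tendsto (fun n : ℕ => ∑ z ∈ sites (enl S.Q n), cms (lap φ) (1 / n) z * w n z)
        U (𝓝 (-(F.s * (∫ z, f z * φ z) * v))) := by
      have h5 : Tendsto (fun n : ℕ => (F.HS n (lap φ) f +
          F.s * (∫ z, f z * φ z) * F.V n f) - F.s * (∫ z, f z * φ z) * F.V n f -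
          F.V n f * (F.HS n (lap φ) (fun _ => 0) +
          F.s * (∫ z, (0 : ℝ) * φ z) * F.V n (fun _ => 0))) U
          (𝓝 (0 - F.s * (∫ z, f z * φ z) * v - v * 0)) :=
        (h2.sub (hv'.const_mul _)).sub (hv'.mul h3)
      have e : 0 - F.s * (∫ z, f z * φ z) * v - v * 0 = -(F.s * (∫ z, f z * φ z) * v) := by ring
      rw [e] at h5
      refine h5.congr' ?_
      filter_upwards [hwU] with n hn
      rw [hn]
      have e2 : ∑ z ∈ sites (enl S.Q n), cms (lap φ) (1 / n) z * F.W n f z =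
          F.HS n (lap φ) f - F.V n f * F.U n (lap φ) := sum_W F n _ f
      rw [e2]
      simp only [zero_mul, integral_zero, mul_zero, add_zero]
      unfold Fam.U
      ring
    have h6 := tendsto_nhds_unique h1 h4
    have h7 : ∫ z, W z * lap φ z = ∫ z, lap φ z * W z := by
      congr 1; funext z; ring
    rw [h7, h6]; ring
  -- the Neumann condition
  have hneu : NeuLim S W := by
    intro v₀ r hw1 hw2 φ hφ1 hφ2 ε hε
    obtain ⟨r₀, hr0, hr⟩ := hN f hf v₀ r hw1 hw2 φ hφ1 hφ2 ε hε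
    refine ⟨min r₀ 1, lt_min hr0 one_pos, fun h h1 h2 => ?_⟩
    have h3 := hU (hr h h1 (h2.trans_le (min_le_left _ _)))
    have h4 := neu_lim hC hβ hH U hU0 hW1 hW3 hw1 hφ1.continuous (hφ2.trans sdiff_subset)
      h1.le (h2.le.trans (min_le_right _ _))
    refine le_of_tendsto h4.abs ?_
    filter_upwards [hwU, h3] with n hn hn3
    rw [hn]
    exact hn3
  obtain ⟨c, hc⟩ := CA.i_bvp S ψ g hP f W (F.s * v) hf.1 hWc hweak hneu
  -- the pairing with `f`
  have hfi : Integrable f := hf.1.1.continuous.integrable_of_hasCompactSupport hf.1.2.1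
  have hfs : ∀ x, f x ≠ 0 → x ∈ interior (E6.region 1 S.Q) := fun x hx =>
    hf.1.2.2 (subset_tsupport f hx)
  have h8 := lim_pair hC hβ hH U hU0 hW1 hW2 hW3 hfi hfs hWm
  have h9 := integrable_pair hW2 hfi hfs hWm
  have h10 : ∫ x, f x * W x = F.s * v * en g f f := by
    have e1 : ∀ x, f x * W x - c * f x = F.s * v * (f x * npot g f x) := by
      intro x
      by_cases h0 : f x = 0
      · simp [h0]
      · rw [hc x (hfs x h0)]; ring
    have e2 : ∫ x, (f x * W x - c * f x) = ∫ x, f x * W x := by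
      rw [integral_sub h9 (hfi.const_mul c), integral_const_mul, hf.2, mul_zero, sub_zero]
    rw [← e2, integral_congr_ae (Eventually.of_forall e1), integral_const_mul]
    rfl
  rw [h10] at h8
  have h11 : Tendsto (fun n : ℕ => ∑ z ∈ sites (enl S.Q n), cms f (1 / n) z * w n z -
      F.s * en g f f * F.V n f) U (𝓝 (F.s * v * en g f f - F.s * en g f f * v)) :=
    h8.sub (hv'.const_mul _)
  have e : F.s * v * en g f f - F.s * en g f f * v = 0 := by ring
  rw [e] at h11
  refine h11.congr' ?_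
  filter_upwards [hwU] with n hn
  rw [hn]
  have e2 : ∑ z ∈ sites (enl S.Q n), cms f (1 / n) z * F.W n f z =
      F.HS n f f - F.V n f * F.U n f := sum_W F n _ f
  rw [e2]

theorem HS_smul (n : ℕ) (t : ℝ) (f g : ℂ → ℝ) :
    F.HS n (fun z => t * f z) g = t * F.HS n f g := by
  unfold Fam.HS
  rw [Finset.mul_sum]
  refine Finset.sum_congr rfl fun z _ => ?_
  rw [cms_smul]; ring

theorem U_smul (n : ℕ) (t : ℝ) (f : ℂ → ℝ) :
    F.U n (fun z => t * f z) = t * F.U n f := HS_smul F n t f _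

/-- The approximate differential equation. -/
theorem approx_ode (hMOM : F.MOM) (hM : F.M2) (hE : F.EQ) (hN : F.NEU)
    {ψ g : ℂ → ℂ} (hP : Pair S.P ψ g) {f : ℂ → ℝ} (hf : S.FF f) (t : ℝ) :
    Tendsto (fun n : ℕ => F.HS n f (fun z => t * f z) -
      (F.U n f + F.s * t * en g f f) * F.V n (fun z => t * f z)) F.L (𝓝 0) := by
  rcases eq_or_ne t 0 with rfl | ht
  · refine tendsto_const_nhds.congr' ?_
    filter_upwards [F.ok] with n hn
    simp only [zero_mul, mul_zero, add_zero]
    rw [V_zero F hn, mul_one]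
    unfold Fam.U
    rw [sub_self]
  · have h1 := (lim_W F hMOM hM hE hN hP (CA.FF.smul hf t)).const_mul t⁻¹
    rw [mul_zero] at h1
    refine h1.congr fun n => ?_
    rw [HS_smul, U_smul, CA.en_smul]
    field_simp
    ring

/-- **The core in a polygon, law-free.** -/
theorem core (hMOM : F.MOM) (hM : F.M2) (hE : F.EQ) (hN : F.NEU) : F.CORE := by
  intro ψ g hP f hf
  obtain ⟨C, hC⟩ := path_bounds F hM hf
  have := F.cg
  refine ⟨⟨C, hC.mono fun n hn => hn.2⟩, ?_⟩
  have h := ode (L := F.L) (v := fun n t => F.V n (fun z => t * f z))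
    (d := fun n t => F.HS n f (fun z => t * f z)) (u := fun n => F.U n f)
    (a := F.s * en g f f) (C := C) (by
      filter_upwards [F.good] with n hn
      refine ⟨fun t => hasDerivAt_V F hn.1 hn.2 hf.1 t, continuous_HS F hn.1 hn.2 hf.1, ?_⟩
      simp only [zero_mul]
      exact V_zero F hn.2) hC
    (fun t _ => by
      refine (approx_ode F hMOM hM hE hN hP hf t).congr fun n => ?_
      ring)
  refine h.congr fun n => ?_
  simp only [one_mul]
  congr 2
  ring

end Vale.Agent.P167.CAQ
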