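import Vale.Agent.P167.CAQ.Asm

/-!
# P167, general `q`, CORE-ASM: the neutral identities, and the comparison of two families
-/

namespace Vale.Agent.P167.CAQ

open MeasureTheory Filter Topology Set Complex Metric
open Vale.Agent.P167.BR (sites)
open Vale.Agent.P167.BVP (Test npot)
open Vale.Agent.P167.CA (Dat cms en Pair cms_smul cms_zero cms_sub cms_add)
open P198W (lap)

section lin

variable {S : Dat} (F : Fam S)

theorem U_neg (n : ℕ) (f : ℂ → ℝ) : F.U n (fun z => -f z) = -F.U n f := by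
  have h := U_smul F n (-1) f
  simpa using h

theorem HS_sub (n : ℕ) {f h : ℂ → ℝ} (k : ℂ → ℝ) (hf : Integrable f) (hh : Integrable h) :
    F.HS n (fun z => f z - h z) k = F.HS n f k - F.HS n h k := by
  unfold Fam.HS
  rw [← Finset.sum_sub_distrib]
  refine Finset.sum_congr rfl fun z _ => ?_
  rw [cms_sub hf hh]; ring

theorem HS_add (n : ℕ) {f h : ℂ → ℝ} (k : ℂ → ℝ) (hf : Integrable f) (hh : Integrable h) :
    F.HS n (fun z => f z + h z) k = F.HS n f k + F.HS n h k := by
  unfold Fam.HS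
  rw [← Finset.sum_add_distrib]
  refine Finset.sum_congr rfl fun z _ => ?_
  rw [cms_add hf hh]; ring

theorem U_sub (n : ℕ) {f h : ℂ → ℝ} (hf : Integrable f) (hh : Integrable h) :
    F.U n (fun z => f z - h z) = F.U n f - F.U n h := HS_sub F n _ hf hh

theorem U_add (n : ℕ) {f h : ℂ → ℝ} (hf : Integrable f) (hh : Integrable h) :
    F.U n (fun z => f z + h z) = F.U n f + F.U n h := HS_add F n _ hf hh

/-- The linear functionals are asymptotically harmonic. -/
theorem U_lap (hMOM : F.MOM) {φ : ℂ → ℝ} (hφ : Test S.P φ) :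
    Tendsto (fun n : ℕ => F.U n (lap φ)) F.L (𝓝 0) := by
  have h := hMOM (fun _ => 0) φ (CA.FF.zero S) hφ
  refine h.congr fun n => ?_
  simp only [zero_mul, integral_zero, mul_zero, add_zero]
  rfl

end lin

section

variable {S : Dat} {F : Fam S} (hcore : F.CORE) {ψ g : ℂ → ℂ} (hP : Pair S.P ψ g)

include hcore hP

/-- `V_n(f)` is bounded above and bounded away from `0`. -/
theorem V_bounds {f : ℂ → ℝ} (hf : S.FF f) : ∃ c K : ℝ, 0 < c ∧
    ∀ᶠ n : ℕ in F.L, c ≤ F.V n f ∧ F.V n f ≤ K := by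
  obtain ⟨⟨C, hC⟩, h⟩ := hcore ψ g hP f hf
  set e := F.s / 2 * en g f f with he
  refine ⟨Real.exp (-C - e) / 2, Real.exp (C - e) + 1, by positivity, ?_⟩
  have h1 := h.eventually (Metric.ball_mem_nhds 0 (ε := min (Real.exp (-C - e) / 2) 1)
    (by positivity))
  filter_upwards [hC, h1] with n hn h2
  rw [dist_zero_right, Real.norm_eq_abs, lt_min_iff, abs_lt, abs_lt] at h2
  rw [abs_le] at hn
  have a1 : Real.exp (-C - e) ≤ Real.exp (-F.U n f - e) := Real.exp_le_exp.2 (by linarith)
  have a2 : Real.exp (-F.U n f - e) ≤ Real.exp (C - e) := Real.exp_le_exp.2 (by linarith)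
  constructor <;> linarith [h2.1.1, h2.2.2]

/-- `V_n(f) = (1 + o(1)) exp (…)`. -/
theorem V_ratio {f : ℂ → ℝ} (hf : S.FF f) :
    Tendsto (fun n : ℕ => F.V n f * Real.exp (F.U n f + F.s / 2 * en g f f)) F.L (𝓝 1) := by
  obtain ⟨⟨C, hC⟩, h⟩ := hcore ψ g hP f hf
  set e := F.s / 2 * en g f f with he
  have h1 : Tendsto (fun n : ℕ => (F.V n f - Real.exp (-F.U n f - e)) *
      Real.exp (F.U n f + e)) F.L (𝓝 0) := by
    refine squeeze_zero_norm' (a := fun n => |F.V n f - Real.exp (-F.U n f - e)| *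
      Real.exp (C + e)) ?_ ?_
    · filter_upwards [hC] with n hn
      rw [norm_mul, Real.norm_eq_abs, Real.norm_of_nonneg (Real.exp_pos _).le]
      refine mul_le_mul_of_nonneg_left (Real.exp_le_exp.2 ?_) (abs_nonneg _)
      linarith [(abs_le.1 hn).2]
    · have := h.abs.mul_const (Real.exp (C + e))
      simpa using this
  have h2 := h1.const_add 1
  rw [add_zero] at h2
  refine h2.congr fun n => ?_
  have : Real.exp (-F.U n f - e) * Real.exp (F.U n f + e) = 1 := by
    rw [← Real.exp_add]; simp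
  rw [sub_mul, this]; ring

/-- **First identity**: `V(f) V(-f) → exp (-s (f, N f))`. -/
theorem V_mul_neg {f : ℂ → ℝ} (hf : S.FF f) :
    Tendsto (fun n : ℕ => F.V n f * F.V n (fun z => -f z)) F.L
      (𝓝 (Real.exp (-(F.s * en g f f)))) := by
  have h1 := V_ratio hcore hP hf
  have h2 := V_ratio hcore hP (CA.FF.neg hf)
  have h3 := (h1.mul h2).mul_const (Real.exp (-(F.s * en g f f)))
  rw [one_mul, one_mul] at h3
  refine h3.congr fun n => ?_
  have e1 : en g (fun z => -f z) (fun z => -f z) = en g f f := by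
    have := CA.en_smul g (-1) f
    simpa using this
  rw [U_neg, e1]
  have e2 : Real.exp (F.U n f + F.s / 2 * en g f f) * Real.exp (-F.U n f + F.s / 2 * en g f f) *
      Real.exp (-(F.s * en g f f)) = 1 := by
    rw [← Real.exp_add, ← Real.exp_add, Real.exp_eq_one_iff]; ring
  calc _ = F.V n f * F.V n (fun z => -f z) * (Real.exp (F.U n f + F.s / 2 * en g f f) *
        Real.exp (-F.U n f + F.s / 2 * en g f f) * Real.exp (-(F.s * en g f f))) := by ring
    _ = _ := by rw [e2, mul_one]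

/-- **Second identity**: `V(f - h) V(h) / V(f) → exp (s (f - h, N h))`. -/
theorem V_quot {f h : ℂ → ℝ} (hf : S.FF f) (hh : S.FF h) :
    Tendsto (fun n : ℕ => F.V n (fun z => f z - h z) * F.V n h / F.V n f) F.L
      (𝓝 (Real.exp (F.s * en g (fun z => f z - h z) h))) := by
  have h1 := V_ratio hcore hP hf
  have h2 := V_ratio hcore hP hh
  have h3 := V_ratio hcore hP (CA.FF.sub hf hh)
  have e0 : F.s * en g (fun z => f z - h z) h = F.s / 2 * (en g f f - en g h h -
        en g (fun z => f z - h z) (fun z => f z - h z)) := by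
    rw [CA.en_sub_sub hP hf hh, CA.en_sub_left hP hf hh hh]; ring
  rw [e0]
  have h4 := ((h3.mul h2).div h1 one_ne_zero).mul_const (Real.exp (F.s / 2 * (en g f f - en g h h -
        en g (fun z => f z - h z) (fun z => f z - h z))))
  rw [one_mul, div_one, one_mul] at h4
  obtain ⟨c, K, hc, hb⟩ := V_bounds hcore hP hf
  refine h4.congr' ?_
  filter_upwards [hb] with n hn
  simp only [Pi.div_apply]
  rw [U_sub F n (CA.Test.integrable hf.1) (CA.Test.integrable hh.1)]
  set A := en g f f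
  set B := en g h h
  set D := en g (fun z => f z - h z) (fun z => f z - h z)
  have hV : F.V n f ≠ 0 := (hc.trans_le hn.1).ne'
  have e2 : Real.exp (F.U n f - F.U n h + F.s / 2 * D) * Real.exp (F.U n h + F.s / 2 * B) *
      Real.exp (F.s / 2 * (A - B - D)) = Real.exp (F.U n f + F.s / 2 * A) := by
    rw [← Real.exp_add, ← Real.exp_add]; congr 1; ring
  rw [div_mul_eq_mul_div, div_eq_div_iff (mul_ne_zero hV (Real.exp_pos _).ne') hV, ← e2]
  ring

end

section two

/-- **Comparison of two families** (two base laws with the same constant):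
`V¹_n(f) / V⁰_n(f) = exp (-(f, U¹_n - U⁰_n)) (1 + o(1))`. -/
theorem V_div {S : Dat} {F₁ F₀ : Fam S} (hL : F₁.L = F₀.L) (hs : F₁.s = F₀.s) (h1 : F₁.CORE)
    (h0 : F₀.CORE) {ψ g : ℂ → ℂ} (hP : Pair S.P ψ g) {f : ℂ → ℝ} (hf : S.FF f) :
    Tendsto (fun n : ℕ => F₁.V n f / F₀.V n f * Real.exp (F₁.U n f - F₀.U n f)) F₁.L (𝓝 1) := by
  have a1 := V_ratio h1 hP hf
  have a0 := V_ratio h0 hP hf
  obtain ⟨c, K, hc, hb⟩ := V_bounds h0 hP hf
  rw [← hL] at a0 hb
  have a2 := a1.div a0 one_ne_zero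
  rw [div_one] at a2
  refine a2.congr' ?_
  filter_upwards [hb] with n hn
  have hV : F₀.V n f ≠ 0 := (hc.trans_le hn.1).ne'
  simp only [Pi.div_apply]
  rw [hs]
  have e : Real.exp (F₁.U n f + F₀.s / 2 * en g f f) =
      Real.exp (F₀.U n f + F₀.s / 2 * en g f f) * Real.exp (F₁.U n f - F₀.U n f) := by
    rw [← Real.exp_add]; congr 1; ring
  rw [e, div_eq_iff (mul_ne_zero hV (Real.exp_pos _).ne')]
  field_simp

end two

end Vale.Agent.P167.CAQ
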