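import Vale.Agent.P167.CAQ.Two

/-!
# P167, general `q`: compactness of potentials near a boundary arc (the cut-off)
-/

namespace Vale.Agent.P167.CAQ

open MeasureTheory Filter Topology Set Complex Metric
open Vale.Agent.P167.BR (sites)
open Vale.Agent.P167.BVP (Test npot)
open Vale.Agent.P167.CA (Dat cms en Pair enl fs fs_mem norm_fs Hol)
open P198W (lap)
open scoped ContDiff

/-- The cut-off: `0` at distance `≤ δ` from `K`, `1` at distance `≥ 2 δ`. -/
noncomputable def chi (K : Set ℂ) (δ : ℝ) (x : ℂ) : ℝ := min 1 (max 0 (infDist x K / δ - 1))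

variable {S : Dat} {K : Set ℂ}

theorem chi_nonneg (δ : ℝ) (x : ℂ) : 0 ≤ chi K δ x := le_min zero_le_one (le_max_left _ _)

theorem chi_le (δ : ℝ) (x : ℂ) : chi K δ x ≤ 1 := min_le_left _ _

theorem chi_zero {δ : ℝ} (hδ : 0 < δ) {x : ℂ} (h : infDist x K ≤ δ) : chi K δ x = 0 := by
  unfold chi
  have : infDist x K / δ - 1 ≤ 0 := by rw [sub_nonpos, div_le_one hδ]; exact h
  rw [max_eq_left this, min_eq_right zero_le_one]

theorem chi_one {δ : ℝ} (hδ : 0 < δ) {x : ℂ} (h : 2 * δ ≤ infDist x K) : chi K δ x = 1 := by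
  unfold chi
  have : 1 ≤ infDist x K / δ - 1 := by rw [le_sub_iff_add_le, le_div_iff₀ hδ]; linarith
  exact min_eq_left (this.trans (le_max_right _ _))

theorem abs_min_sub_le (a b : ℝ) : |min 1 a - min 1 b| ≤ |a - b| := by
  have := abs_min_sub_min_le_max 1 a 1 b
  simpa using this

theorem abs_max_sub_le (a b : ℝ) : |max 0 a - max 0 b| ≤ |a - b| := by
  have := abs_max_sub_max_le_max 0 a 0 b
  simpa using this

theorem chi_lip {δ : ℝ} (hδ : 0 < δ) (x y : ℂ) : |chi K δ x - chi K δ y| ≤ ‖x - y‖ / δ := by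
  unfold chi
  refine (abs_min_sub_le _ _).trans ((abs_max_sub_le _ _).trans ?_)
  have e : infDist x K / δ - 1 - (infDist y K / δ - 1) = (infDist x K - infDist y K) / δ := by ring
  rw [e, abs_div, abs_of_pos hδ]
  refine (div_le_div_iff_of_pos_right hδ).2 ?_
  have h1 : infDist x K ≤ infDist y K + dist x y := infDist_le_infDist_add_dist
  have h2 : infDist y K ≤ infDist x K + dist y x := infDist_le_infDist_add_dist
  rw [dist_comm y x] at h2
  rw [dist_eq_norm] at h1 h2
  rw [abs_le]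
  constructor <;> linarith

theorem rpow_ge_one {x β : ℝ} (hx : 1 ≤ x) (hβ : 0 ≤ β) : 1 ≤ x ^ β := Real.one_le_rpow hx hβ

/-- The truncated potentials. -/
noncomputable def tr (K : Set ℂ) (w : ℕ → ℤ × ℤ → ℝ) (x₀ : ℂ) (δ : ℝ) (n : ℕ) (z : ℤ × ℤ) : ℝ :=
  chi K δ (E6.pt z / n) * (w n z - w n (fs n x₀))

/-- The truncated potentials are uniformly Hölder and bounded. -/
theorem Pot.hol_tr {L : Filter ℕ} (hL : L ≤ atTop) {w : ℕ → ℤ × ℤ → ℝ} (hw : Pot S L w K)
    (hK : Arc S K) {x₀ : ℂ} (hx₀ : x₀ ∈ S.P) {δ : ℝ} (hδ : 0 < δ) :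
    ∃ C β M : ℝ, 0 ≤ C ∧ 0 < β ∧ 0 ≤ M ∧ ∀ᶠ n : ℕ in L, Hol S.Q (tr K w x₀ δ) C β M n := by
  obtain ⟨C, β, d, hβ, hd0, hd1, h⟩ := hw.eq
  obtain ⟨M, hM0, hM⟩ := hw.unif hL hK hx₀ (δ := δ / 2) (by positivity)
  set β' : ℝ := min β 1 with hβ'
  have hβ'0 : 0 < β' := lt_min hβ one_pos
  set A : ℝ := (max C 0 + M) * (2 / δ) ^ β' with hA
  set B : ℝ := 2 * M * (2 / (d * δ)) ^ β' with hB
  have hA0 : 0 ≤ A := mul_nonneg (add_nonneg (le_max_right _ _) hM0)
    (Real.rpow_nonneg (by positivity) _)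
  have hB0 : 0 ≤ B := mul_nonneg (by positivity) (Real.rpow_nonneg (by positivity) _)
  refine ⟨A + B, β', M, add_nonneg hA0 hB0, hβ'0, hM0, ?_⟩
  filter_upwards [h, hM, eventually_small hL one_pos] with n hn hMn hs
  have hn0 := hs.1
  have hn' : (0 : ℝ) < n := by exact_mod_cast hn0
  have hbd : ∀ z ∈ sites (enl S.Q n), |tr K w x₀ δ n z| ≤ M := by
    intro z hz
    unfold tr
    by_cases hd : infDist (E6.pt z / n) K ≤ δ
    · rw [chi_zero hδ hd, zero_mul, abs_zero]; exact hM0
    · rw [abs_mul, abs_of_nonneg (chi_nonneg _ _)]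
      have h1 := hMn z hz (by linarith [not_le.1 hd])
      calc _ ≤ 1 * |w n z - w n (fs n x₀)| :=
            mul_le_mul_of_nonneg_right (chi_le _ _) (abs_nonneg _)
        _ ≤ M := by rw [one_mul]; exact h1
  refine ⟨hn0, hbd, fun z hz z' hz' => ?_⟩
  set u : ℝ := ‖E6.pt z - E6.pt z'‖ / n with hu
  have hu0 : 0 ≤ u := by positivity
  have huβ : 0 ≤ u ^ β' := Real.rpow_nonneg hu0 _
  have hue : u = ‖E6.pt z / n - E6.pt z' / n‖ := by
    rw [hu, ← sub_div, norm_div, Complex.norm_natCast]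
  rcases le_or_gt (d * δ / 2) u with hbig | hsmall
  · -- large distances
    have h1 : 1 ≤ (2 / (d * δ)) ^ β' * u ^ β' := by
      rw [← Real.mul_rpow (by positivity) hu0]
      refine rpow_ge_one ?_ hβ'0.le
      rw [div_mul_eq_mul_div, le_div_iff₀ (by positivity)]; linarith
    have h2 : |tr K w x₀ δ n z - tr K w x₀ δ n z'| ≤ 2 * M := by
      refine (abs_sub _ _).trans ?_
      have := hbd z hz
      have := hbd z' hz'
      linarith
    have h3 : 2 * M ≤ B * u ^ β' := by
      have : B * u ^ β' = 2 * M * ((2 / (d * δ)) ^ β' * u ^ β') := by rw [hB]; ring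
      rw [this]
      exact le_mul_of_one_le_right (by positivity) h1
    have h4 : 0 ≤ A * u ^ β' := mul_nonneg hA0 huβ
    linarith [add_mul A B (u ^ β')]
  · -- small distances
    have hsm : d * δ / 2 ≤ δ / 4 := by nlinarith
    have h4 : 0 ≤ B * u ^ β' := mul_nonneg hB0 huβ
    suffices h5 : |tr K w x₀ δ n z - tr K w x₀ δ n z'| ≤ A * u ^ β' by
      linarith [add_mul A B (u ^ β')]
    set R := infDist (E6.pt z / n) K with hR
    set R' := infDist (E6.pt z' / n) K with hR'
    have k1 : R ≤ R' + u := by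
      have := infDist_le_infDist_add_dist (s := K) (x := E6.pt z / n) (y := E6.pt z' / n)
      rwa [dist_eq_norm, ← hue] at this
    have k2 : R' ≤ R + u := by
      have := infDist_le_infDist_add_dist (s := K) (x := E6.pt z' / n) (y := E6.pt z / n)
      rwa [dist_comm, dist_eq_norm, ← hue] at this
    by_cases hz0 : R ≤ δ ∧ R' ≤ δ
    · unfold tr
      rw [chi_zero hδ hz0.1, chi_zero hδ hz0.2, zero_mul, zero_mul, sub_self, abs_zero]
      exact mul_nonneg hA0 huβ
    · rw [not_and_or, not_le, not_le] at hz0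
      have hRδ : δ / 2 ≤ R := by rcases hz0 with h | h <;> linarith
      have hRδ' : δ / 2 ≤ R' := by rcases hz0 with h | h <;> linarith
      have hR0 : 0 < R := by linarith
      have m1 := hMn z' hz' hRδ'
      have hdR : d * (δ / 2) ≤ d * R := mul_le_mul_of_nonneg_left hRδ hd0.le
      have m2 := hn z hz z' hz' (by linarith)
      have e : tr K w x₀ δ n z - tr K w x₀ δ n z' = chi K δ (E6.pt z / n) * (w n z - w n z') +
          (chi K δ (E6.pt z / n) - chi K δ (E6.pt z' / n)) * (w n z' - w n (fs n x₀)) := by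
        unfold tr; ring
      set y : ℝ := 2 / δ * u with hy
      have hy0 : 0 ≤ y := by positivity
      have hy1 : y ≤ 1 := by
        rw [hy, div_mul_eq_mul_div, div_le_one hδ]; linarith
      have hyβ : y ≤ y ^ β' := by
        calc y = y ^ (1 : ℝ) := (Real.rpow_one y).symm
          _ ≤ y ^ β' := Real.rpow_le_rpow_of_exponent_ge' hy0 hy1 hβ'0.le (min_le_right _ _)
      have hyββ : y ^ β ≤ y ^ β' :=
        Real.rpow_le_rpow_of_exponent_ge' hy0 hy1 hβ'0.le (min_le_left _ _)
      have huR : u / R ≤ y := by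
        rw [hy, div_mul_eq_mul_div, div_le_div_iff₀ hR0 hδ]
        nlinarith
      have n1 : |chi K δ (E6.pt z / n) * (w n z - w n z')| ≤ max C 0 * y ^ β' := by
        rw [abs_mul, abs_of_nonneg (chi_nonneg _ _)]
        calc _ ≤ 1 * |w n z - w n z'| :=
              mul_le_mul_of_nonneg_right (chi_le _ _) (abs_nonneg _)
          _ ≤ C * (u / R) ^ β := by rw [one_mul]; exact m2
          _ ≤ max C 0 * (u / R) ^ β := mul_le_mul_of_nonneg_right (le_max_left _ _)
              (Real.rpow_nonneg (by positivity) _)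
          _ ≤ max C 0 * y ^ β' := by
              refine mul_le_mul_of_nonneg_left ?_ (le_max_right _ _)
              exact (Real.rpow_le_rpow (by positivity) huR hβ.le).trans hyββ
      have n2 : |(chi K δ (E6.pt z / n) - chi K δ (E6.pt z' / n)) * (w n z' - w n (fs n x₀))| ≤
          M * y ^ β' := by
        rw [abs_mul, mul_comm]
        refine mul_le_mul m1 ?_ (abs_nonneg _) hM0
        refine (chi_lip hδ _ _).trans ?_
        rw [← hue]
        refine le_trans ?_ hyβ
        rw [hy]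
        have : u / δ ≤ 2 / δ * u := by
          rw [div_mul_eq_mul_div]
          exact (div_le_div_iff_of_pos_right hδ).2 (by linarith)
        exact this
      rw [e]
      refine (abs_add_le _ _).trans ?_
      have e2 : A * u ^ β' = max C 0 * y ^ β' + M * y ^ β' := by
        rw [hA, hy, Real.mul_rpow (by positivity) hu0]; ring
      rw [e2]
      exact add_le_add n1 n2

end Vale.Agent.P167.CAQ
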