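import Vale.Agent.P167.CA.Defs

/-!
# P167, general `q`: CORE-ASM in law-free form (definitions and interfaces)

A `Fam S` is a family of functionals `V_n` of the charges on the sites of the `n`-fold enlargement of
the lattice polygon `S`, along a filter `L ≤ atTop` of indices `n`, together with the potentials
`H_n(a; z) = - ∂ V_n / ∂ a(z)`. No law is mentioned. The constant of the quadratic form is `s`
(`s = 2 / (π - μ)` for the random cluster model with `√q = 2 cos μ`, `s = 3 / π` for `q = 1`).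

The inputs `MOM`, `M2`, `EQ`, `NEU` and the output `CORE` are those of `CA/Defs`.
-/

namespace Vale.Agent.P167.CAQ

open MeasureTheory Filter Topology Set Complex
open Vale.Agent.P167.BR (sites)
open Vale.Agent.P167.BVP (Test)
open Vale.Agent.P167.CA (Dat cms en Pair)
open P198W (lap)
open scoped ContDiff

/-- `a` is supported by the sites of the domain. -/
def Supp {K : Type*} [Zero K] (S : Dat) (n : ℕ) (a : ℤ × ℤ → K) : Prop :=
  ∀ z, a z ≠ 0 → z ∈ sites (S.D n)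

/-- The algebraic properties of the functional at one index `n`. -/
structure FamAt (S : Dat) (n : ℕ) (Vc : (ℤ × ℤ → ℂ) → ℂ) (H : (ℤ × ℤ → ℝ) → ℤ × ℤ → ℝ)
    (b : ℤ × ℤ) : Prop where
  /-- `s ↦ V (a + s c)` is entire. -/
  entire : ∀ a c : ℤ × ℤ → ℂ, Supp S n a → Supp S n c →
    Differentiable ℂ fun s : ℂ => Vc fun z => a z + s * c z
  /-- `V` is real on real charges. -/
  real : ∀ a : ℤ × ℤ → ℝ, Supp S n a → (Vc fun z => (a z : ℂ)).im = 0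
  /-- `H = - ∂ V`. -/
  der : ∀ a c : ℤ × ℤ → ℝ, Supp S n a → Supp S n c →
    deriv (fun s : ℂ => Vc fun z => (a z : ℂ) + s * (c z : ℂ)) 0 =
      ((-∑ z ∈ sites (S.D n), c z * H a z : ℝ) : ℂ)
  /-- `V (0) = 1`. -/
  one : Vc (fun _ => 0) = 1
  /-- The base site is a site. -/
  mem : b ∈ sites (S.D n)
  /-- The potentials vanish at the base site. -/
  base : ∀ a : ℤ × ℤ → ℝ, Supp S n a → H a b = 0

/-- A family of functionals in the enlargements of a lattice polygon. -/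
structure Fam (S : Dat) where
  /-- The filter of the indices. -/
  L : Filter ℕ
  le : L ≤ atTop
  cg : L.IsCountablyGenerated
  /-- The constant of the quadratic form. -/
  s : ℝ
  Vc : ℕ → (ℤ × ℤ → ℂ) → ℂ
  Hl : ℕ → (ℤ × ℤ → ℝ) → ℤ × ℤ → ℝ
  b : ℕ → ℤ × ℤ
  ok : ∀ᶠ n in L, FamAt S n (Vc n) (Hl n) (b n)

namespace Fam

variable {S : Dat} (F : Fam S)

/-- `V_n(f)`. -/
noncomputable def V (n : ℕ) (f : ℂ → ℝ) : ℝ := (F.Vc n fun z => (cms f (1 / n) z : ℂ)).re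

/-- `H_n(f; z)`. -/
noncomputable def H (n : ℕ) (f : ℂ → ℝ) (z : ℤ × ℤ) : ℝ := F.Hl n (cms f (1 / n)) z

/-- `W_n(z) = H_n(f; z) - V_n(f) H_n(0; z)`. -/
noncomputable def W (n : ℕ) (f : ℂ → ℝ) (z : ℤ × ℤ) : ℝ :=
  F.H n f z - F.V n f * F.H n (fun _ => 0) z

/-- The pairing `∑ h H_n(f; .)`. -/
noncomputable def HS (n : ℕ) (h f : ℂ → ℝ) : ℝ :=
  ∑ z ∈ sites (S.D n), cms h (1 / n) z * F.H n f z

/-- The linear functional `(f, U_n) = ∑ f H_n(0; .)`. -/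
noncomputable def U (n : ℕ) (f : ℂ → ℝ) : ℝ := F.HS n f fun _ => 0

/-- (MOM) First moments, for all test functions `ψ`. -/
def MOM : Prop :=
  ∀ f ψ : ℂ → ℝ, S.FF f → Test S.P ψ →
    Tendsto (fun n : ℕ => F.HS n (lap ψ) f + F.s * (∫ z, f z * ψ z) * F.V n f) F.L (𝓝 0)

/-- (M2) Uniform bounds for the complex charges `c f`, `c` in a complex neighbourhood of
`[-1, 1]`. -/
def M2 : Prop :=
  ∀ f : ℂ → ℝ, S.FF f → ∃ ρ > 0, ∃ C : ℝ, ∀ᶠ n : ℕ in F.L,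
    ∀ t : ℝ, |t| ≤ 1 → ∀ s : ℂ, ‖s‖ ≤ ρ →
      ‖F.Vc n (fun z => (t + s) * (cms f (1 / n) z : ℂ))‖ ≤ C

/-- (EQ) Equicontinuity up to the boundary. -/
def EQ : Prop :=
  ∀ f : ℂ → ℝ, S.FF f → ∃ C β : ℝ, 0 < β ∧ ∀ᶠ n : ℕ in F.L,
    ∀ z ∈ sites (S.D n), ∀ z' ∈ sites (S.D n),
      |F.W n f z - F.W n f z'| ≤ C * (‖E6.pt z - E6.pt z'‖ / n) ^ β

/-- (NEU) The Neumann condition along the unit sides of the polygon (away from their end points and
from the points at the position `tp`), averaged with a smooth function `φ`. -/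
def NEU : Prop :=
  ∀ f : ℂ → ℝ, S.FF f → ∀ (w : ℤ × ℤ) (r : Fin 4), E6.face w r ∈ S.Q →
    E6.face w (r - 1) ∉ S.Q → ∀ φ : ℝ → ℝ, ContDiff ℝ ∞ φ → tsupport φ ⊆ Ioo 0 1 \ {S.tp} →
    ∀ ε > 0, ∃ r₀ > 0, ∀ h : ℝ, 0 < h → h < r₀ → ∀ᶠ n : ℕ in F.L,
      |(∑ x ∈ Finset.range n, φ (x / n) *
        (F.W n f ((n : ℤ) • w + (x : ℤ) • E6.dir r + (⌊h * n⌋₊ : ℤ) • E6.dir (r + 1)) -
          F.W n f ((n : ℤ) • w + (x : ℤ) • E6.dir r))) / n| ≤ ε * h

/-- **The core**: `V_n(f) = exp (-(f, U_n) - (s/2) (f, N f)) + o(1)`, with bounded `(f, U_n)`. -/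
def CORE : Prop :=
  ∀ ψ g : ℂ → ℂ, Pair S.P ψ g → ∀ f : ℂ → ℝ, S.FF f →
    (∃ C : ℝ, ∀ᶠ n : ℕ in F.L, |F.U n f| ≤ C) ∧
    Tendsto (fun n : ℕ => F.V n f - Real.exp (-F.U n f - F.s / 2 * en g f f)) F.L (𝓝 0)

end Fam

end Vale.Agent.P167.CAQ
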