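import Vale.Agent.P167.H192.Q.RatB

/-!
# P167, general `q`, block Q-EQJ: arms and mixing near a frozen arc of one colour

`Fz b x R A ξ`: the squares of the box `(x, R)` outside of `A` have the state `!b` (`b = true`: free arc;
`b = false`: wired arc). Arms of colour `b` (`ArmB`) decay uniformly, and local functions mix.
-/

namespace Vale.Agent.P167.CAQ.J

open Finset Relation Vale.Agent.P167.FK Vale.Agent.P167.FKA
open Vale.Agent.P167.H519 (Rat)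
open Vale.Agent.P167.H192.Q (Fr Wr sq1 im_Bq mem_im sq1_inj ex_du loc_du ind_du)

variable {Q : ℝ} {x : ℤ × ℤ} {r R : ℤ} {A V : Finset (ℤ × ℤ)} {F : Cfg → ℝ} {ξ ξ' : Cfg}

/-- Arms of colour `b`. -/
def ArmB (b : Bool) (x : ℤ × ℤ) (r R : ℤ) (ω : Cfg) : Prop :=
  if b then ArmPx x r R ω else ArmDx x r R ω

/-- The squares of the box outside of `A` are frozen in the state `!b`. -/
def Fz (b : Bool) (x : ℤ × ℤ) (R : ℤ) (A : Finset (ℤ × ℤ)) (ξ : Cfg) : Prop :=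
  ∀ v ∈ Bq x R, v ∉ A → ξ v = !b

theorem Fz.mono {b : Bool} (h : Fz b x R A ξ) (hr : r ≤ R) : Fz b x r A ξ := fun v hv hvA =>
  h v (H167.Q.bq_mono hr hv) hvA

theorem fz_fr (h : Fz true x R A ξ) : Fr x R A ξ := h

theorem fz_wr (h : Fz false x R A ξ) : Wr x R A ξ := h

/-- **Arms of colour `b` next to a frozen arc of the other colour.** -/
theorem arm_b (hQ : 1 ≤ Q) {α C : ℝ} (h : ArmDec Q α C) (b : Bool) (hr : 1 ≤ r) (hrR : r ≤ R)
    (hξ : Good ξ) (hfz : Fz b x R A ξ) (hF0 : ∀ ω, 0 ≤ F ω)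
    (hF : Ind (A ∩ (Bq x R \ Bq x r)) F) :
    Ex Q A ξ (fun ω => F ω * {ω | ArmB b x r R ω}.indicator 1 ω) ≤
      C * ((r : ℝ) / R) ^ α * Ex Q A ξ F := by
  cases b
  · have hd : ∀ ω : Cfg, {ω | ArmB false x r R ω}.indicator (1 : Cfg → ℝ) (H519.dui ω) =
        {ω | ArmPx (FKA.sh x) r R ω}.indicator 1 ω := by
      intro ω
      have e : du (H519.dui ω) = ω := by
        funext v
        simp [H519.dui, FK.du]
      by_cases h1 : ArmPx (FKA.sh x) r R ω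
      · rw [Set.indicator_of_mem (show H519.dui ω ∈ {ω | ArmB false x r R ω} from
          arm_dual.2 (by rw [e]; exact h1)), Set.indicator_of_mem
            (show ω ∈ {ω | ArmPx (FKA.sh x) r R ω} from h1)]
        rfl
      · rw [Set.indicator_of_notMem (show H519.dui ω ∉ {ω | ArmB false x r R ω} from
          fun h2 => h1 (by have := arm_dual.1 (show ArmDx x r R (H519.dui ω) from h2)
                           rwa [e] at this)),
          Set.indicator_of_notMem (show ω ∉ {ω | ArmPx (FKA.sh x) r R ω} from h1)]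
    rw [ex_du hQ hξ (fun ω => F ω * {ω | ArmB false x r R ω}.indicator 1 ω), ex_du hQ hξ F]
    simp only [hd]
    have h2 := H192.Q.ex_arm_bdy hQ (H192.Q.pr_dec hQ h (x := sq1 x) hr hrR) (f_dual.1 _ hξ)
      (fz_wr hfz).du (F := fun ω => F (H519.dui ω)) (fun _ => hF0 _) (by
        have h3 := ind_du hF
        rwa [Finset.image_inter _ _ sq1_inj, Finset.image_sdiff _ _ sq1_inj, im_Bq, im_Bq] at h3)
    exact h2
  · exact H192.Q.ex_arm_bdy hQ (H192.Q.pr_dec hQ h hr hrR) hξ (fz_fr hfz) hF0 hF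

/-- **Mixing next to a frozen arc**, nonnegative functions. -/
theorem mix_b (hQ : 1 ≤ Q) {α C : ℝ} (hα : 0 < α) (hC : 0 < C) (h : ArmDec Q α C) {L : ℤ}
    (hL : Rat Q L) (b : Bool) (hr : 1 ≤ r) (hR : L * (L * r) ≤ R) (hVA : V ⊆ A) (hV : V ⊆ Bq x r)
    (hF0 : ∀ ω, 0 ≤ F ω) (hFV : Loc V F) (hξ : Good ξ) (hfz : Fz b x R A ξ) (hξ' : Good ξ')
    (hfz' : Fz b x R A ξ') :
    |Ex Q A ξ F - Ex Q A ξ' F| ≤ 8 * (2 + 2 ^ α) * C * ((r : ℝ) / R) ^ (α / 2) * Ex Q A ξ' F := by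
  have key : ∀ (x : ℤ × ℤ) (A V : Finset (ℤ × ℤ)) (F : Cfg → ℝ) (ξ ξ' : Cfg), V ⊆ A → V ⊆ Bq x r →
      (∀ ω, 0 ≤ F ω) → Loc V F → Good ξ → Fr x R A ξ → Good ξ' → Fr x R A ξ' →
      |Ex Q A ξ F - Ex Q A ξ' F| ≤
        8 * (2 + 2 ^ α) * C * ((r : ℝ) / R) ^ (α / 2) * Ex Q A ξ' F := by
    intro x A V F ξ ξ' hVA hV hF0 hFV hξ hfr hξ' hfr'
    have hsc := H192.Q.scale_le hL hr hR
    have h1 := H192.Q.mix_bdy hQ hα hC h hL hr hsc.2 hVA hV hF0 hFV hξ hfr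
    have h2 := H192.Q.mix_bdy hQ hα hC h hL hr hsc.2 hVA hV hF0 hFV hξ' hfr'
    have h3 := H192.Q.free_le hQ hL hr hR hVA hV hF0 hFV hξ' hfr'
    have hr0 : (0 : ℝ) < r := by exact_mod_cast (by omega : 0 < r)
    have hR0 : (0 : ℝ) < R := by
      have : (1 : ℤ) ≤ R := hr.trans (hsc.1.trans hsc.2)
      exact_mod_cast (by omega : 0 < R)
    have h4 : 0 ≤ (2 + 2 ^ α) * C * ((r : ℝ) / R) ^ (α / 2) := by positivity
    have h5 := mul_le_mul_of_nonneg_left h3 h4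
    rw [abs_le] at h1 h2 ⊢
    constructor <;> nlinarith [h1.1, h1.2, h2.1, h2.2]
  cases b
  · rw [ex_du hQ hξ F, ex_du hQ hξ' F]
    exact key (sq1 x) (A.image sq1) (V.image sq1) _ _ _ (Finset.image_subset_image hVA)
      (by rw [← im_Bq]; exact Finset.image_subset_image hV) (fun _ => hF0 _) (loc_du hFV)
      (f_dual.1 _ hξ) (fz_wr hfz).du (f_dual.1 _ hξ') (fz_wr hfz').du
  · exact key x A V F ξ ξ' hVA hV hF0 hFV hξ hfz hξ' hfz'

/-- **Mixing next to a frozen arc**, functions of any sign. -/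
theorem mix_abs (hQ : 1 ≤ Q) {α C : ℝ} (hα : 0 < α) (hC : 0 < C) (h : ArmDec Q α C) {L : ℤ}
    (hL : Rat Q L) (b : Bool) (hr : 1 ≤ r) (hR : L * (L * r) ≤ R) (hVA : V ⊆ A) (hV : V ⊆ Bq x r)
    (hFV : Loc V F) (hξ : Good ξ) (hfz : Fz b x R A ξ) (hξ' : Good ξ')
    (hfz' : Fz b x R A ξ') :
    |Ex Q A ξ F - Ex Q A ξ' F| ≤
      8 * (2 + 2 ^ α) * C * ((r : ℝ) / R) ^ (α / 2) * Ex Q A ξ' (fun ω => |F ω|) := by
  have h1 := mix_b hQ hα hC h hL b hr hR hVA hV (F := fun ω => max (F ω) 0)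
    (fun _ => le_max_right _ _) (fun ω ω' hw => by simp only [hFV ω ω' hw]) hξ hfz hξ' hfz'
  have h2 := mix_b hQ hα hC h hL b hr hR hVA hV (F := fun ω => max (-F ω) 0)
    (fun _ => le_max_right _ _) (fun ω ω' hw => by simp only [hFV ω ω' hw]) hξ hfz hξ' hfz'
  have e1 : ∀ ξ, Ex Q A ξ F = Ex Q A ξ (fun ω => max (F ω) 0) -
      Ex Q A ξ (fun ω => max (-F ω) 0) := by
    intro ξ
    rw [← Ex_sub]
    refine Ex_congr fun S _ => ?_
    have := max_zero_sub_max_neg_zero_eq_self (F (cf A ξ S))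
    linarith
  have e2 : Ex Q A ξ' (fun ω => |F ω|) = Ex Q A ξ' (fun ω => max (F ω) 0) +
      Ex Q A ξ' (fun ω => max (-F ω) 0) := by
    rw [← Ex_add]
    refine Ex_congr fun S _ => ?_
    have := max_zero_add_max_neg_zero_eq_abs_self (F (cf A ξ' S))
    linarith
  rw [e1 ξ, e1 ξ', e2]
  set κ := 8 * (2 + 2 ^ α) * C * ((r : ℝ) / R) ^ (α / 2)
  rw [abs_le] at h1 h2 ⊢
  constructor <;> nlinarith [h1.1, h1.2, h2.1, h2.2]

end Vale.Agent.P167.CAQ.J
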