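import Vale.Agent.P167.CAQ.J2
import Vale.Agent.P167.H167.Equi

/-!
# P167, general `q`, block Q-EQJ: the difference of two base potentials near a common frozen arc

`hB Q D η p κ z` = expectation of the sum of `κ A` over the pieces `A` which separate `z` from `p`.
`eqj`: if two outside configurations and two weights agree in the box `(z, R)`, then the difference of
the two potentials is Hölder continuous at `z` at the scale `R`.
-/

namespace Vale.Agent.P167.CAQ.J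

open Finset Relation Vale.Agent.P167.FK Vale.Agent.P167.FKA
open Vale.Agent.P167.BR
open Vale.Agent.P167.H519 (Rat)
open Vale.Agent.P167.H167 (Geo sgm abs_sgm_le Q1 Q2 cls cls_spec cls_eq pcs_filter_eq Bg)

variable {Q : ℝ} {D : Finset (ℤ × ℤ)} {ω η : Cfg} {p z z' : ℤ × ℤ} {κ : Finset Ed → ℝ} {K : ℕ} {m : ℤ}

open Classical in
/-- The potential of a base law: mean of the sum of the weights of the pieces which separate `z`
from `p`. -/
noncomputable def hB (Q : ℝ) (D : Finset (ℤ × ℤ)) (η : Cfg) (p : ℤ × ℤ) (κ : Finset Ed → ℝ)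
    (z : ℤ × ℤ) : ℝ :=
  Ex Q D η (fun ω => ∑ A ∈ pcs ω D, (if Sep D A z p then 1 else 0) * κ A)

open Classical in
/-- The part of the sum with the property `P`. -/
noncomputable def NK (D : Finset (ℤ × ℤ)) (P : Finset Ed → Prop) (σ κ : Finset Ed → ℝ) (ω : Cfg) : ℝ :=
  ∑ A ∈ (pcs ω D).filter P, σ A * κ A

theorem hB_sub (Q : ℝ) (D : Finset (ℤ × ℤ)) (η : Cfg) (p : ℤ × ℤ) (κ : Finset Ed → ℝ) (z z' : ℤ × ℤ) :
    hB Q D η p κ z - hB Q D η p κ z' =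
      Ex Q D η (fun ω => ∑ A ∈ pcs ω D, sgm D p z z' A * κ A) := by
  unfold hB
  rw [← Ex_sub]
  refine Ex_congr fun S _ => ?_
  rw [← Finset.sum_sub_distrib]
  refine Finset.sum_congr rfl fun A _ => ?_
  unfold sgm
  ring

theorem sum_scale (hG : Geo K m D p) (hz : z ∈ sites D) (hz' : z' ∈ sites D)
    {J : ℕ} (hJ : (2 : ℤ) ^ J ≤ m) {j : ℕ} (hj : j < J) (κ : Finset Ed → ℝ) (ω : Cfg)
    [DecidablePred (Small (2 ^ J))] :
    ∑ A ∈ ((pcs ω D).filter (Small (2 ^ J))).filter (fun A => cls A = j), sgm D p z z' A * κ A =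
    NK D (Q1 K z j) (sgm D p z z') κ ω + NK D (Q2 K z z' j) (sgm D p z z') κ ω := by
  classical
  set F := ((pcs ω D).filter (Small (2 ^ J))).filter (fun A => cls A = j) with hF
  have hmem : ∀ A, A ∈ F → A ∈ pcs ω D ∧ Small (2 ^ (j + 1)) A ∧ ¬ Small (2 ^ j) A := by
    intro A hA
    obtain ⟨h1, h2⟩ := Finset.mem_filter.1 hA
    obtain ⟨h3, h4⟩ := Finset.mem_filter.1 h1
    obtain ⟨-, h5, h6⟩ := cls_spec h3 h4
    rw [h2] at h5 h6
    exact ⟨h3, h5, h6⟩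
  have hmem' : ∀ A, A ∈ pcs ω D → Small (2 ^ (j + 1)) A → ¬ Small (2 ^ j) A → A ∈ F := by
    intro A h1 h2 h3
    have h4 : Small (2 ^ J) A := H45.Small.mono (pow_le_pow_right₀ (by norm_num) (by omega)) h2
    exact Finset.mem_filter.2 ⟨Finset.mem_filter.2 ⟨h1, h4⟩, cls_eq h1 h4 h2 h3⟩
  have e1 : F.filter (Q1 K z j) = (pcs ω D).filter (Q1 K z j) := by
    ext A
    constructor
    · intro hA
      obtain ⟨h1, h2⟩ := Finset.mem_filter.1 hA
      exact Finset.mem_filter.2 ⟨(hmem A h1).1, h2⟩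
    · intro hA
      obtain ⟨h1, h2⟩ := Finset.mem_filter.1 hA
      exact Finset.mem_filter.2 ⟨hmem' A h1 h2.2.1 h2.2.2, h2⟩
  have e2 : (F.filter (fun A => ¬ Q1 K z j A)).filter (Q2 K z z' j) =
      (pcs ω D).filter (Q2 K z z' j) := by
    ext A
    constructor
    · intro hA
      obtain ⟨h1, h2⟩ := Finset.mem_filter.1 hA
      exact Finset.mem_filter.2 ⟨(hmem A (Finset.mem_filter.1 h1).1).1, h2⟩
    · intro hA
      obtain ⟨h1, h2⟩ := Finset.mem_filter.1 hA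
      exact Finset.mem_filter.2 ⟨Finset.mem_filter.2
        ⟨hmem' A h1 h2.1.2.1 h2.1.2.2, h2.2⟩, h2⟩
  have e3 : ∑ A ∈ (F.filter (fun A => ¬ Q1 K z j A)).filter (fun A => ¬ Q2 K z z' j A),
      sgm D p z z' A * κ A = 0 := by
    refine Finset.sum_eq_zero fun A hA => ?_
    obtain ⟨h1, h2⟩ := Finset.mem_filter.1 hA
    obtain ⟨h3, h4⟩ := Finset.mem_filter.1 h1
    obtain ⟨h5, h6, h7⟩ := hmem A h3
    by_cases hne : sgm D p z z' A = 0
    · rw [hne, zero_mul]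
    · exfalso
      have h8 : (2 : ℤ) ^ (j + 1) ≤ m :=
        (pow_le_pow_right₀ (by norm_num) (by omega)).trans hJ
      rcases hG.sgm_near h5 (one_le_pow₀ (by norm_num) : (1 : ℤ) ≤ 2 ^ (j + 1)) h8
        (by push_cast; exact h6) hz hz' hne with h9 | h9
      · exact h4 ⟨h9, h6, h7⟩
      · exact h2 ⟨⟨h9, h6, h7⟩, h4⟩
  rw [← Finset.sum_filter_add_sum_filter_not F (Q1 K z j), e1,
    ← Finset.sum_filter_add_sum_filter_not (F.filter (fun A => ¬ Q1 K z j A)) (Q2 K z z' j), e2,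
    e3, add_zero]
  unfold NK
  congr 1

/-- The sum as a sum over the scales. -/
theorem sum_decomp (hG : Geo K m D p) (hz : z ∈ sites D) (hz' : z' ∈ sites D) {J : ℕ}
    (hJ : (2 : ℤ) ^ J ≤ m) (κ : Finset Ed → ℝ) (ω : Cfg) :
    ∑ A ∈ pcs ω D, sgm D p z z' A * κ A =
      ∑ j ∈ Finset.range J, (NK D (Q1 K z j) (sgm D p z z') κ ω +
        NK D (Q2 K z z' j) (sgm D p z z') κ ω) +
      NK D (fun A => ¬ Small (2 ^ J) A) (sgm D p z z') κ ω := by
  classical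
  rw [← Finset.sum_filter_add_sum_filter_not (pcs ω D) (Small (2 ^ J))]
  have eR : ∑ A ∈ (pcs ω D).filter (fun A => ¬ Small (2 ^ J) A), sgm D p z z' A * κ A =
      NK D (fun A => ¬ Small (2 ^ J) A) (sgm D p z z') κ ω := by
    unfold NK
    exact Finset.sum_congr (by ext A; simp only [Finset.mem_filter]) fun _ _ => rfl
  rw [eR]
  congr 1
  have h2 : ∑ A ∈ (pcs ω D).filter (Small (2 ^ J)), sgm D p z z' A * κ A =
      ∑ j ∈ Finset.range J, ∑ A ∈ ((pcs ω D).filter (Small (2 ^ J))).filter (fun A => cls A = j),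
        sgm D p z z' A * κ A := by
    rw [Finset.sum_fiberwise_of_maps_to]
    intro A hA
    obtain ⟨h2, h3⟩ := Finset.mem_filter.1 hA
    exact Finset.mem_range.2 (cls_spec h2 h3).1
  rw [h2]
  refine Finset.sum_congr rfl fun j hj => ?_
  exact sum_scale hG hz hz' hJ (Finset.mem_range.1 hj) κ ω

/-- Locality. -/
theorem NK_loc {P : Finset Ed → Prop} {S : Finset (ℤ × ℤ)} (hP : ∀ A, P A → ∀ e ∈ A, hdv e ∈ S)
    (σ κ : Finset Ed → ℝ) : Loc (D ∩ S) (NK D P σ κ) := by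
  classical
  intro ω ω' h
  set u : Cfg → Cfg := fun ω v => if v ∈ D then ω v else false with hu
  have e : ∀ ω, pcs ω D = pcs (u ω) D := fun ω => pcs_congr fun v hv => by
    simp only [hu, if_pos hv]
  have h1 : (pcs (u ω) D).filter P = (pcs (u ω') D).filter P := by
    refine pcs_filter_eq P (S := (S : Set (ℤ × ℤ))) (fun A hA e he => hP A hA e he) fun v hv => ?_
    simp only [hu]
    split_ifs with hD
    · exact h v (Finset.mem_inter.2 ⟨hD, hv⟩)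
    · rfl
  unfold NK
  rw [e ω, e ω', h1]

theorem abs_NK_le {P : Finset Ed → Prop} {σ κ : Finset Ed → ℝ} {M : ℝ} (hσ : ∀ A, |σ A| ≤ 1)
    (hκ : ∀ A, |κ A| ≤ M) {B : Finset (Finset Ed)}
    (hB : ∀ A ∈ pcs ω D, P A → σ A ≠ 0 → A ∈ B) :
    |NK D P σ κ ω| ≤ M * (B.card : ℝ) := by
  classical
  have hM : 0 ≤ M := (abs_nonneg _).trans (hκ ∅)
  unfold NK
  refine (Finset.abs_sum_le_sum_abs _ _).trans ?_
  have h1 : ∀ A ∈ (pcs ω D).filter P, |σ A * κ A| ≤ if A ∈ B then M else 0 := by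
    intro A hA
    obtain ⟨h2, h3⟩ := Finset.mem_filter.1 hA
    by_cases h0 : σ A = 0
    · rw [h0, zero_mul, abs_zero]
      split_ifs
      · exact hM
      · exact le_rfl
    · rw [if_pos (hB A h2 h3 h0), abs_mul]
      calc |σ A| * |κ A| ≤ 1 * M := mul_le_mul (hσ A) (hκ A) (abs_nonneg _) zero_le_one
        _ = M := one_mul _
  refine (Finset.sum_le_sum h1).trans ?_
  rw [← Finset.sum_filter, Finset.sum_const, nsmul_eq_mul, mul_comm]
  refine mul_le_mul_of_nonneg_left ?_ hM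
  have : ((pcs ω D).filter P).filter (fun A => A ∈ B) ⊆ B := fun A hA => (Finset.mem_filter.1 hA).2
  exact_mod_cast Finset.card_le_card this

theorem q1_Bg {j : ℕ} {A : Finset Ed} (hA : A ∈ pcs ω D) (h : Q1 K z j A) :
    A ∈ Bg D z (((K : ℤ) + 1) * 2 ^ (j + 1)) (((2 : ℤ) ^ j : ℤ) : ℝ) ω := by
  classical
  obtain ⟨e, he⟩ := pcs_nonempty hA
  refine Finset.mem_filter.2 ⟨hA, ⟨e, he, h.1 e he⟩, ?_⟩
  push_cast
  exact h.2.2

theorem q1_heads {j : ℕ} {A : Finset Ed} (h : Q1 K z j A) {e : Ed} (he : e ∈ A) :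
    hdv e ∈ Bq z (((K : ℤ) + 1) * 2 ^ (j + 1) + 1) := by
  have h1 := h.1 e he
  rw [H167.Q.mem_Bq]
  simp only [nm, Prod.fst_sub, Prod.snd_sub, max_le_iff, abs_le] at h1
  omega

/-- One scale. -/
theorem one_scale (hQ : 1 ≤ Q) {α C₀ : ℝ} (hα : 0 < α) (hC₀ : 0 < C₀) (harm : ArmDec Q α C₀)
    {L : ℤ} (hL : Rat Q L) {C1 : ℝ}
    (hmid : ∀ (D : Finset (ℤ × ℤ)) (η : Cfg), Good η → ∀ (x : ℤ × ℤ) (L d R : ℤ), 0 ≤ L → 1 ≤ d →
      L ≤ ((2 * (K + 1) : ℕ) : ℤ) * d → L + d ≤ R → OC x R D η →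
      Ex Q D η (fun ω => ((Bg D x L (d : ℝ) ω).card : ℝ)) ≤ C1)
    (b : Bool) {η₁ η₀ : Cfg} (hη₁ : Good η₁) (hη₀ : Good η₀) {y : ℤ × ℤ} {R T : ℤ}
    (hTR : L * (L * T) ≤ R) (h1 : Fz b y R D η₁) (h0 : Fz b y R D η₀) (hOC : OC y R D η₀)
    {j : ℕ} (hj : 8 * ((K : ℤ) + 1) * 2 ^ j ≤ T) {P : Finset Ed → Prop} (hP : ∀ A, P A → Q1 K y j A)
    {σ κ : Finset Ed → ℝ} {M : ℝ} (hσ : ∀ A, |σ A| ≤ 1) (hκ : ∀ A, |κ A| ≤ M) :
    |Ex Q D η₁ (NK D P σ κ) - Ex Q D η₀ (NK D P σ κ)| ≤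
      8 * (2 + 2 ^ α) * C₀ * (4 * ((K : ℝ) + 1)) ^ (α / 2) * C1 * M * (((2 : ℝ) ^ j / T) ^ (α / 2)) := by
  classical
  have hQ0 : 0 < Q := by linarith
  have hM : 0 ≤ M := (abs_nonneg _).trans (hκ ∅)
  have hL2 := hL.1
  have h2j : (1 : ℤ) ≤ 2 ^ j := one_le_pow₀ (by norm_num)
  have hKj : (1 : ℤ) ≤ ((K : ℤ) + 1) * 2 ^ j := by nlinarith
  have hT : 1 ≤ T := by nlinarith
  have hL1T : T ≤ L * T := by nlinarith
  have hTR' : T ≤ R := by nlinarith
  set r : ℤ := ((K : ℤ) + 1) * 2 ^ (j + 1) + 1 with hr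
  have e2 : ((K : ℤ) + 1) * 2 ^ (j + 1) = 2 * (((K : ℤ) + 1) * 2 ^ j) := by rw [pow_succ]; ring
  have hrT : r ≤ T := by rw [hr, e2]; nlinarith
  have hr4 : r ≤ 4 * (((K : ℤ) + 1) * 2 ^ j) := by rw [hr, e2]; linarith
  have hr1 : 1 ≤ r := by rw [hr, e2]; linarith
  have hmix := mix_abs hQ hα hC₀ harm hL b hr1 (R := R) (A := D) (V := D ∩ Bq y r)
    (F := NK D P σ κ) (x := y) (by
      refine le_trans ?_ hTR
      have : 0 ≤ L * L := by nlinarith
      nlinarith) Finset.inter_subset_left Finset.inter_subset_right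
    (NK_loc (fun A hA e he => q1_heads (hP A hA) he) σ κ) hη₁ h1 hη₀ h0
  have hcnt := hmid D η₀ hη₀ y (((K : ℤ) + 1) * 2 ^ (j + 1)) (2 ^ j) R (by positivity) h2j
    (by push_cast; rw [pow_succ]; nlinarith) (by rw [e2]; nlinarith) hOC
  have habs : Ex Q D η₀ (fun ω => |NK D P σ κ ω|) ≤ M * C1 := by
    refine le_trans ?_ (mul_le_mul_of_nonneg_left hcnt hM)
    rw [← Ex_mul_left]
    refine Ex_mono hQ0 fun S _ => ?_
    exact abs_NK_le hσ hκ fun A hA hPA _ => q1_Bg hA (hP A hPA)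
  have hTp : (0 : ℝ) < T := by exact_mod_cast (by omega : 0 < T)
  have hRp : (0 : ℝ) < R := by exact_mod_cast (by omega : 0 < R)
  have hrp : (0 : ℝ) < r := by exact_mod_cast (by omega : 0 < r)
  have hrat : ((r : ℝ) / R) ^ (α / 2) ≤ (4 * ((K : ℝ) + 1)) ^ (α / 2) * ((2 : ℝ) ^ j / T) ^ (α / 2) := by
    rw [← Real.mul_rpow (by positivity) (by positivity)]
    refine Real.rpow_le_rpow (by positivity) ?_ (by positivity)
    rw [div_le_iff₀ hRp]
    have k1 : (r : ℝ) ≤ 4 * (((K : ℝ) + 1) * 2 ^ j) := by exact_mod_cast hr4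
    have k2 : (T : ℝ) ≤ R := by exact_mod_cast hTR'
    calc (r : ℝ) ≤ 4 * (((K : ℝ) + 1) * 2 ^ j) := k1
      _ = 4 * ((K : ℝ) + 1) * (2 ^ j / T) * T := by field_simp
      _ ≤ 4 * ((K : ℝ) + 1) * (2 ^ j / T) * R := mul_le_mul_of_nonneg_left k2 (by positivity)
  have hc : 0 ≤ 8 * (2 + 2 ^ α) * C₀ := by positivity
  calc |Ex Q D η₁ (NK D P σ κ) - Ex Q D η₀ (NK D P σ κ)|
      ≤ 8 * (2 + 2 ^ α) * C₀ * ((r : ℝ) / R) ^ (α / 2) *
          Ex Q D η₀ (fun ω => |NK D P σ κ ω|) := hmix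
    _ ≤ 8 * (2 + 2 ^ α) * C₀ * ((4 * ((K : ℝ) + 1)) ^ (α / 2) * ((2 : ℝ) ^ j / T) ^ (α / 2)) *
          (M * C1) := by
        refine mul_le_mul (mul_le_mul_of_nonneg_left hrat hc) habs
          (Ex_nonneg hQ0 fun S _ => abs_nonneg _) (by positivity)
    _ = _ := by ring

end Vale.Agent.P167.CAQ.J
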