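import Vale.Agent.P167.CAQ.J3

/-!
# P167, general `q`, block Q-EQJ: Hölder continuity of the difference of two base potentials
-/

namespace Vale.Agent.P167.CAQ.J

open Finset Relation Vale.Agent.P167.FK Vale.Agent.P167.FKA
open Vale.Agent.P167.BR
open Vale.Agent.P167.H519 (Rat)
open Vale.Agent.P167.H167 (Geo sgm abs_sgm_le Q1 Q2 Bg choose_J geom_rpow)

variable {Q : ℝ} {D : Finset (ℤ × ℤ)} {ω η : Cfg} {p z z' : ℤ × ℤ} {κ : Finset Ed → ℝ} {K : ℕ} {m : ℤ}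

theorem Fz.shift {b : Bool} {x y : ℤ × ℤ} {r R : ℤ} {ξ : Cfg} (h : Fz b x R D ξ)
    (hr : nm (x - y) + r ≤ R) : Fz b y r D ξ := by
  intro v hv hvD
  refine h v ?_ hvD
  rw [H167.Q.mem_Bq] at hv ⊢
  have h1 : nm (x - y) ≤ R - r := by linarith
  simp only [nm, Prod.fst_sub, Prod.snd_sub, max_le_iff, abs_le] at h1
  omega

theorem OC.shift {x y : ℤ × ℤ} {r R : ℤ} (h : OC x R D η) (hr : nm (x - y) + r ≤ R) :
    OC y r D η := by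
  intro c a ha h1
  refine h c a ha fun v hv => ?_
  have h2 := H45.nm_sub_le v y x
  rw [H45.nm_sub_comm y x] at h2
  linarith [h1 v hv]

theorem NK_congr {P : Finset Ed → Prop} {σ κ₁ κ₀ : Finset Ed → ℝ}
    (h : ∀ A ∈ pcs ω D, P A → κ₁ A = κ₀ A) : NK D P σ κ₁ ω = NK D P σ κ₀ ω := by
  classical
  unfold NK
  refine Finset.sum_congr rfl fun A hA => ?_
  rw [h A (Finset.mem_filter.1 hA).1 (Finset.mem_filter.1 hA).2]

/-- Final computation. -/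
theorem fin_bound {q α x a k B : ℝ} (hα : 0 < α) (hq : 0 < q) (hq1 : q ≤ 1) (hx0 : 0 ≤ x)
    (hx : x ≤ 2 * Real.sqrt q) (ha0 : 0 ≤ a) (ha : a ≤ k * Real.sqrt q) (hk : 0 ≤ k) {A : ℝ}
    (hA : 0 ≤ A) (hB : 0 ≤ B) :
    A * x ^ (α / 2) + B * a ^ α ≤ (A * 2 ^ (α / 2) + B * k ^ α) * q ^ (α / 4) := by
  have hs : 0 ≤ Real.sqrt q := Real.sqrt_nonneg q
  have e1 : (Real.sqrt q) ^ (α / 2) = q ^ (α / 4) := by
    rw [Real.sqrt_eq_rpow, ← Real.rpow_mul hq.le]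
    congr 1
    ring
  have e2 : (Real.sqrt q) ^ α ≤ q ^ (α / 4) := by
    rw [Real.sqrt_eq_rpow, ← Real.rpow_mul hq.le]
    exact Real.rpow_le_rpow_of_exponent_ge hq hq1 (by linarith)
  have h1 : x ^ (α / 2) ≤ 2 ^ (α / 2) * q ^ (α / 4) := by
    rw [← e1, ← Real.mul_rpow (by norm_num) hs]
    exact Real.rpow_le_rpow hx0 hx (by positivity)
  have h2 : a ^ α ≤ k ^ α * q ^ (α / 4) := by
    calc a ^ α ≤ (k * Real.sqrt q) ^ α := Real.rpow_le_rpow ha0 ha hα.le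
      _ = k ^ α * (Real.sqrt q) ^ α := Real.mul_rpow hk hs
      _ ≤ _ := mul_le_mul_of_nonneg_left e2 (Real.rpow_nonneg hk _)
  calc A * x ^ (α / 2) + B * a ^ α ≤ A * (2 ^ (α / 2) * q ^ (α / 4)) + B * (k ^ α * q ^ (α / 4)) :=
        add_le_add (mul_le_mul_of_nonneg_left h1 hA) (mul_le_mul_of_nonneg_left h2 hB)
    _ = _ := by ring

/-- The choice of the scale. -/
theorem numT {L : ℤ} (hL2 : 2 ≤ L) {K : ℕ} {R r : ℤ} (hr1 : 1 ≤ r)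
    (hrR : (r : ℝ) ≤ 1 / (64 * ((K : ℝ) + 1) ^ 2 * (8 * L ^ 2)) * R) :
    ∃ T : ℤ, 0 < T ∧ (R : ℝ) ≤ 8 * (L : ℝ) ^ 2 * T ∧
      (r : ℝ) ≤ 1 / (64 * ((K : ℝ) + 1) ^ 2) * T ∧ L * (L * T) ≤ R / 2 ∧ 16 * T ≤ R ∧
      64 * r ≤ R := by
  have hL2R : (2 : ℝ) ≤ L := by exact_mod_cast hL2
  have hK0 : (0 : ℝ) ≤ K := Nat.cast_nonneg _
  have hK1 : (1 : ℝ) ≤ ((K : ℝ) + 1) ^ 2 := by nlinarith
  have hLL : (4 : ℤ) ≤ L ^ 2 := by nlinarith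
  have hLLR : (4 : ℝ) ≤ (L : ℝ) ^ 2 := by nlinarith
  have hrR1 : (1 : ℝ) ≤ r := by exact_mod_cast hr1
  have hRbig : 64 * ((K : ℝ) + 1) ^ 2 * (8 * L ^ 2) * r ≤ R := by
    have h1 := hrR
    rw [one_div_mul_eq_div, le_div_iff₀ (by positivity)] at h1
    linarith
  have hR8 : 64 * (8 * (L : ℝ) ^ 2) ≤ R := by
    have h1 : 64 * (8 * (L : ℝ) ^ 2) * 1 ≤ 64 * (8 * (L : ℝ) ^ 2) * (((K : ℝ) + 1) ^ 2 * r) :=
      mul_le_mul_of_nonneg_left (by nlinarith) (by positivity)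
    linarith
  have hRp : (0 : ℝ) < R := by nlinarith
  set T : ℤ := R / (4 * L ^ 2) with hT
  have hL4 : (0 : ℤ) < 4 * L ^ 2 := by positivity
  have hT1 : 4 * L ^ 2 * T ≤ R := Int.mul_ediv_self_le (x := R) (k := 4 * L ^ 2) hL4.ne'
  have hT2 : R < 4 * L ^ 2 * (T + 1) := by
    have := Int.lt_mul_ediv_self_add (x := R) (k := 4 * L ^ 2) hL4
    rw [hT]
    linarith
  have hT2R : (R : ℝ) < 4 * (L : ℝ) ^ 2 * (T + 1) := by exact_mod_cast hT2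
  have hT0 : 0 < T := by
    by_contra hcon
    push Not at hcon
    have h3 : (T : ℝ) ≤ 0 := by exact_mod_cast hcon
    have h4 : 4 * (L : ℝ) ^ 2 * (T + 1) ≤ 4 * (L : ℝ) ^ 2 * 1 :=
      mul_le_mul_of_nonneg_left (by linarith) (by positivity)
    nlinarith
  have hTp : (1 : ℝ) ≤ T := by exact_mod_cast hT0
  have hTR : (R : ℝ) ≤ 8 * (L : ℝ) ^ 2 * T := by
    have h5 : 4 * (L : ℝ) ^ 2 * (T + 1) ≤ 4 * (L : ℝ) ^ 2 * (2 * T) :=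
      mul_le_mul_of_nonneg_left (by linarith) (by positivity)
    linarith
  refine ⟨T, hT0, hTR, ?_, ?_, ?_, ?_⟩
  · rw [one_div_mul_eq_div, le_div_iff₀ (by positivity)]
    have h1 : (r * (64 * ((K : ℝ) + 1) ^ 2)) * (8 * (L : ℝ) ^ 2) ≤ T * (8 * (L : ℝ) ^ 2) := by
      linarith
    exact le_of_mul_le_mul_right h1 (by positivity)
  · rw [Int.le_ediv_iff_mul_le (by norm_num)]
    have : 0 ≤ L ^ 2 * T := by positivity
    calc L * (L * T) * 2 = 2 * (L ^ 2 * T) := by ring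
      _ ≤ 4 * (L ^ 2 * T) := by linarith
      _ = 4 * L ^ 2 * T := by ring
      _ ≤ R := hT1
  · have : 4 * 4 * T ≤ 4 * L ^ 2 * T :=
      mul_le_mul_of_nonneg_right (by linarith) hT0.le
    linarith
  · have h1 : 64 * (r : ℝ) ≤ R := by
      have h2 : 64 * (r : ℝ) * 1 ≤ 64 * (r : ℝ) * (((K : ℝ) + 1) ^ 2 * (8 * L ^ 2)) :=
        mul_le_mul_of_nonneg_left (by nlinarith) (by positivity)
      linarith
    exact_mod_cast h1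

/-- The large pieces. -/
theorem large_part (hQ : 1 ≤ Q) {α C2 : ℝ}
    (hfar : ∀ (b : Bool) (D : Finset (ℤ × ℤ)) (η : Cfg), Good η → ∀ (x : ℤ × ℤ) (L d R : ℤ), 1 ≤ L →
      L ≤ d → 2 * d ≤ R → Fz b x R D η → OC x R D η →
      Ex Q D η (fun ω => ((Bg D x L (d : ℝ) ω).card : ℝ)) ≤ C2 * ((L : ℝ) / d) ^ α)
    (hG : Geo K m D p) (hz : z ∈ sites D) (hz' : z' ∈ sites D) {r R : ℤ} (hr1 : 1 ≤ r)
    (hzz : nm (z - z') ≤ r) (hrm : r ≤ m) {J : ℕ} (hKr : (K : ℤ) * r ≤ 2 ^ J)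
    (hJR : 2 * (2 : ℤ) ^ J ≤ R) (b : Bool) {η : Cfg} (hη : Good η) (hf : Fz b z R D η)
    (hO : OC z R D η) {κ : Finset Ed → ℝ} {M : ℝ} (hκ : ∀ A, |κ A| ≤ M) :
    |Ex Q D η (NK D (fun A => ¬ Small (2 ^ J) A) (sgm D p z z') κ)| ≤
      C2 * M * (((K : ℝ) * r / 2 ^ J) ^ α) := by
  classical
  have hQ0 : 0 < Q := by linarith
  have hM : 0 ≤ M := (abs_nonneg _).trans (hκ ∅)
  have hK1' : (1 : ℤ) ≤ K := hG.one_le
  have h1 := hfar b D η hη z ((K : ℤ) * r) (2 ^ J) R (by nlinarith) hKr hJR hf hO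
  have h2 : |Ex Q D η (NK D (fun A => ¬ Small (2 ^ J) A) (sgm D p z z') κ)| ≤
      M * Ex Q D η (fun ω => ((Bg D z ((K : ℤ) * r) (((2 : ℤ) ^ J : ℤ) : ℝ) ω).card : ℝ)) := by
    refine (abs_Ex_le hQ0 _).trans ?_
    rw [← Ex_mul_left]
    refine Ex_mono hQ0 fun S _ => ?_
    refine abs_NK_le (abs_sgm_le D p z z') hκ fun A hA hP h0 => ?_
    obtain ⟨e, he, h3⟩ := hG.sgm_visit hr1 hrm hz hz' hzz h0
    refine Finset.mem_filter.2 ⟨hA, ⟨e, he, h3⟩, ?_⟩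
    push_cast
    exact hP
  calc _ ≤ M * (C2 * ((((K : ℤ) * r : ℤ) : ℝ) / (((2 : ℤ) ^ J : ℤ) : ℝ)) ^ α) :=
        h2.trans (mul_le_mul_of_nonneg_left h1 hM)
    _ = _ := by push_cast; ring

/-- The difference as a sum over the scales. -/
theorem diff_eq (hG : Geo K m D p) (hz : z ∈ sites D) (hz' : z' ∈ sites D) {J : ℕ}
    (hJm : (2 : ℤ) ^ J ≤ m) (Q : ℝ) (η₁ η₀ : Cfg) {κ₁ κ₀ : Finset Ed → ℝ}
    (h1 : ∀ j < J, ∀ ω : Cfg, NK D (Q1 K z j) (sgm D p z z') κ₁ ω =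
      NK D (Q1 K z j) (sgm D p z z') κ₀ ω)
    (h2 : ∀ j < J, ∀ ω : Cfg, NK D (Q2 K z z' j) (sgm D p z z') κ₁ ω =
      NK D (Q2 K z z' j) (sgm D p z z') κ₀ ω) :
    (hB Q D η₁ p κ₁ z - hB Q D η₀ p κ₀ z) - (hB Q D η₁ p κ₁ z' - hB Q D η₀ p κ₀ z') =
      ∑ j ∈ Finset.range J, ((Ex Q D η₁ (NK D (Q1 K z j) (sgm D p z z') κ₁) -
        Ex Q D η₀ (NK D (Q1 K z j) (sgm D p z z') κ₁)) +
        (Ex Q D η₁ (NK D (Q2 K z z' j) (sgm D p z z') κ₁) -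
          Ex Q D η₀ (NK D (Q2 K z z' j) (sgm D p z z') κ₁))) +
      (Ex Q D η₁ (NK D (fun A => ¬ Small (2 ^ J) A) (sgm D p z z') κ₁) -
        Ex Q D η₀ (NK D (fun A => ¬ Small (2 ^ J) A) (sgm D p z z') κ₀)) := by
  classical
  set σ := sgm D p z z' with hσ
  have hdec : ∀ (η : Cfg) (κ : Finset Ed → ℝ), hB Q D η p κ z - hB Q D η p κ z' =
      ∑ j ∈ Finset.range J, (Ex Q D η (NK D (Q1 K z j) σ κ) + Ex Q D η (NK D (Q2 K z z' j) σ κ)) +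
        Ex Q D η (NK D (fun A => ¬ Small (2 ^ J) A) σ κ) := by
    intro η κ
    rw [hB_sub]
    have e1 : Ex Q D η (fun ω => ∑ A ∈ pcs ω D, sgm D p z z' A * κ A) =
        Ex Q D η (fun ω => ∑ j ∈ Finset.range J, (NK D (Q1 K z j) σ κ ω + NK D (Q2 K z z' j) σ κ ω) +
          NK D (fun A => ¬ Small (2 ^ J) A) σ κ ω) :=
      Ex_congr fun S _ => sum_decomp hG hz hz' hJm κ _
    rw [e1, Ex_add, Ex_sum]
    congr 1
    refine Finset.sum_congr rfl fun j _ => ?_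
    rw [Ex_add]
  have k1 := hdec η₁ κ₁
  have k0 := hdec η₀ κ₀
  have k0' : ∑ j ∈ Finset.range J, (Ex Q D η₀ (NK D (Q1 K z j) σ κ₀) +
      Ex Q D η₀ (NK D (Q2 K z z' j) σ κ₀)) = ∑ j ∈ Finset.range J,
      (Ex Q D η₀ (NK D (Q1 K z j) σ κ₁) + Ex Q D η₀ (NK D (Q2 K z z' j) σ κ₁)) := by
    refine Finset.sum_congr rfl fun j hj => ?_
    rw [Ex_congr fun S _ => (h1 j (Finset.mem_range.1 hj) (cf D η₀ S)).symm,
      Ex_congr fun S _ => (h2 j (Finset.mem_range.1 hj) (cf D η₀ S)).symm]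
  rw [k0'] at k0
  have e1 : (hB Q D η₁ p κ₁ z - hB Q D η₀ p κ₀ z) - (hB Q D η₁ p κ₁ z' - hB Q D η₀ p κ₀ z') =
      (hB Q D η₁ p κ₁ z - hB Q D η₁ p κ₁ z') - (hB Q D η₀ p κ₀ z - hB Q D η₀ p κ₀ z') := by ring
  rw [e1, k1, k0, show ∀ a b c d : ℝ, a + b - (c + d) = (a - c) + (b - d) by intros; ring,
    ← Finset.sum_sub_distrib]
  congr 1
  refine Finset.sum_congr rfl fun j _ => ?_
  ring

/-- The sum over the scales. -/
theorem sum_le {α C' M T : ℝ} (hα : 0 < α) (hT : 0 < T) (hC' : 0 ≤ C') (hM : 0 ≤ M) {J : ℕ}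
    {u v : ℕ → ℝ} (hu : ∀ j < J, |u j| ≤ C' * M * (((2 : ℝ) ^ j / T) ^ (α / 2)))
    (hv : ∀ j < J, |v j| ≤ C' * M * (((2 : ℝ) ^ j / T) ^ (α / 2))) :
    |∑ j ∈ Finset.range J, (u j + v j)| ≤
      2 * C' * M * (1 / ((2 : ℝ) ^ (α / 2) - 1) * ((2 : ℝ) ^ J / T) ^ (α / 2)) := by
  refine (Finset.abs_sum_le_sum_abs _ _).trans ?_
  have h1 : ∀ j ∈ Finset.range J, |u j + v j| ≤ 2 * C' * M * (((2 : ℝ) ^ j / T) ^ (α / 2)) := by
    intro j hj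
    refine (abs_add_le _ _).trans ?_
    have := hu j (Finset.mem_range.1 hj)
    have := hv j (Finset.mem_range.1 hj)
    linarith
  refine (Finset.sum_le_sum h1).trans ?_
  rw [← Finset.mul_sum]
  exact mul_le_mul_of_nonneg_left (geom_rpow (by positivity) hT J) (by positivity)

/-- **Hölder continuity of the difference of two base potentials**, at the scale `R` of the box in
which the two bases agree (frozen arc of one colour, equal weights); with the inputs. -/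
theorem eqj_aux (hQ : 1 ≤ Q) {α C₀ : ℝ} (hα : 0 < α) (hC₀ : 0 < C₀) (harm : ArmDec Q α C₀)
    {L : ℤ} (hL : Rat Q L) {C1 : ℝ} (hC1 : 0 < C1)
    (hmid : ∀ (D : Finset (ℤ × ℤ)) (η : Cfg), Good η → ∀ (x : ℤ × ℤ) (L d R : ℤ), 0 ≤ L → 1 ≤ d →
      L ≤ ((2 * (K + 1) : ℕ) : ℤ) * d → L + d ≤ R → OC x R D η →
      Ex Q D η (fun ω => ((Bg D x L (d : ℝ) ω).card : ℝ)) ≤ C1) {C2 : ℝ} (hC2 : 0 < C2)
    (hfar : ∀ (b : Bool) (D : Finset (ℤ × ℤ)) (η : Cfg), Good η → ∀ (x : ℤ × ℤ) (L d R : ℤ), 1 ≤ L →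
      L ≤ d → 2 * d ≤ R → Fz b x R D η → OC x R D η →
      Ex Q D η (fun ω => ((Bg D x L (d : ℝ) ω).card : ℝ)) ≤ C2 * ((L : ℝ) / d) ^ α)
    (b : Bool) (hG : Geo K m D p) {η₁ η₀ : Cfg}
    (hη₁ : Good η₁) (hη₀ : Good η₀) (hz : z ∈ sites D) {R : ℤ} (hRm : R ≤ m) (hf1 : Fz b z R D η₁)
    (hf0 : Fz b z R D η₀) (hO1 : OC z R D η₁) (hO0 : OC z R D η₀) {κ₁ κ₀ : Finset Ed → ℝ} {M : ℝ}
    (hκ₁ : ∀ A, |κ₁ A| ≤ M) (hκ₀ : ∀ A, |κ₀ A| ≤ M)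
    (heq : ∀ (ω : Cfg), ∀ A ∈ pcs ω D, (∀ e ∈ A, nm (hdv e - z) ≤ R) → κ₁ A = κ₀ A)
    (hz' : z' ∈ sites D) {T : ℤ} (hT0 : 0 < T) (hLT : L * (L * T) ≤ R / 2) (hT16 : 16 * T ≤ R)
    (hr1 : 1 ≤ nm (z - z')) (hr64 : 64 * nm (z - z') ≤ R)
    (hrT : ((nm (z - z') : ℤ) : ℝ) ≤ 1 / (64 * ((K : ℝ) + 1) ^ 2) * T) :
    |(hB Q D η₁ p κ₁ z - hB Q D η₀ p κ₀ z) - (hB Q D η₁ p κ₁ z' - hB Q D η₀ p κ₀ z')| ≤
      M * ((2 * (8 * (2 + 2 ^ α) * C₀ * (4 * ((K : ℝ) + 1)) ^ (α / 2) * C1) *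
        (1 / ((2 : ℝ) ^ (α / 2) - 1)) * 2 ^ (α / 2) + 2 * C2 * K ^ α) *
        (((nm (z - z') : ℤ) : ℝ) / T) ^ (α / 4)) := by
  classical
  have hM : 0 ≤ M := (abs_nonneg _).trans (hκ₁ ∅)
  have hTp : (0 : ℝ) < T := by exact_mod_cast hT0
  have hK0 : (0 : ℝ) ≤ K := Nat.cast_nonneg _
  have hgp : 0 < 1 / ((2 : ℝ) ^ (α / 2) - 1) := by
    have := Real.one_lt_rpow (by norm_num : (1 : ℝ) < 2) (show 0 < α / 2 by positivity)
    exact one_div_pos.2 (by linarith)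
  set g : ℝ := 1 / ((2 : ℝ) ^ (α / 2) - 1) with hg
  set C' : ℝ := 8 * (2 + 2 ^ α) * C₀ * (4 * ((K : ℝ) + 1)) ^ (α / 2) * C1 with hC'
  have hC'p : 0 < C' := by positivity
  obtain ⟨J, hJ1, hJ2, hJT, hKr, hx, ha⟩ := choose_J hr1 hrT
  set r : ℤ := nm (z - z') with hr
  have hJm : (2 : ℤ) ^ J ≤ m := by omega
  have hsh : nm (z - z') + R / 2 ≤ R := by rw [← hr]; omega
  have hsh0 : nm (z - z) + R / 2 ≤ R := by
    rw [sub_self]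
    have : nm (0 : ℤ × ℤ) = 0 := by simp [nm]
    rw [this]; omega
  have hσ1 : ∀ A, |sgm D p z z' A| ≤ 1 := abs_sgm_le D p z z'
  have h2J : (2 : ℤ) ^ (J - 1) ≤ 2 ^ J := pow_le_pow_right₀ (by norm_num) (by omega)
  have hs1 : ∀ j < J, |Ex Q D η₁ (NK D (Q1 K z j) (sgm D p z z') κ₁) -
      Ex Q D η₀ (NK D (Q1 K z j) (sgm D p z z') κ₁)| ≤ C' * M * (((2 : ℝ) ^ j / T) ^ (α / 2)) :=
    fun j hj => one_scale hQ hα hC₀ harm hL hmid b hη₁ hη₀ (R := R / 2) hLT (hf1.shift hsh0)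
      (hf0.shift hsh0) (hO0.shift hsh0) (hJ2 j hj) (fun _ hA => hA) hσ1 hκ₁
  have hs2 : ∀ j < J, |Ex Q D η₁ (NK D (Q2 K z z' j) (sgm D p z z') κ₁) -
      Ex Q D η₀ (NK D (Q2 K z z' j) (sgm D p z z') κ₁)| ≤ C' * M * (((2 : ℝ) ^ j / T) ^ (α / 2)) :=
    fun j hj => one_scale hQ hα hC₀ harm hL hmid b hη₁ hη₀ (R := R / 2) hLT (hf1.shift hsh)
      (hf0.shift hsh) (hO0.shift hsh) (hJ2 j hj) (fun _ hA => hA.1) hσ1 hκ₁
  have hb1 : ∀ j < J, ((K : ℤ) + 1) * 2 ^ (j + 1) + r ≤ R := by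
    intro j hj
    have h2 := hJ2 j hj
    rw [pow_succ]
    have h3 : 0 < ((K : ℤ) + 1) * 2 ^ j := by positivity
    nlinarith
  have hκ1 : ∀ j < J, ∀ ω : Cfg, NK D (Q1 K z j) (sgm D p z z') κ₁ ω =
      NK D (Q1 K z j) (sgm D p z z') κ₀ ω := fun j hj ω =>
    NK_congr fun A hA hP => heq ω A hA fun e he => by
      have := hP.1 e he
      have := hb1 j hj
      linarith
  have hκ2 : ∀ j < J, ∀ ω : Cfg, NK D (Q2 K z z' j) (sgm D p z z') κ₁ ω =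
      NK D (Q2 K z z' j) (sgm D p z z') κ₀ ω := fun j hj ω =>
    NK_congr fun A hA hP => heq ω A hA fun e he => by
      have h1 := hP.1.1 e he
      have h4 := H45.nm_sub_le (hdv e) z' z
      rw [H45.nm_sub_comm z' z, ← hr] at h4
      have := hb1 j hj
      linarith
  rw [diff_eq hG hz hz' hJm Q η₁ η₀ hκ1 hκ2]
  have hsum := sum_le hα hTp hC'p.le hM hs1 hs2
  have hL1 := large_part hQ hfar hG hz hz' hr1 hr.ge (by omega) (J := J) (by omega) (R := R)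
    (by omega) b hη₁ hf1 hO1 hκ₁
  have hL0 := large_part hQ hfar hG hz hz' hr1 hr.ge (by omega) (J := J) (by omega) (R := R)
    (by omega) b hη₀ hf0 hO0 hκ₀
  set a : ℝ := (K : ℝ) * r / 2 ^ J with hadef
  have hrp : (0 : ℝ) < r := by exact_mod_cast (by omega : 0 < r)
  have ha0 : 0 ≤ a := by positivity
  have ha1 : a ≤ K * Real.sqrt ((r : ℝ) / T) := by
    have e : (2 : ℝ) ^ J = 2 * 2 ^ (J - 1) := by
      obtain ⟨i, rfl⟩ : ∃ i, J = i + 1 := ⟨J - 1, by omega⟩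
      rw [Nat.add_sub_cancel, pow_succ]; ring
    have h1 : a = (((K : ℤ) * r : ℤ) : ℝ) / ((2 ^ (J - 1) : ℤ) : ℝ) / 2 := by
      rw [hadef, e]; push_cast; field_simp
    rw [h1]
    linarith
  have hqp : 0 < (r : ℝ) / T := by positivity
  have hq1 : (r : ℝ) / T ≤ 1 := by
    rw [div_le_one hTp]
    have h1 : 1 / (64 * ((K : ℝ) + 1) ^ 2) * T ≤ 1 * T := by
      refine mul_le_mul_of_nonneg_right ?_ hTp.le
      rw [div_le_one (by positivity)]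
      nlinarith
    linarith
  have hfin := fin_bound hα hqp hq1 (x := (2 : ℝ) ^ J / T) (by positivity) hx ha0 ha1 hK0
    (A := 2 * C' * g) (by positivity) (B := 2 * C2) (by positivity)
  refine (abs_add_le _ _).trans ((add_le_add hsum ((abs_sub _ _).trans
    (add_le_add hL1 hL0))).trans ?_)
  calc 2 * C' * M * (g * ((2 : ℝ) ^ J / T) ^ (α / 2)) + (C2 * M * a ^ α + C2 * M * a ^ α)
      = M * (2 * C' * g * ((2 : ℝ) ^ J / T) ^ (α / 2) + 2 * C2 * a ^ α) := by ring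
    _ ≤ _ := mul_le_mul_of_nonneg_left hfin hM

/-- **Hölder continuity of the difference of two base potentials**, at the scale `R` of the box in
which the two bases agree (frozen arc of one colour, equal weights). -/
theorem eqj (hQ : 1 ≤ Q) (h : RSW Q) (K : ℕ) : ∃ C β δ : ℝ, 0 < C ∧ 0 < β ∧ 0 < δ ∧
    ∀ (b : Bool) (D : Finset (ℤ × ℤ)) (p : ℤ × ℤ) (m : ℤ), Geo K m D p → ∀ η₁ η₀ : Cfg,
    Good η₁ → Good η₀ → ∀ z ∈ sites D, ∀ R : ℤ, R ≤ m → Fz b z R D η₁ → Fz b z R D η₀ →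
    OC z R D η₁ → OC z R D η₀ → ∀ (κ₁ κ₀ : Finset Ed → ℝ) (M : ℝ), (∀ A, |κ₁ A| ≤ M) →
    (∀ A, |κ₀ A| ≤ M) →
    (∀ (ω : Cfg), ∀ A ∈ pcs ω D, (∀ e ∈ A, nm (hdv e - z) ≤ R) → κ₁ A = κ₀ A) →
    ∀ z' ∈ sites D, (nm (z - z') : ℝ) ≤ δ * R →
    |(hB Q D η₁ p κ₁ z - hB Q D η₀ p κ₀ z) - (hB Q D η₁ p κ₁ z' - hB Q D η₀ p κ₀ z')| ≤
      C * M * ((nm (z - z') : ℝ) / R) ^ β := by
  obtain ⟨α, C₀, hα, hC₀, harm, harmD⟩ := arm_fk hQ h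
  obtain ⟨L, hL⟩ := H519.exists_rat hQ hα harm harmD
  obtain ⟨C1, hC1, hmid⟩ := cnt_mid hQ h (2 * (K + 1))
  obtain ⟨C2, hC2, hfar⟩ := cnt_far hQ h hα hC₀ harm
  have hL2 : 2 ≤ L := hL.1
  have hgp : 0 < 1 / ((2 : ℝ) ^ (α / 2) - 1) := by
    have := Real.one_lt_rpow (by norm_num : (1 : ℝ) < 2) (show 0 < α / 2 by positivity)
    exact one_div_pos.2 (by linarith)
  have hK0 : (0 : ℝ) ≤ K := Nat.cast_nonneg _
  have hKα : 0 ≤ (K : ℝ) ^ α := Real.rpow_nonneg hK0 _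
  have hLp : (0 : ℝ) < L := by exact_mod_cast (by omega : 0 < L)
  set B : ℝ := 2 * (8 * (2 + 2 ^ α) * C₀ * (4 * ((K : ℝ) + 1)) ^ (α / 2) * C1) *
    (1 / ((2 : ℝ) ^ (α / 2) - 1)) * 2 ^ (α / 2) + 2 * C2 * K ^ α with hB
  have hB0 : 0 < B := by positivity
  refine ⟨B * (8 * (L : ℝ) ^ 2) ^ (α / 4), α / 4,
    1 / (64 * ((K : ℝ) + 1) ^ 2 * (8 * L ^ 2)), by positivity, by positivity, by positivity, ?_⟩
  intro b D p m hG η₁ η₀ hη₁ hη₀ z hz R hRm hf1 hf0 hO1 hO0 κ₁ κ₀ M hκ₁ hκ₀ heq z' hz' hzz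
  have hM : 0 ≤ M := (abs_nonneg _).trans (hκ₁ ∅)
  rcases (H45.nm_nonneg (z - z')).eq_or_lt with hr0' | hr0'
  · -- the same point
    have e : z = z' := by
      have h1 : nm (z - z') ≤ 0 := by rw [← hr0']
      simp only [nm, Prod.fst_sub, Prod.snd_sub, max_le_iff, abs_le] at h1
      ext <;> omega
    rw [← hr0', ← e, sub_self, abs_zero]
    simp only [Int.cast_zero, zero_div]
    rw [Real.zero_rpow (by positivity), mul_zero]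
  have hr1 : 1 ≤ nm (z - z') := hr0'
  obtain ⟨T, hT0, hTR, hrT, hLT, hT16, hr64⟩ := numT hL2 hr1 hzz
  have hmain := eqj_aux hQ hα hC₀ harm hL hC1 hmid hC2 hfar b hG hη₁ hη₀ hz hRm hf1 hf0 hO1 hO0
    hκ₁ hκ₀ heq hz' hT0 hLT hT16 hr1 hr64 hrT
  refine hmain.trans ?_
  have hTp : (0 : ℝ) < T := by exact_mod_cast hT0
  have hRp : (0 : ℝ) < R := by exact_mod_cast (by omega : 0 < R)
  have hrp : (0 : ℝ) < nm (z - z') := by exact_mod_cast hr0'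
  have hqR : ((nm (z - z') : ℝ) / T) ^ (α / 4) ≤
      (8 * (L : ℝ) ^ 2) ^ (α / 4) * ((nm (z - z') : ℝ) / R) ^ (α / 4) := by
    rw [← Real.mul_rpow (by positivity) (by positivity)]
    refine Real.rpow_le_rpow (by positivity) ?_ (by positivity)
    rw [div_le_iff₀ hTp, mul_comm (8 * (L : ℝ) ^ 2), mul_assoc, div_mul_eq_mul_div,
      le_div_iff₀ hRp]
    exact mul_le_mul_of_nonneg_left hTR hrp.le
  calc M * (B * ((nm (z - z') : ℝ) / T) ^ (α / 4))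
      ≤ M * (B * ((8 * (L : ℝ) ^ 2) ^ (α / 4) * ((nm (z - z') : ℝ) / R) ^ (α / 4))) :=
        mul_le_mul_of_nonneg_left (mul_le_mul_of_nonneg_left hqR hB0.le) hM
    _ = _ := by ring

end Vale.Agent.P167.CAQ.J
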