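import Vale.Agent.P167.CAQ.J4
import Vale.Agent.P167.H718.DobN
import Vale.Agent.P167.H436.Geo

/-!
# P167, general `q`, block Q-EQJ: the frozen squares near a boundary arc of an enlarged polygon

The squares of a small box outside of an enlarged lattice polygon form one cluster (`oc_of_fz`).
-/

namespace Vale.Agent.P167.CAQ.J

open Finset Relation Vale.Agent.P167.FK Vale.Agent.P167.FKA
open Vale.Agent.P167.BR
open Vale.Agent.P167.E6 (IsPolygon Encloses dir face)
open Vale.Agent.P167.H166 (bxx mem_bxx)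
open Vale.Agent.P167.H562.QM (OneC OneP QC mem_image_sh)

variable {S : Finset (ℤ × ℤ)} {n : ℕ} {l : ℕ} {p : ZMod l → ℤ × ℤ}

theorem mem_enl_div (hn : 0 < n) {w : ℤ × ℤ} : w ∈ CA.enl S n ↔ (w.1 / n, w.2 / n) ∈ S := by
  have hn' : (0 : ℤ) < n := by exact_mod_cast hn
  rw [H436.mem_enl]
  constructor
  · rintro ⟨v, hv, h1, h2, h3, h4⟩
    have e1 : w.1 / n = v.1 := by
      rw [Int.ediv_eq_iff_of_pos hn']
      constructor <;> linarith
    have e2 : w.2 / n = v.2 := by
      rw [Int.ediv_eq_iff_of_pos hn']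
      constructor <;> linarith
    rw [e1, e2]
    exact hv
  · intro h
    refine ⟨_, h, ?_⟩
    have h1 := Int.mul_ediv_add_emod w.1 n
    have h2 := Int.mul_ediv_add_emod w.2 n
    have h3 := Int.emod_nonneg w.1 hn'.ne'
    have h4 := Int.emod_nonneg w.2 hn'.ne'
    have h5 := Int.emod_lt_of_pos w.1 hn'
    have h6 := Int.emod_lt_of_pos w.2 hn'
    dsimp only
    omega

/-- At a vertex the inside faces are not two opposite ones. -/
theorem no_pinch (hp : IsPolygon p) (hE : Encloses p S) (v : ℤ × ℤ) (r : Fin 4)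
    (h0 : face v r ∈ S) (h1 : face v (r + 1) ∉ S) (h2 : face v (r + 2) ∈ S)
    (h3 : face v (r + 3) ∉ S) : False := by
  have e1 : r - 1 = r + 3 := (by decide : ∀ r : Fin 4, r - 1 = r + 3) r
  have e2 : r + 2 - 1 = r + 1 := (by decide : ∀ r : Fin 4, r + 2 - 1 = r + 1) r
  obtain ⟨i, hi, hi'⟩ := (hE v r).2 ⟨h0, by rw [e1]; exact h3⟩
  obtain ⟨j, hj, hj'⟩ := (hE v (r + 2)).2 ⟨h2, by rw [e2]; exact h1⟩
  have hij : i = j := hp.2.1 (hi.trans hj.symm)
  rw [hij] at hi'
  have h4 : dir r = dir (r + 2) := add_left_cancel (hi'.symm.trans hj')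
  exact (by decide : ∀ r : Fin 4, r ≠ r + 2) r (H718.dirInj h4)

/-- Two cells of the complement in a `2 × 2` block. -/
theorem corner_cell (hp : IsPolygon p) (hE : Encloses p S) {a b c d : ℤ} (h1 : (a, b) ∉ S)
    (h2 : (c, d) ∉ S) (hac : c ≤ a + 1 ∧ a ≤ c + 1) (hbd : d ≤ b + 1 ∧ b ≤ d + 1) :
    (c, b) ∉ S ∨ (a, d) ∉ S := by
  by_contra hcon
  push Not at hcon
  obtain ⟨h3, h4⟩ := hcon
  have hac' : a ≠ c := by rintro rfl; exact h2 h4
  have hbd' : b ≠ d := by rintro rfl; exact h2 h3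
  have f0 : ∀ x y : ℤ, face (x, y) 0 = (x, y) := fun x y => by simp [face]
  have f1 : ∀ x y : ℤ, face (x, y) 1 = (x - 1, y) := fun x y => by
    show ((x, y) : ℤ × ℤ) + (-1, 0) = _
    ext <;> simp [sub_eq_add_neg]
  have f2 : ∀ x y : ℤ, face (x, y) 2 = (x - 1, y - 1) := fun x y => by
    show ((x, y) : ℤ × ℤ) + (-1, -1) = _
    ext <;> simp [sub_eq_add_neg]
  have f3 : ∀ x y : ℤ, face (x, y) 3 = (x, y - 1) := fun x y => by
    show ((x, y) : ℤ × ℤ) + (0, -1) = _
    ext <;> simp [sub_eq_add_neg]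
  rcases (show c = a + 1 ∨ a = c + 1 by omega) with rfl | rfl <;>
    rcases (show d = b + 1 ∨ b = d + 1 by omega) with rfl | rfl
  · -- `(a, b)` lower left, `(a + 1, b + 1)` upper right, both outside
    refine no_pinch hp hE (a + 1, b + 1) 1 ?_ ?_ ?_ ?_
    · rw [f1]; simpa using h4
    · show face (a + 1, b + 1) 2 ∉ S
      rw [f2]; simpa using h1
    · show face (a + 1, b + 1) 3 ∈ S
      rw [f3]; simpa using h3
    · show face (a + 1, b + 1) 0 ∉ S
      rw [f0]; exact h2
  · -- `(a, d + 1)` upper left, `(a + 1, d)` lower right outside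
    refine no_pinch hp hE (a + 1, d + 1) 0 ?_ ?_ ?_ ?_
    · rw [f0]; exact h3
    · show face (a + 1, d + 1) 1 ∉ S
      rw [f1]; simpa using h1
    · show face (a + 1, d + 1) 2 ∈ S
      rw [f2]; simpa using h4
    · show face (a + 1, d + 1) 3 ∉ S
      rw [f3]; simpa using h2
  · -- `(c + 1, b)` lower right, `(c, b + 1)` upper left outside
    refine no_pinch hp hE (c + 1, b + 1) 0 ?_ ?_ ?_ ?_
    · rw [f0]; exact h4
    · show face (c + 1, b + 1) 1 ∉ S
      rw [f1]; simpa using h2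
    · show face (c + 1, b + 1) 2 ∈ S
      rw [f2]; simpa using h3
    · show face (c + 1, b + 1) 3 ∉ S
      rw [f3]; simpa using h1
  · -- `(c + 1, d + 1)` upper right, `(c, d)` lower left outside
    refine no_pinch hp hE (c + 1, d + 1) 1 ?_ ?_ ?_ ?_
    · rw [f1]; simpa using h3
    · show face (c + 1, d + 1) 2 ∉ S
      rw [f2]; simpa using h2
    · show face (c + 1, d + 1) 3 ∈ S
      rw [f3]; simpa using h4
    · show face (c + 1, d + 1) 0 ∉ S
      rw [f0]; exact h1

theorem div_between (hn : 0 < n) {x y t : ℤ} (h : |x - y| < n) (h1 : min x y ≤ t) (h2 : t ≤ max x y) :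
    t / n = x / n ∨ t / n = y / n := by
  have hn' : (0 : ℤ) < n := by exact_mod_cast hn
  have hm : Monotone fun a : ℤ => a / (n : ℤ) := fun a b hab => Int.ediv_le_ediv hn' hab
  rw [abs_lt] at h
  have key : ∀ x y : ℤ, x ≤ y → y - x < n → x ≤ t → t ≤ y → t / n = x / n ∨ t / n = y / n := by
    intro x y hxy hd h1 h2
    have k1 : x / n ≤ t / n := hm h1
    have k2 : t / n ≤ y / n := hm h2
    have k3 : y / n ≤ x / n + 1 := by
      have : y / n ≤ (x + n) / n := hm (by linarith)
      rwa [Int.add_ediv_of_dvd_right (dvd_refl _), Int.ediv_self hn'.ne'] at this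
    omega
  rcases le_total x y with hxy | hxy
  · rw [min_eq_left hxy] at h1
    rw [max_eq_right hxy] at h2
    exact key x y hxy (by linarith) h1 h2
  · rw [min_eq_right hxy] at h1
    rw [max_eq_left hxy] at h2
    exact (key y x hxy (by linarith) h1 h2).symm

theorem div_close (hn : 0 < n) {x y : ℤ} (h : |x - y| < n) : y / n ≤ x / n + 1 ∧ x / n ≤ y / n + 1 := by
  have hn' : (0 : ℤ) < n := by exact_mod_cast hn
  have hm : Monotone fun a : ℤ => a / (n : ℤ) := fun a b hab => Int.ediv_le_ediv hn' hab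
  rw [abs_lt] at h
  constructor
  · have : y / n ≤ (x + n) / n := hm (by linarith)
    rwa [Int.add_ediv_of_dvd_right (dvd_refl _), Int.ediv_self hn'.ne'] at this
  · have : x / n ≤ (y + n) / n := hm (by linarith)
    rwa [Int.add_ediv_of_dvd_right (dvd_refl _), Int.ediv_self hn'.ne'] at this

/-- The complement of an enlarged polygon in a small box is connected. -/
theorem qc_box (hp : IsPolygon p) (hE : Encloses p S) (hn : 0 < n) {y : ℤ × ℤ} {a : ℤ}
    (ha : 2 * a < n) {F : Set (ℤ × ℤ)} (τ : ℤ)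
    (hF : ∀ v ∈ bxx y a, v ∉ CA.enl S n → (v.1 + τ, v.2) ∈ F) {v w : ℤ × ℤ} (hv : v ∈ bxx y a)
    (hv' : v ∉ CA.enl S n) (hw : w ∈ bxx y a) (hw' : w ∉ CA.enl S n) :
    QC F (v.1 + τ, v.2) (w.1 + τ, w.2) := by
  rw [H945.mem_bxx'] at hv hw
  have h1 : |v.1 - w.1| < n := by rw [abs_lt]; omega
  have h2 : |v.2 - w.2| < n := by rw [abs_lt]; omega
  rw [mem_enl_div hn] at hv' hw'
  have hor : ∀ t, (w.1 / (n : ℤ), t / (n : ℤ)) ∉ S → (v.1 / (n : ℤ), t / (n : ℤ)) ∉ S →
      y.2 - a ≤ t → t ≤ y.2 + a → QC F (v.1 + τ, t) (w.1 + τ, t) := by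
    intro t k1 k2 k3 k4
    refine QC.rect (x0 := min v.1 w.1 + τ) (x1 := max v.1 w.1 + τ + 1) (y0 := t) (y1 := t + 1)
      (fun z z1 z2 z3 z4 => ?_) ?_ ?_
    · have e : z = ((z.1 - τ, z.2).1 + τ, (z.1 - τ, z.2).2) := by simp
      rw [e]
      refine hF _ ?_ ?_
      · rw [H945.mem_bxx']; dsimp only; omega
      · rw [mem_enl_div hn]
        have e2 : z.2 = t := by omega
        dsimp only
        rw [e2]
        rcases div_between hn h1 (t := z.1 - τ) (by omega) (by omega) with h | h <;> rw [h]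
        · exact k2
        · exact k1
    · dsimp only; omega
    · dsimp only; omega
  have ver : ∀ t, (t / (n : ℤ), w.2 / (n : ℤ)) ∉ S → (t / (n : ℤ), v.2 / (n : ℤ)) ∉ S →
      y.1 - a ≤ t → t ≤ y.1 + a → QC F (t + τ, v.2) (t + τ, w.2) := by
    intro t k1 k2 k3 k4
    refine QC.rect (x0 := t + τ) (x1 := t + τ + 1) (y0 := min v.2 w.2) (y1 := max v.2 w.2 + 1)
      (fun z z1 z2 z3 z4 => ?_) ?_ ?_
    · have e : z = ((z.1 - τ, z.2).1 + τ, (z.1 - τ, z.2).2) := by simp
      rw [e]
      refine hF _ ?_ ?_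
      · rw [H945.mem_bxx']; dsimp only; omega
      · rw [mem_enl_div hn]
        have e2 : z.1 - τ = t := by omega
        dsimp only
        rw [e2]
        rcases div_between hn h2 (t := z.2) (by omega) (by omega) with h | h <;> rw [h]
        · exact k2
        · exact k1
    · dsimp only; omega
    · dsimp only; omega
  rcases corner_cell hp hE hv' hw' (div_close hn h1) (div_close hn h2) with h | h
  · exact (hor v.2 h hv' (by omega) (by omega)).trans (ver w.1 hw' h (by omega) (by omega))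
  · exact (ver v.1 h hv' (by omega) (by omega)).trans (hor w.2 hw' h (by omega) (by omega))

/-- **The frozen squares form one cluster.** -/
theorem oc_of_fz (hp : IsPolygon p) (hE : Encloses p S) (hn : 0 < n) {b : Bool} {x : ℤ × ℤ}
    {r R : ℤ} (hr : r < R) (hR : 2 * R < n) {η : Cfg} (hf : Fz b x R (CA.enl S n) η) :
    OC x r (CA.enl S n) η := by
  intro y a ha hin
  have h0 : ∀ v ∈ bxx y a, v ∉ CA.enl S n → η v = !b := by
    intro v hv hvD
    refine hf v ?_ hvD
    have h1 := hin v hv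
    rw [H167.Q.mem_Bq]
    simp only [nm, Prod.fst_sub, Prod.snd_sub, max_le_iff, abs_le] at h1
    omega
  have ha2 : 2 * a < n := by
    have h1 := hin (y.1 + a, y.2) (by rw [H945.mem_bxx']; dsimp only; omega)
    have h2 := hin (y.1 - a, y.2) (by rw [H945.mem_bxx']; dsimp only; omega)
    simp only [nm, Prod.fst_sub, Prod.snd_sub, max_le_iff, abs_le] at h1 h2
    omega
  constructor
  · intro v hv hvD hv1 w hw hwD hw1
    have hb : b = false := by
      have := h0 v hv hvD
      rw [hv1] at this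
      simpa using this.symm
    have := qc_box hp hE hn ha2 (F := {z | z ∈ bxx y a ∧ z ∉ CA.enl S n ∧ η z = true}) 0
      (fun z hz hzD => by
        simp only [add_zero]
        exact ⟨hz, hzD, by rw [h0 z hz hzD, hb]; rfl⟩) hv hvD hw hwD
    simpa using this
  · intro v hv hvD hv1 w hw hwD hw1
    rw [mem_bxx_sh] at hv hw
    rw [mem_image_sh] at hvD hwD
    have hdu : ∀ z : ℤ × ℤ, du η z = !η (shi z) := fun _ => rfl
    have hb : b = true := by
      have := h0 _ hv hvD
      rw [hdu] at hv1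
      rw [this] at hv1
      simpa using hv1
    have e : ∀ z : ℤ × ℤ, ((shi z).1 + 1, (shi z).2) = z := fun z => by simp [shi]
    have := qc_box hp hE hn ha2 (F := {z | z ∈ bxx (FKA.sh y) a ∧
        z ∉ (CA.enl S n).image (fun v => (v.1 + 1, v.2)) ∧ du η z = true}) 1
      (fun z hz hzD => by
        have e2 : shi (z.1 + 1, z.2) = z := by simp [shi]
        refine ⟨?_, ?_, ?_⟩
        · rw [mem_bxx_sh, e2]; exact hz
        · rw [mem_image_sh, e2]; exact hzD
        · rw [hdu, e2, h0 z hz hzD, hb]; rfl) hv hvD hw hwD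
    rwa [e, e] at this

end Vale.Agent.P167.CAQ.J
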