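import Vale.Agent.P167.CAQ.J5
import Vale.Agent.P167.H542.Q.FamB

/-!
# P167, general `q`, block Q-EQJ: Dobrushin boundary conditions near an arc of one kind

`ArcB b q k z R`: the sides of the polygon near `z` are all free (`b = true`, numbers `< k`) or all
wired (`b = false`, numbers `≥ k`). Then the outside configuration can be replaced by one which is
frozen near `z` (`exists_fz`), and the phases of the small pieces near `z` do not depend on `k`
(`thB_congr`).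
-/

namespace Vale.Agent.P167.CAQ.J

open Finset Relation Vale.Agent.P167.FK Vale.Agent.P167.FKA
open Vale.Agent.P167.BR
open Vale.Agent.P145.FB (PStep)
open Vale.Agent.P167.E6 (IsPolygon Encloses dir face)
open Vale.Agent.P167.H718 (Dob Chordless etaW opW mem_opW OutC exists_bd face_min good_etaW IsXY IsCl
  Cl isCl_strand Ex_eq dob_etaW dir4)
open Vale.Agent.P167.H542.Q (thB)

/-! ### Polygons around the same set -/

section rot

variable {n n' : ℕ} {q : ZMod n → ℤ × ℤ} {q' : ZMod n' → ℤ × ℤ} {D : Finset (ℤ × ℤ)}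

theorem poly_next (hq : IsPolygon q) (hD : Encloses q D) (hq' : IsPolygon q') (hD' : Encloses q' D)
    {i : ZMod n} {i' : ZMod n'} (h : q i = q' i') : q (i + 1) = q' (i' + 1) := by
  obtain ⟨r, hr⟩ := hq.2.2 i
  obtain ⟨j, hj, hj'⟩ := (hD' (q i) r).2 ((hD (q i) r).1 ⟨i, rfl, hr⟩)
  rw [h] at hj
  rw [hq'.2.1 hj] at hj'
  rw [hr, hj']

theorem poly_rot (hq : IsPolygon q) (hD : Encloses q D) (hq' : IsPolygon q')
    (hD' : Encloses q' D) : n = n' ∧ ∃ s : ℕ, ∀ j : ℕ, q (j : ZMod n) = q' ((s + j : ℕ) : ZMod n') := by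
  have hn : NeZero n := ⟨by have := hq.1; omega⟩
  have hn' : NeZero n' := ⟨by have := hq'.1; omega⟩
  obtain ⟨r, hr⟩ := hq.2.2 0
  obtain ⟨i', hi', -⟩ := (hD' (q 0) r).2 ((hD (q 0) r).1 ⟨0, rfl, hr⟩)
  have key : ∀ j : ℕ, q (j : ZMod n) = q' ((i'.val + j : ℕ) : ZMod n') := by
    intro j
    induction j with
    | zero => rw [Nat.cast_zero, add_zero, ZMod.natCast_zmod_val, hi']
    | succ j ih =>
      have h := poly_next hq hD hq' hD' ih
      push_cast at h ⊢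
      rw [h, add_assoc]
  refine ⟨?_, i'.val, key⟩
  have h1 : n' ∣ n := by
    have h := key n
    rw [ZMod.natCast_self, ← hi'] at h
    have h2 := hq'.2.1 h
    rw [Nat.cast_add, ZMod.natCast_zmod_val] at h2
    rw [← ZMod.natCast_eq_zero_iff]
    have h3 : i' + 0 = i' + (n : ZMod n') := by rw [add_zero]; exact h2
    exact (add_left_cancel h3).symm
  have h2 : n ∣ n' := by
    have h := key n'
    rw [Nat.cast_add, ZMod.natCast_self, add_zero, ZMod.natCast_zmod_val, hi'] at h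
    rw [← ZMod.natCast_eq_zero_iff]
    exact hq.2.1 h
  exact Nat.dvd_antisymm h2 h1

/-- Polygons around enlarged sets have no chords. -/
theorem chordless_enl {S : Finset (ℤ × ℤ)} {l N : ℕ} {p : ZMod l → ℤ × ℤ} (hp : IsPolygon p)
    (hE : Encloses p S) (hN : 2 ≤ N) (hq : IsPolygon q) (hD : Encloses q (CA.enl S N)) :
    Chordless q := by
  have h0 : 0 < N := by omega
  have hp' := CL.re_poly hp h0 0
  have hE' := CL.re_encl hp hE h0 0
  have hc := H718.chordless_re hp hN 0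
  -- the same sites
  have hsite : ∀ i : ZMod n, ∃ i' : ZMod (N * l), CL.re p N 0 i' = q i := by
    intro i
    obtain ⟨r, hr⟩ := hq.2.2 i
    obtain ⟨i', hi', -⟩ := (hE' (q i) r).2 ((hD (q i) r).1 ⟨i, rfl, hr⟩)
    exact ⟨i', hi'⟩
  rintro i j ⟨r, hr⟩
  obtain ⟨i', hi'⟩ := hsite i
  obtain ⟨j', hj'⟩ := hsite j
  rcases hc i' j' ⟨r, by rw [hi', hj', hr]⟩ with h | h
  · left
    have h1 := poly_next hp' hE' hq hD hi'
    rw [← h, hj'] at h1
    exact hq.2.1 h1
  · right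
    have h1 := poly_next hp' hE' hq hD hj'
    rw [← h, hi'] at h1
    exact hq.2.1 h1

/-- The points of a polygon around an enlarged set. -/
theorem geo_poly {S : Finset (ℤ × ℤ)} {l N : ℕ} {p : ZMod l → ℤ × ℤ} (hp : IsPolygon p)
    (hE : Encloses p S) (hq : IsPolygon q) (hD : Encloses q (CA.enl S N)) {m : ℤ} (hm : 1 ≤ m)
    (hmN : 16 * m ≤ N) (i : ZMod n) : H167.Geo 2 m (CA.enl S N) (q i) := by
  have h0 : 0 < N := by omega
  have hp' := CL.re_poly hp h0 0
  have hE' := CL.re_encl hp hE h0 0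
  obtain ⟨r, hr⟩ := hq.2.2 i
  obtain ⟨i', hi', -⟩ := (hE' (q i) r).2 ((hD (q i) r).1 ⟨i, rfl, hr⟩)
  obtain ⟨t, ht⟩ : ∃ t : ℕ, q i = CL.pe p N t := ⟨i'.val + 0, by rw [← hi']; rfl⟩
  obtain ⟨r', hr'⟩ := hp.2.2 ((t / N : ℕ) : ZMod l)
  have h1 := (hE (p ((t / N : ℕ) : ZMod l)) r').1 ⟨_, rfl, hr'⟩
  have h2 : p (((t / N : ℕ) : ZMod l) + 1) - p ((t / N : ℕ) : ZMod l) = dir r' := by
    rw [hr']; abel
  rw [ht, CL.pe_eq, h2]
  exact H436.geo_enl hm hmN (fun a ha b hb => H436.cells_conn hp hE ha hb) h1.1 h1.2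
    (Nat.mod_lt t h0).le

end rot

/-! ### Frozen configurations -/

section

variable {n k k' : ℕ} {q : ZMod n → ℤ × ℤ} {D : Finset (ℤ × ℤ)} {z : ℤ × ℤ} {R : ℤ} {b : Bool}
  {η η' : Cfg}

/-- The sides near `z` are all free (`b = true`) or all wired (`b = false`). -/
def ArcB (b : Bool) (q : ZMod n → ℤ × ℤ) (k : ℕ) (z : ℤ × ℤ) (R : ℤ) : Prop :=
  ∀ j : ℕ, j < n → nm (q j - z) ≤ R → if b then j < k else k ≤ j

theorem nm_face {v : ℤ × ℤ} {r : Fin 4} (h : face v r ∈ Bq z R) : nm (v - z) ≤ R + 1 := by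
  rw [H167.Q.mem_Bq] at h
  obtain ⟨a, c⟩ := v
  have f0 : face (a, c) 0 = (a + 0, c + 0) := rfl
  have f1 : face (a, c) 1 = (a + -1, c + 0) := rfl
  have f2 : face (a, c) 2 = (a + -1, c + -1) := rfl
  have f3 : face (a, c) 3 = (a + 0, c + -1) := rfl
  have hr : r = 0 ∨ r = 1 ∨ r = 2 ∨ r = 3 := by fin_cases r <;> simp
  rw [H45.nm_le, abs_le, abs_le]
  simp only [Prod.fst_sub, Prod.snd_sub]
  rcases hr with rfl | rfl | rfl | rfl
  · rw [f0] at h; dsimp only at h; omega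
  · rw [f1] at h; dsimp only at h; omega
  · rw [f2] at h; dsimp only at h; omega
  · rw [f3] at h; dsimp only at h; omega

theorem fz_true (h : ArcB true q k z (R + 1)) : Fz true z R D (etaW D q k) := by
  intro v hv hvD
  unfold etaW
  rw [Bool.not_true, decide_eq_false_iff_not, mem_opW]
  rintro ⟨⟨j, h1, h2, -, r, rfl⟩, -⟩
  have h3 := h j h2 (nm_face hv)
  rw [if_pos rfl] at h3
  omega

open Classical in
/-- Open near `z`. -/
noncomputable def etaF (D : Finset (ℤ × ℤ)) (q : ZMod n → ℤ × ℤ) (k : ℕ) (z : ℤ × ℤ) (R : ℤ) : Cfg :=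
  cf (Bq z R \ D) (etaW D q k) (Bq z R \ D)

theorem etaF_in {v : ℤ × ℤ} (h : v ∈ Bq z R \ D) : etaF D q k z R v = true := by
  unfold etaF cf
  rw [if_pos h, decide_eq_true h]

theorem etaF_out {v : ℤ × ℤ} (h : v ∉ Bq z R \ D) : etaF D q k z R v = etaW D q k v := by
  unfold etaF cf
  rw [if_neg h]

theorem good_etaF : Good (etaF D q k z R) := good_cf _ good_etaW _

theorem fz_false : Fz false z R D (etaF D q k z R) := fun v hv hvD => by
  rw [etaF_in (Finset.mem_sdiff.2 ⟨hv, hvD⟩)]; rfl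

theorem etaW_le {v : ℤ × ℤ} (h : etaW D q k v = true) : etaF D q k z R v = true := by
  by_cases hv : v ∈ Bq z R \ D
  · exact etaF_in hv
  · rw [etaF_out hv, h]

theorem dob_etaF (hq : IsPolygon q) (hD : Encloses q D) (hc : Chordless q)
    (h : ArcB false q k z (R + 1)) : Dob (etaF D q k z R) D q k := by
  have hW := dob_etaW (k := k) hq hD hc
  refine ⟨good_etaF, fun i j h1 h2 h3 h4 h5 h6 => ?_, ?_⟩
  · have h7 := hW.join i j h1 h2 h3 h4 h5 h6
    unfold OutC at h7 ⊢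
    exact ReflTransGen.mono (fun s t hst => ⟨hst.1, hst.2.1, etaW_le hst.2.2.1, hst.2.2.2⟩) _ _ h7
  · have hend : ∀ s t : ℤ × ℤ, s ∈ sites D → Even (s.1 + s.2) →
        PStep (op (etaF D q k z R) ∩ (↑D : Set (ℤ × ℤ))ᶜ) s t →
        ∃ i : ℕ, k ≤ i ∧ i ≤ n ∧ q i = s := by
      intro s t hs hev hst
      obtain ⟨h1, h2, h3, h4⟩ := hst
      have h5 : etaF D q k z R (min s.1 t.1, min s.2 t.2) = true := h3
      have h6 : (min s.1 t.1, min s.2 t.2) ∉ D := h4
      have hex : ∃ r'', face s r'' = (min s.1 t.1, min s.2 t.2) := by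
        obtain ⟨c, d⟩ := s
        obtain ⟨c', d'⟩ := t
        simp only at h1 h2
        have f0 : face (c, d) 0 = (c + 0, d + 0) := rfl
        have f1 : face (c, d) 1 = (c + -1, d + 0) := rfl
        have f2 : face (c, d) 2 = (c + -1, d + -1) := rfl
        have f3 : face (c, d) 3 = (c + 0, d + -1) := rfl
        rcases h1 with h1 | h1 <;> rcases h2 with h2 | h2
        · exact ⟨0, by rw [f0]; simp only [Prod.mk.injEq]; omega⟩
        · exact ⟨3, by rw [f3]; simp only [Prod.mk.injEq]; omega⟩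
        · exact ⟨1, by rw [f1]; simp only [Prod.mk.injEq]; omega⟩
        · exact ⟨2, by rw [f2]; simp only [Prod.mk.injEq]; omega⟩
      obtain ⟨r'', hr''⟩ := hex
      obtain ⟨i, hi⟩ := exists_bd hq hD hs (r := r'') (by rw [hr'']; exact h6)
      by_cases hv : (min s.1 t.1, min s.2 t.2) ∈ Bq z R \ D
      · -- near `z` all boundary sites are wired
        have hnz : NeZero n := ⟨by have := hq.1; omega⟩
        have h7 : nm (q ((i.val : ℕ) : ZMod n) - z) ≤ R + 1 := by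
          rw [ZMod.natCast_zmod_val, hi]
          exact nm_face (r := r'') (by rw [hr'']; exact (Finset.mem_sdiff.1 hv).1)
        have h8 := h i.val (ZMod.val_lt i) h7
        rw [if_neg (by simp)] at h8
        exact ⟨i.val, h8, (ZMod.val_lt i).le, by rw [ZMod.natCast_zmod_val, hi]⟩
      · rw [etaF_out hv] at h5
        unfold etaW at h5
        rw [decide_eq_true_iff, mem_opW] at h5
        obtain ⟨⟨j, hj1, hj2, hj3, r, hr⟩, -⟩ := h5
        obtain ⟨r', hr'⟩ := H718.step_cases (v := q j) (r := r) (s := s) (t := t) ⟨h1, h2, hr⟩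
          hev hj3
        rcases hc j i ⟨r', by rw [hi]; exact hr'⟩ with h7 | h7
        · refine ⟨j + 1, by omega, by omega, ?_⟩
          push_cast
          rw [← h7]
          exact hi
        · refine ⟨j - 1, by omega, by omega, ?_⟩
          rw [Nat.cast_sub (by omega), Nat.cast_one, h7, add_sub_cancel_right]
          exact hi
    intro s hs t ht hev hst hne
    have hevt : Even (t.1 + t.2) := by
      clear hne ht hs
      induction hst with
      | refl => exact hev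
      | tail _ h1 ih => exact FK.even_step h1 ih
    have h1 : ∃ x, PStep (op (etaF D q k z R) ∩ (↑D : Set (ℤ × ℤ))ᶜ) s x := by
      rcases ReflTransGen.cases_head hst with h | ⟨x, hx, -⟩
      · exact absurd h hne
      · exact ⟨x, hx⟩
    have h2 : ∃ x, PStep (op (etaF D q k z R) ∩ (↑D : Set (ℤ × ℤ))ᶜ) t x := by
      rcases ReflTransGen.cases_tail hst with h | ⟨x, -, hx⟩
      · exact absurd h.symm hne
      · exact ⟨x, hx.symm⟩
    obtain ⟨x, hx⟩ := h1
    obtain ⟨y, hy⟩ := h2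
    obtain ⟨i, hi1, hi2, hi3⟩ := hend s x hs hev hx
    obtain ⟨j, hj1, hj2, hj3⟩ := hend t y ht hevt hy
    exact ⟨i, j, hi1, hi2, hj1, hj2, hi3, hj3⟩

/-- **The outside configuration can be replaced by one which is frozen near `z`.** -/
theorem exists_fz (hq : IsPolygon q) (hD : Encloses q D) (hc : Chordless q)
    (h : ArcB b q k z (R + 1)) : ∃ η' : Cfg, Dob η' D q k ∧ Fz b z R D η' := by
  cases b
  · exact ⟨_, dob_etaF hq hD hc h, fz_false⟩
  · exact ⟨_, dob_etaW hq hD hc, fz_true h⟩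

/-- The law depends on the marks only. -/
theorem ex_dob (hq : IsPolygon q) (hD : Encloses q D) (hk : k ≤ n) (hη : Dob η D q k)
    (hη' : Dob η' D q k) {Q : ℝ} (hQ : 0 < Q) {F : Cfg → ℝ} (hF : Loc D F) :
    Ex Q D η F = Ex Q D η' F := by
  classical
  rw [Ex_eq hq hD hk hη hQ, Ex_eq hq hD hk hη' hQ]
  have hin : ∀ S : Finset (ℤ × ℤ), ∀ v ∈ D, cf D η S v = cf D η' S v := fun S v hv => by
    simp [cf, hv]
  have hp : ∀ S, pcs (cf D η S) D = pcs (cf D η' S) D := fun S => pcs_congr (hin S)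
  have hFe : ∀ S, F (cf D η S) = F (cf D η' S) := fun S => hF _ _ (hin S)
  simp only [hp, hFe]

theorem loc_hB (p z : ℤ × ℤ) (κ : Finset Ed → ℝ) [∀ A, Decidable (Sep D A z p)] :
    Loc D (fun ω => ∑ A ∈ pcs ω D, (if Sep D A z p then 1 else 0) * κ A) := by
  intro ω ω' h
  show ∑ A ∈ pcs ω D, _ = ∑ A ∈ pcs ω' D, _
  rw [pcs_congr h]

theorem hB_dob (hq : IsPolygon q) (hD : Encloses q D) (hk : k ≤ n) (hη : Dob η D q k)
    (hη' : Dob η' D q k) {Q : ℝ} (hQ : 0 < Q) (p z : ℤ × ℤ) (κ : Finset Ed → ℝ) :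
    hB Q D η p κ z = hB Q D η' p κ z := by
  classical
  exact ex_dob hq hD hk hη hη' hQ (loc_hB p z κ)

/-! ### The phases -/

theorem nm_hdv_rs (e : Ed) : nm (hdv e - rs e) ≤ 1 := by
  rcases e with ⟨x, y⟩ | ⟨x, y⟩ <;> simp only [hdv, rs, H45.nm_le] <;> split_ifs <;>
    simp

theorem nm_be (hq : IsPolygon q) (hD : Encloses q D) (j : ZMod n) :
    nm (hdv (be q j) - q j) ≤ 1 := by
  by_cases h : Even ((q j).1 + (q j).2)
  · have h1 := (be_even hq hD h).1
    rw [← h1]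
    exact H436.nm_hdv_ls _
  · have h1 := (be_odd hq hD h).1
    rw [← h1]
    exact nm_hdv_rs _

theorem thB_congr (hq : IsPolygon q) (hD : Encloses q D) (h : ArcB b q k z (R + 1))
    (h' : ArcB b q k' z (R + 1)) (θ β : ℝ) {ω : Cfg} {A : Finset Ed} (hA : A ∈ pcs ω D)
    (hR : ∀ e ∈ A, nm (hdv e - z) ≤ R) : thB θ β q D k A = thB θ β q D k' A := by
  unfold thB
  by_cases hl : IsLp D A
  · rw [if_pos hl, if_pos hl]
  · obtain ⟨x, y, hxy⟩ := QX.exists_xy hq hD hA hl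
    have h1 := isCl_strand (k := k) hq hD hA hl hxy
    have h2 := isCl_strand (k := k') hq hD hA hl hxy
    have hlo := QX.lo_xy hq hD hA hxy
    have hhi := QX.hi_xy hq hD hA hxy
    have hx : nm (q x - z) ≤ R + 1 := by
      have h3 := hR _ hxy.2.2.1
      have h4 := nm_be hq hD (x : ZMod n)
      have h5 := H45.nm_sub_le (q x) (hdv (be q x)) z
      rw [H45.nm_sub_comm (q x) (hdv (be q x))] at h5
      linarith
    have hy : nm (q y - z) ≤ R + 1 := by
      have h3 := hR _ hxy.2.2.2.1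
      have h4 := nm_be hq hD (y : ZMod n)
      have h5 := H45.nm_sub_le (q y) (hdv (be q y)) z
      rw [H45.nm_sub_comm (q y) (hdv (be q y))] at h5
      linarith
    have a1 := h x hxy.1 hx
    have a2 := h y hxy.2.1 hy
    have a3 := h' x hxy.1 hx
    have a4 := h' y hxy.2.1 hy
    have hne := hxy.ne
    rw [if_neg hl, if_neg hl, hlo, hhi]
    have e : IsCl D q k A ↔ IsCl D q k' A := by
      rw [h1, h2]
      unfold Cl
      cases b <;> simp at a1 a2 a3 a4 <;> omega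
    have e1 : ¬ (min x y < k ∧ k ≤ max x y) := by
      cases b <;> simp at a1 a2 a3 a4 <;> omega
    have e2 : ¬ (min x y < k' ∧ k' ≤ max x y) := by
      cases b <;> simp at a1 a2 a3 a4 <;> omega
    rw [if_neg e1, if_neg e2]
    by_cases hcl : IsCl D q k A
    · rw [if_pos hcl, if_pos (e.1 hcl)]
    · rw [if_neg hcl, if_neg fun h => hcl (e.2 h)]

end

open Vale.Agent.P167.H542.Q (cB cB_pos phs_thB) in
theorem abs_tan_thB {θ β : ℝ} (h0 : 0 < θ) (h1 : θ ≤ Real.pi / 3)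
    (hβ : Real.cos (θ / 2 + β) = Real.sin θ) {n k : ℕ} {q : ZMod n → ℤ × ℤ}
    {D : Finset (ℤ × ℤ)} (A : Finset Ed) :
    |Real.tan (thB θ β q D k A)| ≤ 1 / cB θ := by
  have h2 := (phs_thB (D := D) (q := q) (k := k) h0 h1 hβ).cs A
  have h3 := cB_pos h0 h1
  rw [Real.tan_eq_sin_div_cos, abs_div, abs_of_pos (h3.trans_le h2)]
  exact div_le_div₀ zero_le_one (Real.abs_sin_le_one _) h3 h2

/-- **Q-EQJ for the Dobrushin functionals** of the polygons around an enlarged lattice polygon: the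
difference of two base potentials is Hölder continuous at the scale `R` of a box in which the two
boundary conditions are both free or both wired. -/
theorem eqj_dob {θ β : ℝ} (h0 : 0 < θ) (h1 : θ ≤ Real.pi / 3)
    (hβ : Real.cos (θ / 2 + β) = Real.sin θ) (hRSW : RSW (2 * Real.cos θ)) :
    ∃ C γ δ : ℝ, 0 < C ∧ 0 < γ ∧ 0 < δ ∧ ∀ {l : ℕ} {p : ZMod l → ℤ × ℤ} {S : Finset (ℤ × ℤ)},
    IsPolygon p → Encloses p S → ∀ {N n : ℕ} {q : ZMod n → ℤ × ℤ}, IsPolygon q →
    Encloses q (CA.enl S N) → ∀ {k₁ k₀ : ℕ}, k₁ ≤ n → k₀ ≤ n → ∀ {η₁ η₀ : Cfg},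
    Dob η₁ (CA.enl S N) q k₁ → Dob η₀ (CA.enl S N) q k₀ → ∀ (b : Bool) (i : ZMod n),
    ∀ z ∈ sites (CA.enl S N), ∀ R : ℤ, 1 ≤ R → 16 * R ≤ N → ArcB b q k₁ z (R + 2) →
    ArcB b q k₀ z (R + 2) → ∀ z' ∈ sites (CA.enl S N), (nm (z - z') : ℝ) ≤ δ * R →
    |(hB (2 * Real.cos θ) (CA.enl S N) η₁ (q i)
          (fun A => Real.tan (thB θ β q (CA.enl S N) k₁ A)) z -
        hB (2 * Real.cos θ) (CA.enl S N) η₀ (q i)
          (fun A => Real.tan (thB θ β q (CA.enl S N) k₀ A)) z) -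
      (hB (2 * Real.cos θ) (CA.enl S N) η₁ (q i)
          (fun A => Real.tan (thB θ β q (CA.enl S N) k₁ A)) z' -
        hB (2 * Real.cos θ) (CA.enl S N) η₀ (q i)
          (fun A => Real.tan (thB θ β q (CA.enl S N) k₀ A)) z')| ≤
      C * ((nm (z - z') : ℝ) / R) ^ γ := by
  have hQ0 := H542.Q.BD.cos_pos h0 h1
  have hQ1 := H542.Q.BD.one_le h0 h1
  obtain ⟨C, γ, δ, hC, hγ, hδ, key⟩ := eqj hQ1 hRSW 2
  have hc := H542.Q.cB_pos h0 h1
  refine ⟨C * (1 / H542.Q.cB θ), γ, δ, by positivity, hγ, hδ, ?_⟩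
  intro l p S hp hE N n q hq hD k₁ k₀ hk₁ hk₀ η₁ η₀ hη₁ hη₀ b i z hz R hR1 hRN ha₁ ha₀ z' hz' hzz
  have hN : 0 < N := by omega
  have hch := chordless_enl hp hE (by omega) hq hD
  have e2 : R + 1 + 1 = R + 2 := by ring
  obtain ⟨ξ₁, hξ₁, hf₁⟩ := exists_fz (R := R + 1) hq hD hch (by rw [e2]; exact ha₁)
  obtain ⟨ξ₀, hξ₀, hf₀⟩ := exists_fz (R := R + 1) hq hD hch (by rw [e2]; exact ha₀)
  have hO₁ := oc_of_fz (r := R) hp hE hN (by omega) (by omega) hf₁
  have hO₀ := oc_of_fz (r := R) hp hE hN (by omega) (by omega) hf₀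
  have m1 : ∀ {z : ℤ × ℤ}, _ := fun {z : ℤ × ℤ} => hB_dob hq hD hk₁ hη₁ hξ₁ hQ0 (q i) z
    (fun A => Real.tan (thB θ β q (CA.enl S N) k₁ A))
  have m0 : ∀ {z : ℤ × ℤ}, _ := fun {z : ℤ × ℤ} => hB_dob hq hD hk₀ hη₀ hξ₀ hQ0 (q i) z
    (fun A => Real.tan (thB θ β q (CA.enl S N) k₀ A))
  rw [m1, m0, m1, m0]
  refine key b _ _ R (geo_poly hp hE hq hD hR1 hRN i) ξ₁ ξ₀ hξ₁.good hξ₀.good z hz R le_rfl
    (hf₁.mono (by omega)) (hf₀.mono (by omega)) hO₁ hO₀ _ _ _ (abs_tan_thB h0 h1 hβ)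
    (abs_tan_thB h0 h1 hβ) (fun ω A hA hAR => ?_) z' hz' hzz
  have hm : ∀ {k : ℕ}, ArcB b q k z (R + 2) → ArcB b q k z (R + 1) := fun h j hj hjz =>
    h j hj (by omega)
  show Real.tan _ = Real.tan _
  rw [thB_congr hq hD (hm ha₁) (hm ha₀) θ β hA hAR]

end Vale.Agent.P167.CAQ.J
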