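import Vale.Agent.P167.CAQ.TwoSide

/-!
# P167, general `q`: compactness of potentials near a boundary arc (growth, final theorem)
-/

namespace Vale.Agent.P167.CAQ

open MeasureTheory Filter Topology Set Complex Metric
open Vale.Agent.P167.BR (sites)
open Vale.Agent.P167.BVP (Test npot SideHarm ocell)
open Vale.Agent.P167.CA (Dat cms en Pair enl fs fs_mem norm_fs Hol cs)
open P198W (lap)
open InnerProductSpace
open scoped ContDiff ComplexConjugate

variable {S : Dat} {K : Set ℂ}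

/-- The centre of a cell. -/
noncomputable def ctr (v : ℤ × ℤ) : ℂ := ⟨v.1 + 1 / 2, v.2 + 1 / 2⟩

/-- The point at the position `t` of the segment from `x` to the centre. -/
noncomputable def seg (v : ℤ × ℤ) (x : ℂ) (t : ℝ) : ℂ := x + t * (ctr v - x)

theorem ctr_near {v : ℤ × ℤ} {x : ℂ} (h1 : (v.1 : ℝ) ≤ x.re) (h2 : x.re ≤ v.1 + 1)
    (h3 : (v.2 : ℝ) ≤ x.im) (h4 : x.im ≤ v.2 + 1) : ‖ctr v - x‖ ≤ 1 := by
  refine (Complex.norm_le_abs_re_add_abs_im _).trans ?_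
  have e1 : (ctr v - x).re = v.1 + 1 / 2 - x.re := by simp [ctr]
  have e2 : (ctr v - x).im = v.2 + 1 / 2 - x.im := by simp [ctr]
  have a1 : |(ctr v - x).re| ≤ 1 / 2 := by rw [e1, abs_le]; constructor <;> linarith
  have a2 : |(ctr v - x).im| ≤ 1 / 2 := by rw [e2, abs_le]; constructor <;> linarith
  linarith

/-- Balls around the points of the segment are in the open cell. -/
theorem ball_cell {v : ℤ × ℤ} {x : ℂ} (h1 : (v.1 : ℝ) ≤ x.re) (h2 : x.re ≤ v.1 + 1)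
    (h3 : (v.2 : ℝ) ≤ x.im) (h4 : x.im ≤ v.2 + 1) {t : ℝ} (ht1 : t ≤ 1) :
    ball (seg v x t) (t / 2) ⊆ ocell v := by
  intro y hy
  rw [mem_ball, dist_eq_norm] at hy
  have e1 : (seg v x t).re = x.re + t * (v.1 + 1 / 2 - x.re) := by simp [seg, ctr]
  have e2 : (seg v x t).im = x.im + t * (v.2 + 1 / 2 - x.im) := by simp [seg, ctr]
  have a1 : |y.re - (seg v x t).re| < t / 2 := by
    have := Complex.abs_re_le_norm (y - seg v x t)
    rw [Complex.sub_re] at this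
    exact this.trans_lt hy
  have a2 : |y.im - (seg v x t).im| < t / 2 := by
    have := Complex.abs_im_le_norm (y - seg v x t)
    rw [Complex.sub_im] at this
    exact this.trans_lt hy
  rw [e1, abs_lt] at a1
  rw [e2, abs_lt] at a2
  refine ⟨?_, ?_, ?_, ?_⟩
  · nlinarith
  · nlinarith
  · nlinarith
  · nlinarith

theorem seg_dist (hK : Arc S K) {v : ℤ × ℤ} (hv : v ∈ S.Q) {x : ℂ} (h1 : (v.1 : ℝ) ≤ x.re)
    (h2 : x.re ≤ v.1 + 1) (h3 : (v.2 : ℝ) ≤ x.im) (h4 : x.im ≤ v.2 + 1) {t : ℝ} (ht0 : 0 ≤ t)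
    (ht1 : t ≤ 1) : (infDist x K + t) / 5 ≤ infDist (seg v x t) K := by
  have b1 : t / 2 ≤ infDist (seg v x t) K := by
    by_contra hlt
    rw [not_le] at hlt
    obtain ⟨k, hk, hd⟩ := (infDist_lt_iff hK.ne).1 hlt
    have h5 : k ∈ S.P := BVP.ocell_subset hv
      (ball_cell h1 h2 h3 h4 ht1 (by rw [mem_ball, dist_comm]; exact hd))
    exact hK.notMem h5 hk
  have b2 : infDist x K ≤ infDist (seg v x t) K + t := by
    have h5 : infDist x K ≤ infDist (seg v x t) K + dist x (seg v x t) :=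
      infDist_le_infDist_add_dist
    have h6 : dist x (seg v x t) ≤ t := by
      rw [dist_comm, dist_eq_norm]
      unfold seg
      rw [add_sub_cancel_left, norm_mul, Complex.norm_real, Real.norm_eq_abs, abs_of_nonneg ht0]
      exact mul_le_of_le_one_right ht0 (ctr_near h1 h2 h3 h4)
    linarith
  linarith

theorem seg_mem (hK : Arc S K) {v : ℤ × ℤ} (hv : v ∈ S.Q) {x : ℂ} (hxK : x ∉ K)
    (h1 : (v.1 : ℝ) ≤ x.re) (h2 : x.re ≤ v.1 + 1) (h3 : (v.2 : ℝ) ≤ x.im) (h4 : x.im ≤ v.2 + 1)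
    {t : ℝ} (ht0 : 0 ≤ t) (ht1 : t ≤ 1) : seg v x t ∈ E6.region 1 S.Q \ K := by
  rcases ht0.eq_or_lt with rfl | h
  · have e : seg v x 0 = x := by simp [seg]
    rw [e]
    exact ⟨CA.mem_region.2 ⟨v, hv, h1, h2, h3, h4⟩, hxK⟩
  · have h5 : seg v x t ∈ S.P := BVP.ocell_subset hv
      (ball_cell h1 h2 h3 h4 ht1 (mem_ball_self (by positivity)))
    exact ⟨P_sub S h5, hK.notMem h5⟩

theorem chain {φ : ℝ → ℝ} {C d : ℝ} (hC : 0 ≤ C) (hd : 0 < d)
    (h : ∀ s t : ℝ, 0 ≤ s → s ≤ t → t ≤ 1 → t - s ≤ (d + s) / 16 → |φ s - φ t| ≤ C) (k : ℕ) :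
    ∀ s : ℝ, 0 ≤ s → s ≤ 1 → d + 1 ≤ (17 / 16) ^ k * (d + s) → |φ s - φ 1| ≤ C * k := by
  induction k with
  | zero =>
    intro s h0 h1 h2
    have : s = 1 := by rw [pow_zero, one_mul] at h2; linarith
    rw [this]; simp
  | succ k ih =>
    intro s h0 h1 h2
    by_cases h3 : 1 ≤ s + (d + s) / 16
    · refine (h s 1 h0 h1 le_rfl (by linarith)).trans ?_
      push_cast
      have : 0 ≤ C * k := by positivity
      linarith
    · rw [not_le] at h3
      set s' := s + (d + s) / 16 with hs'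
      have h4 : 0 ≤ (d + s) / 16 := by positivity
      have h5 := ih s' (by linarith) h3.le (by
        have e : d + s' = 17 / 16 * (d + s) := by rw [hs']; ring
        rw [e, ← mul_assoc, ← pow_succ]; exact h2)
      have h6 := h s s' h0 (by linarith) h3.le (by rw [hs']; linarith)
      have e : φ s - φ 1 = (φ s - φ s') + (φ s' - φ 1) := by ring
      rw [e]
      refine (abs_add_le _ _).trans ?_
      push_cast
      linarith

/-- Logarithmic growth. -/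
theorem log_of_hol (hK : Arc S K) {Y : ℂ → ℝ} {C β : ℝ} (hC : 0 ≤ C) (hβ : 0 < β)
    (h : ∀ x ∈ E6.region 1 S.Q \ K, ∀ y ∈ E6.region 1 S.Q \ K,
      ‖x - y‖ < infDist x K / 2 → |Y x - Y y| ≤ C * (‖x - y‖ / infDist x K) ^ β) :
    ∃ M : ℝ, ∀ x ∈ E6.region 1 S.Q \ K, |Y x| ≤ M * (1 + |Real.log (infDist x K)|) := by
  set D := Metric.diam (E6.region 1 S.Q) with hD
  have hbdd := (CA.isCompact_region S.Q).isBounded
  have hD0 : 0 ≤ D := Metric.diam_nonneg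
  obtain ⟨k₀, hk₀⟩ := hK.ne
  have hk₀R : k₀ ∈ E6.region 1 S.Q := by
    rw [← closure_P]
    exact frontier_subset_closure (hK.sub hk₀)
  set M₀ : ℝ := ∑ v ∈ S.Q, |Y (ctr v)| with hM₀
  have hM₀0 : 0 ≤ M₀ := Finset.sum_nonneg fun _ _ => abs_nonneg _
  set l : ℝ := Real.log (17 / 16) with hl
  have hl0 : 0 < l := Real.log_pos (by norm_num)
  refine ⟨M₀ + C * (1 + (D + 1) / l), fun x hx => ?_⟩
  obtain ⟨v, hv, h1, h2, h3, h4⟩ := CA.mem_region.1 hx.1
  set d := infDist x K with hd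
  have hd0 : 0 < d := hK.pos hx.2
  have hdD : d ≤ D := (infDist_le_dist_of_mem hk₀).trans
    (Metric.dist_le_diam_of_mem hbdd hx.1 hk₀R)
  -- one step
  have hstep : ∀ s t : ℝ, 0 ≤ s → s ≤ t → t ≤ 1 → t - s ≤ (d + s) / 16 →
      |Y (seg v x s) - Y (seg v x t)| ≤ C := by
    intro s t hs0 hst ht1 hts
    have m1 := seg_mem hK hv hx.2 h1 h2 h3 h4 hs0 (hst.trans ht1)
    have m2 := seg_mem hK hv hx.2 h1 h2 h3 h4 (hs0.trans hst) ht1
    have m3 := seg_dist hK hv h1 h2 h3 h4 hs0 (hst.trans ht1)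
    rw [← hd] at m3
    have m4 : ‖seg v x s - seg v x t‖ ≤ t - s := by
      have e : seg v x s - seg v x t = ((s - t : ℝ) : ℂ) * (ctr v - x) := by
        unfold seg; push_cast; ring
      rw [e, norm_mul, Complex.norm_real, Real.norm_eq_abs, abs_sub_comm, abs_of_nonneg
        (sub_nonneg.2 hst)]
      exact mul_le_of_le_one_right (sub_nonneg.2 hst) (ctr_near h1 h2 h3 h4)
    have m5 : 0 < d + s := by linarith
    have m6 : 0 < infDist (seg v x s) K := by linarith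
    refine (h _ m1 _ m2 (by linarith)).trans ?_
    refine mul_le_of_le_one_right hC (Real.rpow_le_one (by positivity) ?_ hβ.le)
    rw [div_le_one m6]
    linarith
  -- the number of steps
  set k : ℕ := ⌈Real.log ((d + 1) / d) / l⌉₊ with hk
  have hlog0 : 0 ≤ Real.log ((d + 1) / d) := by
    refine Real.log_nonneg ?_
    rw [le_div_iff₀ hd0]; linarith
  have hk1 : Real.log ((d + 1) / d) ≤ k * l := by
    rw [← div_le_iff₀ hl0]
    exact Nat.le_ceil _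
  have hk2 : (k : ℝ) ≤ Real.log ((d + 1) / d) / l + 1 :=
    (Nat.ceil_lt_add_one (by positivity)).le
  have hpow : d + 1 ≤ (17 / 16) ^ k * (d + 0) := by
    rw [add_zero, ← div_le_iff₀ hd0]
    have h5 : Real.log ((17 / 16 : ℝ) ^ k) = k * l := by rw [Real.log_pow]
    rw [← Real.log_le_log_iff (by positivity) (by positivity), h5]
    exact hk1
  have hc := chain (φ := fun t => Y (seg v x t)) hC hd0 hstep k 0 le_rfl zero_le_one hpow
  have e0 : seg v x 0 = x := by simp [seg]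
  have e1 : seg v x 1 = ctr v := by simp [seg]
  simp only [e0, e1] at hc
  have hlog : Real.log ((d + 1) / d) ≤ D + |Real.log d| := by
    rw [Real.log_div (by positivity) hd0.ne']
    have h6 : Real.log (d + 1) ≤ d := by
      have := Real.log_le_sub_one_of_pos (show 0 < d + 1 by positivity)
      linarith
    have h7 := neg_abs_le (Real.log d)
    linarith
  have hY : |Y (ctr v)| ≤ M₀ := Finset.single_le_sum (f := fun v => |Y (ctr v)|)
    (fun _ _ => abs_nonneg _) hv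
  set A := |Real.log d| with hA
  have hA0 : 0 ≤ A := abs_nonneg _
  have h8 : |Y x| ≤ M₀ + C * k := by
    have e : Y x = Y (ctr v) + (Y x - Y (ctr v)) := by ring
    rw [e]
    exact (abs_add_le _ _).trans (add_le_add hY hc)
  have h9 : (k : ℝ) ≤ 1 + (D + A) / l := by
    have : Real.log ((d + 1) / d) / l ≤ (D + A) / l := (div_le_div_iff_of_pos_right hl0).2 hlog
    linarith
  have h10 : C * k ≤ C * (1 + (D + A) / l) := mul_le_mul_of_nonneg_left h9 hC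
  have h11 : (D + A) / l ≤ (D + 1) / l * (1 + A) := by
    rw [div_mul_eq_mul_div]
    refine (div_le_div_iff_of_pos_right hl0).2 ?_
    nlinarith
  have h12 : 0 ≤ (D + 1) / l := by positivity
  have h13 : 1 + (D + A) / l ≤ (1 + (D + 1) / l) * (1 + A) := by nlinarith
  have h14 : C * (1 + (D + A) / l) ≤ C * ((1 + (D + 1) / l) * (1 + A)) :=
    mul_le_mul_of_nonneg_left h13 hC
  nlinarith [mul_nonneg hM₀0 hA0]

/-- The limit of the potentials. -/
structure PotLim (S : Dat) (K : Set ℂ) (Y : ℂ → ℝ) : Prop where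
  cont : ContinuousOn Y (E6.region 1 S.Q \ K)
  hol : ∃ C β : ℝ, 0 ≤ C ∧ 0 < β ∧ ∀ x ∈ E6.region 1 S.Q \ K, ∀ y ∈ E6.region 1 S.Q \ K,
    ‖x - y‖ < infDist x K / 2 → |Y x - Y y| ≤ C * (‖x - y‖ / infDist x K) ^ β
  weak : ∀ φ, Test S.P φ → ∫ z, Y z * lap φ z = 0
  harm : ∀ z ∈ S.P, HarmonicAt Y z
  side : ∀ ψ g : ℂ → ℂ, Pair S.P ψ g → ∀ x : ℝ, ψ x ∉ BVP.bad S → ψ x ∉ K → SideHarm S.P ψ Y x
  log : ∃ M : ℝ, ∀ x ∈ E6.region 1 S.Q \ K, |Y x| ≤ M * (1 + |Real.log (infDist x K)|)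

/-- **Compactness** of potentials which are asymptotically harmonic, Hölder at the scale of the
distance to the closed complement `K` of a boundary arc, and Neumann along the arc. -/
theorem Pot.limit {L : Filter ℕ} (hL : L ≤ atTop) {w : ℕ → ℤ × ℤ → ℝ} (hw : Pot S L w K)
    (hK : Arc S K) (U : Ultrafilter ℕ) (hU : (U : Filter ℕ) ≤ L) :
    ∃ Y : ℂ → ℝ, PotLim S K Y ∧ ∀ f : ℂ → ℝ, S.FF f →
      Tendsto (fun n : ℕ => ∑ z ∈ sites (S.D n), cms f (1 / n) z * w n z) U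
        (𝓝 (∫ x, f x * Y x)) := by
  obtain ⟨x₀, hx₀⟩ := P_nonempty S
  obtain ⟨Y, hY⟩ := hw.exists_Y hL hK hx₀ U hU
  obtain ⟨C, β, hC, hβ, hol⟩ := hw.hol_Y hL hK hU hY
  have hc := cont_of_hol hK hβ hol
  have hweak : ∀ φ, Test S.P φ → ∫ z, Y z * lap φ z = 0 := fun φ hφ =>
    hw.weak hL hK hx₀ hU hY hφ
  refine ⟨Y, ⟨hc, ⟨C, β, hC, hβ, hol⟩, hweak, ?_, ?_, log_of_hol hK hC hβ hol⟩, fun f hf =>
    hw.pair_Y hL hK hx₀ hU hY hf⟩
  · refine P198W.weyl (isOpen_P S) (hc.mono fun z hz => ⟨P_sub S hz, hK.notMem hz⟩) ?_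
    exact fun φ h1 h2 h3 => hweak φ ⟨h1, h2, h3⟩
  · intro ψ g hP x hx hxK
    exact sideHarm_of_local S hK hP hc hweak (fun v r h1 h2 φ h3 h4 h5 ε hε =>
      hw.neu_Y hL hK hx₀ hU hY h1 h2 h3 h4 h5 hε) hx hxK

/-- The potentials of the difference of two families. -/
noncomputable def dH (F₁ F₀ : Fam S) (n : ℕ) (z : ℤ × ℤ) : ℝ :=
  F₁.H n (fun _ => 0) z - F₀.H n (fun _ => 0) z

theorem sum_dH (F₁ F₀ : Fam S) (n : ℕ) (f : ℂ → ℝ) :
    ∑ z ∈ sites (S.D n), cms f (1 / n) z * dH F₁ F₀ n z = F₁.U n f - F₀.U n f := by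
  unfold dH Fam.U Fam.HS
  rw [← Finset.sum_sub_distrib]
  refine Finset.sum_congr rfl fun z _ => ?_
  ring

/-- **Compactness for two families** with (MOM): the functionals `U¹ - U⁰` converge along
ultrafilters to a harmonic function which is even-harmonic across the arc. -/
theorem two_limit {F₁ F₀ : Fam S} (hL : F₁.L = F₀.L) (h1 : F₁.MOM) (h0 : F₀.MOM)
    (hK : Arc S K)
    (heq : ∃ C β d : ℝ, 0 < β ∧ 0 < d ∧ d ≤ 1 / 2 ∧
      ∀ᶠ n : ℕ in F₁.L, ∀ z ∈ sites (S.D n), ∀ z' ∈ sites (S.D n),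
      ‖E6.pt z - E6.pt z'‖ / n ≤ d * infDist (E6.pt z / n) K →
      |dH F₁ F₀ n z - dH F₁ F₀ n z'| ≤
        C * (‖E6.pt z - E6.pt z'‖ / n / infDist (E6.pt z / n) K) ^ β)
    (hneu : ∀ (v : ℤ × ℤ) (r : Fin 4), E6.face v r ∈ S.Q → E6.face v (r - 1) ∉ S.Q →
      ∀ φ : ℝ → ℝ, ContDiff ℝ ∞ φ → tsupport φ ⊆ Ioo 0 1 \ {S.tp} →
      (∀ t ∈ tsupport φ, E6.pt v + t * E6.pt (E6.dir r) ∉ K) →
      ∀ ε > 0, ∃ r₀ > 0, ∀ h : ℝ, 0 < h → h < r₀ → ∀ᶠ n : ℕ in F₁.L,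
      |(∑ x ∈ Finset.range n, φ (x / n) *
        (dH F₁ F₀ n ((n : ℤ) • v + (x : ℤ) • E6.dir r + (⌊h * n⌋₊ : ℤ) • E6.dir (r + 1)) -
          dH F₁ F₀ n ((n : ℤ) • v + (x : ℤ) • E6.dir r))) / n| ≤ ε * h)
    (U : Ultrafilter ℕ) (hU : (U : Filter ℕ) ≤ F₁.L) :
    ∃ Y : ℂ → ℝ, PotLim S K Y ∧ ∀ f : ℂ → ℝ, S.FF f →
      Tendsto (fun n : ℕ => F₁.U n f - F₀.U n f) U (𝓝 (∫ x, f x * Y x)) := by
  have hw : Pot S F₁.L (dH F₁ F₀) K := ⟨fun φ hφ => pot_mom hL h1 h0 hφ, heq, hneu⟩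
  obtain ⟨Y, hY1, hY2⟩ := hw.limit F₁.le hK U hU
  refine ⟨Y, hY1, fun f hf => (hY2 f hf).congr fun n => sum_dH F₁ F₀ n f⟩

end Vale.Agent.P167.CAQ
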