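import Vale.Agent.P167.CAQ.J6
import Vale.Agent.P167.CAQ.TwoFin

/-!
# P167, general `q`, block Q-EQJ: the hypothesis `eq` of `two_limit` for the Dobrushin families

`X₁`, `X₀`: two families of Dobrushin functionals in the same polygons with the same base. `K` is a
closed set near which all the sides lie whose boundary conditions are not both free (`b = true`) or
not both wired (`b = false`).
-/

namespace Vale.Agent.P167.CAQ

open MeasureTheory Filter Topology Set Complex Metric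
open Vale.Agent.P167.BR (sites)
open Vale.Agent.P167.FK (Ex RSW)
open Vale.Agent.P167.CA (Dat cms)
open Vale.Agent.P167.E6 (IsPolygon Encloses)
open Vale.Agent.P167.H718 (Dob)
open Vale.Agent.P167.H542.Q (thB BD)
open Vale.Agent.P167.CAQ.J (hB ArcB eqj_dob poly_rot)

theorem norm_pt_le (z z' : ℤ × ℤ) : ‖E6.pt z - E6.pt z'‖ ≤ 2 * (nm (z - z') : ℝ) := by
  have h1 := Complex.norm_le_abs_re_add_abs_im (E6.pt z - E6.pt z')
  have e1 : (E6.pt z - E6.pt z').re = ((z.1 - z'.1 : ℤ) : ℝ) := by simp [E6.pt]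
  have e2 : (E6.pt z - E6.pt z').im = ((z.2 - z'.2 : ℤ) : ℝ) := by simp [E6.pt]
  rw [e1, e2] at h1
  have h2 : |(z - z').1| ≤ nm (z - z') := le_max_left _ _
  have h3 : |(z - z').2| ≤ nm (z - z') := le_max_right _ _
  have h2' : |((z.1 - z'.1 : ℤ) : ℝ)| ≤ (nm (z - z') : ℝ) := by
    rw [← Int.cast_abs]; exact_mod_cast h2
  have h3' : |((z.2 - z'.2 : ℤ) : ℝ)| ≤ (nm (z - z') : ℝ) := by
    rw [← Int.cast_abs]; exact_mod_cast h3
  linarith

theorem nm_le_pt (z z' : ℤ × ℤ) : (nm (z - z') : ℝ) ≤ ‖E6.pt z - E6.pt z'‖ := by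
  have h1 := Complex.abs_re_le_norm (E6.pt z - E6.pt z')
  have h2 := Complex.abs_im_le_norm (E6.pt z - E6.pt z')
  have e1 : (E6.pt z - E6.pt z').re = ((z.1 - z'.1 : ℤ) : ℝ) := by simp [E6.pt]
  have e2 : (E6.pt z - E6.pt z').im = ((z.2 - z'.2 : ℤ) : ℝ) := by simp [E6.pt]
  rw [e1] at h1
  rw [e2] at h2
  unfold nm
  rw [Int.cast_max, Int.cast_abs, Int.cast_abs]
  exact max_le h1 h2

theorem nm_pos {z z' : ℤ × ℤ} (h : z ≠ z') : 1 ≤ nm (z - z') := by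
  by_contra hcon
  apply h
  have h1 : nm (z - z') ≤ 0 := by omega
  simp only [nm, Prod.fst_sub, Prod.snd_sub, max_le_iff, abs_le] at h1
  ext <;> omega

/-- The side `j` has the kind `b` for both. -/
def Same (b : Bool) (k₁ k₀ j : ℕ) : Prop := if b then j < k₁ ∧ j < k₀ else k₁ ≤ j ∧ k₀ ≤ j

/-- The bound in one domain, from a bound at the integer scale. -/
theorem scale_up {C γ δ : ℝ} (hC : 0 < C) (hγ : 0 < γ) (hδ : 0 < δ) (S : Dat) (K : Set ℂ)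
    (C₀ : ℝ) :
    ∃ C' d : ℝ, 0 < d ∧ d ≤ 1 / 2 ∧ ∀ (n : ℕ), 0 < n → ∀ (b : Bool) {N : ℕ}
      (q : ZMod N → ℤ × ℤ) (k₁ k₀ : ℕ) (w : ℤ × ℤ → ℝ),
      (∀ j < N, ¬ Same b k₁ k₀ j → infDist (E6.pt (q j) / n) K ≤ C₀ / n) →
      (∀ z ∈ sites (S.D n), ∀ R : ℤ, 1 ≤ R → 16 * R ≤ n → ArcB b q k₁ z (R + 2) →
        ArcB b q k₀ z (R + 2) → ∀ z' ∈ sites (S.D n), (nm (z - z') : ℝ) ≤ δ * R →
        |w z - w z'| ≤ C * ((nm (z - z') : ℝ) / R) ^ γ) →
      ∀ z ∈ sites (S.D n), ∀ z' ∈ sites (S.D n),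
        ‖E6.pt z - E6.pt z'‖ / n ≤ d * infDist (E6.pt z / n) K →
        |w z - w z'| ≤ C' * (‖E6.pt z - E6.pt z'‖ / n / infDist (E6.pt z / n) K) ^ γ := by
  obtain ⟨M₀, hM₀⟩ := (CA.isCompact_region S.Q).exists_bound_of_continuousOn
    (continuous_infDist_pt K).continuousOn
  set M : ℝ := max M₀ 1 with hM
  have hM1 : 1 ≤ M := le_max_right _ _
  set c : ℝ := min (1 / 4) (1 / (16 * M)) with hc
  have hc0 : 0 < c := lt_min (by norm_num) (by positivity)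
  have hc4 : c ≤ 1 / 4 := min_le_left _ _
  have hcM : c ≤ 1 / (16 * M) := min_le_right _ _
  set B : ℝ := 2 * max C₀ 0 + 9 with hB
  have hB0 : 0 < B := by have := le_max_right C₀ 0; linarith
  set d : ℝ := min (1 / 2) (min (c / 2) (min (1 / B) (δ * c / 2))) with hd
  have hd0 : 0 < d := lt_min (by norm_num) (lt_min (by positivity) (lt_min (by positivity)
    (by positivity)))
  have hd1 : d ≤ c / 2 := (min_le_right _ _).trans (min_le_left _ _)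
  have hd2 : d ≤ 1 / B := ((min_le_right _ _).trans (min_le_right _ _)).trans (min_le_left _ _)
  have hd3 : d ≤ δ * c / 2 :=
    ((min_le_right _ _).trans (min_le_right _ _)).trans (min_le_right _ _)
  refine ⟨C * (2 / c) ^ γ, d, hd0, min_le_left _ _, ?_⟩
  intro n hn b N q k₁ k₀ w hbad key z hz z' hz' hzz
  have hn' : (0 : ℝ) < n := by exact_mod_cast hn
  set ρ : ℝ := infDist (E6.pt z / n) K with hρ
  have hρ0 : 0 ≤ ρ := infDist_nonneg
  by_cases hzz' : z = z'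
  · rw [hzz', sub_self, abs_zero]
    exact mul_nonneg (mul_nonneg hC.le (Real.rpow_nonneg (by positivity) _))
      (Real.rpow_nonneg (by positivity) _)
  have hnm := nm_pos hzz'
  have hnm' : (1 : ℝ) ≤ (nm (z - z') : ℝ) := by exact_mod_cast hnm
  set u : ℝ := ‖E6.pt z - E6.pt z'‖ with hu
  have hnu : (nm (z - z') : ℝ) ≤ u := nm_le_pt z z'
  have hu1 : u ≤ d * (n * ρ) := by
    rw [div_le_iff₀ hn'] at hzz
    linarith
  have hρp : 0 < ρ := by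
    rcases hρ0.eq_or_lt with h | h
    · rw [← h, mul_zero, mul_zero] at hu1
      linarith
    · exact h
  have hnρ : 1 / d ≤ n * ρ := by
    rw [div_le_iff₀ hd0]
    linarith
  have hnρB : B ≤ n * ρ := by
    refine le_trans ?_ hnρ
    rw [le_div_iff₀ hd0]
    rw [le_div_iff₀ hB0] at hd2
    linarith
  have hnρc : 2 ≤ c * (n * ρ) := by
    have h1 : c * (1 / d) ≤ c * (n * ρ) := mul_le_mul_of_nonneg_left hnρ hc0.le
    refine le_trans ?_ h1
    rw [mul_one_div, le_div_iff₀ hd0]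
    linarith
  have hρM : ρ ≤ M := by
    have h1 := hM₀ _ (CA.site_region hn hz)
    rw [Real.norm_eq_abs, abs_of_nonneg infDist_nonneg] at h1
    exact h1.trans (le_max_left _ _)
  set R : ℤ := ⌊c * (n * ρ)⌋ with hR
  have hR1 : (R : ℝ) ≤ c * (n * ρ) := Int.floor_le _
  have hR2 : c * (n * ρ) / 2 ≤ R := by
    have := Int.lt_floor_add_one (c * (n * ρ))
    rw [← hR] at this
    linarith
  have hR3 : 1 ≤ R := by
    have : (1 : ℝ) ≤ R := by linarith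
    exact_mod_cast this
  have hRp : (0 : ℝ) < R := by linarith
  have hR16 : 16 * R ≤ n := by
    have h1 : 16 * (c * (n * ρ)) ≤ n := by
      have h2 : c * (16 * M) ≤ 1 := by rwa [le_div_iff₀ (by positivity)] at hcM
      have h3 : 16 * (c * (n * ρ)) = (16 * ρ * c) * n := by ring
      have h4 : 16 * ρ * c ≤ 1 := by nlinarith
      rw [h3]
      exact mul_le_of_le_one_left hn'.le h4
    have : (16 * R : ℝ) ≤ n := by linarith
    exact_mod_cast this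
  -- the sides near `z`
  have hgood : ∀ j < N, nm (q j - z) ≤ R + 2 → Same b k₁ k₀ j := by
    intro j hj hjz
    by_contra hcon
    have h1 := hbad j hj hcon
    have h2 : ρ ≤ infDist (E6.pt (q j) / n) K + dist (E6.pt z / n) (E6.pt (q j) / n) :=
      infDist_le_infDist_add_dist
    have h3 : dist (E6.pt z / n) (E6.pt (q j) / n) = ‖E6.pt (q j) - E6.pt z‖ / n := by
      rw [dist_comm, dist_eq_norm, ← sub_div, norm_div, Complex.norm_natCast]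
    have h4 := norm_pt_le (q j) z
    have h5 : ((nm (q j - z) : ℤ) : ℝ) ≤ R + 2 := by exact_mod_cast hjz
    have h6 : ‖E6.pt (q j) - E6.pt z‖ / n ≤ (2 * (R + 2)) / n :=
      (div_le_div_iff_of_pos_right hn').2 (by linarith)
    have h7 : ρ ≤ (C₀ + 2 * (R + 2)) / n := by
      rw [add_div]
      linarith
    rw [le_div_iff₀ hn'] at h7
    have h8 := le_max_left C₀ 0
    have h9 : c * (n * ρ) ≤ 1 / 4 * (n * ρ) := mul_le_mul_of_nonneg_right hc4 (by positivity)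
    linarith
  have ha₁ : ArcB b q k₁ z (R + 2) := fun j hj hjz => by
    have := hgood j hj hjz
    unfold Same at this
    cases b
    · exact this.1
    · exact this.1
  have ha₀ : ArcB b q k₀ z (R + 2) := fun j hj hjz => by
    have := hgood j hj hjz
    unfold Same at this
    cases b
    · exact this.2
    · exact this.2
  have hz4 : (nm (z - z') : ℝ) ≤ δ * R := by
    have h1 : d * (n * ρ) ≤ δ * c / 2 * (n * ρ) := mul_le_mul_of_nonneg_right hd3 (by positivity)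
    have h2 : δ * (c * (n * ρ) / 2) ≤ δ * R := mul_le_mul_of_nonneg_left hR2 hδ.le
    linarith
  refine (key z hz R hR3 hR16 ha₁ ha₀ z' hz' hz4).trans ?_
  rw [mul_assoc, ← Real.mul_rpow (by positivity) (by positivity)]
  refine mul_le_mul_of_nonneg_left ?_ hC.le
  refine Real.rpow_le_rpow (by positivity) ?_ hγ.le
  rw [div_le_iff₀ hRp]
  have h1 : 2 / c * (u / n / ρ) * (c * (n * ρ) / 2) = u := by field_simp
  have h2 : 2 / c * (u / n / ρ) * (c * (n * ρ) / 2) ≤ 2 / c * (u / n / ρ) * R :=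
    mul_le_mul_of_nonneg_left hR2 (by positivity)
  linarith

/-- The potential of the charge `0` is `hB`. -/
theorem famB_hB {S : Dat} {θ β : ℝ} (X : BD S θ β) (h0 : 0 < θ) (h1 : θ ≤ Real.pi / 3)
    (hβ : Real.cos (θ / 2 + β) = Real.sin θ) (n : ℕ) (z : ℤ × ℤ) :
    (X.famB h0 h1 hβ).H n (fun _ => 0) z = hB (2 * Real.cos θ) (S.D n) (X.η n) (X.q n 0)
      (fun A => Real.tan (thB θ β (X.q n) (S.D n) (X.k n) A)) z := by
  classical
  rw [BD.famB_H0]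
  unfold hB
  congr 1
  funext ω
  rw [Finset.sum_filter]
  refine Finset.sum_congr rfl fun A _ => ?_
  split_ifs <;> simp

/-- Two polygons around the same domain with the same base. -/
theorem two_poly {S : Dat} {θ β : ℝ} {C γ δ : ℝ} {n : ℕ} {N₁ N₀ : ℕ} {q₁ : ZMod N₁ → ℤ × ℤ}
    {q₀ : ZMod N₀ → ℤ × ℤ} (hq₁ : IsPolygon q₁) (hD₁ : Encloses q₁ (S.D n))
    (hq₀ : IsPolygon q₀) (hD₀ : Encloses q₀ (S.D n)) (hb : q₁ 0 = q₀ 0) {k₁ k₀ : ℕ}
    (hk₁ : k₁ ≤ N₁) (hk₀ : k₀ ≤ N₀) {η₁ η₀ : Cfg} (hη₁ : Dob η₁ (S.D n) q₁ k₁)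
    (hη₀ : Dob η₀ (S.D n) q₀ k₀)
    (key : ∀ {l : ℕ} {p : ZMod l → ℤ × ℤ} {S : Finset (ℤ × ℤ)},
    IsPolygon p → Encloses p S → ∀ {N n : ℕ} {q : ZMod n → ℤ × ℤ}, IsPolygon q →
    Encloses q (CA.enl S N) → ∀ {k₁ k₀ : ℕ}, k₁ ≤ n → k₀ ≤ n → ∀ {η₁ η₀ : Cfg},
    Dob η₁ (CA.enl S N) q k₁ → Dob η₀ (CA.enl S N) q k₀ → ∀ (b : Bool) (i : ZMod n),
    ∀ z ∈ sites (CA.enl S N), ∀ R : ℤ, 1 ≤ R → 16 * R ≤ N → ArcB b q k₁ z (R + 2) →
    ArcB b q k₀ z (R + 2) → ∀ z' ∈ sites (CA.enl S N), (nm (z - z') : ℝ) ≤ δ * R →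
    |(hB (2 * Real.cos θ) (CA.enl S N) η₁ (q i)
          (fun A => Real.tan (thB θ β q (CA.enl S N) k₁ A)) z -
        hB (2 * Real.cos θ) (CA.enl S N) η₀ (q i)
          (fun A => Real.tan (thB θ β q (CA.enl S N) k₀ A)) z) -
      (hB (2 * Real.cos θ) (CA.enl S N) η₁ (q i)
          (fun A => Real.tan (thB θ β q (CA.enl S N) k₁ A)) z' -
        hB (2 * Real.cos θ) (CA.enl S N) η₀ (q i)
          (fun A => Real.tan (thB θ β q (CA.enl S N) k₀ A)) z')| ≤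
      C * ((nm (z - z') : ℝ) / R) ^ γ) (b : Bool) :
    ∀ z ∈ sites (S.D n), ∀ R : ℤ, 1 ≤ R → 16 * R ≤ n → ArcB b q₁ k₁ z (R + 2) →
    ArcB b q₁ k₀ z (R + 2) → ∀ z' ∈ sites (S.D n), (nm (z - z') : ℝ) ≤ δ * R →
    |(hB (2 * Real.cos θ) (S.D n) η₁ (q₁ 0)
          (fun A => Real.tan (thB θ β q₁ (S.D n) k₁ A)) z -
        hB (2 * Real.cos θ) (S.D n) η₀ (q₀ 0)
          (fun A => Real.tan (thB θ β q₀ (S.D n) k₀ A)) z) -
      (hB (2 * Real.cos θ) (S.D n) η₁ (q₁ 0)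
          (fun A => Real.tan (thB θ β q₁ (S.D n) k₁ A)) z' -
        hB (2 * Real.cos θ) (S.D n) η₀ (q₀ 0)
          (fun A => Real.tan (thB θ β q₀ (S.D n) k₀ A)) z')| ≤
      C * ((nm (z - z') : ℝ) / R) ^ γ := by
  obtain ⟨rfl, s, hs⟩ := poly_rot hq₁ hD₁ hq₀ hD₀
  have hnz : NeZero N₁ := ⟨by have := hq₁.1; omega⟩
  have hs0 : (s : ZMod N₁) = 0 := by
    have h1 := hs 0
    rw [Nat.cast_zero, hb, add_zero] at h1
    exact (hq₀.2.1 h1).symm
  have hqq : q₁ = q₀ := by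
    funext i
    have h1 := hs i.val
    rw [ZMod.natCast_zmod_val, Nat.cast_add, hs0, zero_add, ZMod.natCast_zmod_val] at h1
    exact h1
  subst hqq
  exact key S.poly S.enc hq₁ hD₁ hk₁ hk₀ hη₁ hη₀ b 0

/-- **[Q-EQJ]**: the hypothesis `heq` of `two_limit` for two Dobrushin families. -/
theorem eqj_BD {θ β : ℝ} (h0 : 0 < θ) (h1 : θ ≤ Real.pi / 3)
    (hβ : Real.cos (θ / 2 + β) = Real.sin θ) (hRSW : RSW (2 * Real.cos θ)) {S : Dat}
    (X₁ X₀ : BD S θ β) (hL : X₁.L = X₀.L) (hb : ∀ᶠ n in X₁.L, X₁.q n 0 = X₀.q n 0) (b : Bool)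
    {K : Set ℂ} {C₀ : ℝ} (hbad : ∀ᶠ n : ℕ in X₁.L, ∀ j < X₁.N n,
      ¬ Same b (X₁.k n) (X₀.k n) j → infDist (E6.pt (X₁.q n j) / n) K ≤ C₀ / n) :
    ∃ C β' d : ℝ, 0 < β' ∧ 0 < d ∧ d ≤ 1 / 2 ∧ ∀ᶠ n : ℕ in (X₁.famB h0 h1 hβ).L,
      ∀ z ∈ sites (S.D n), ∀ z' ∈ sites (S.D n),
      ‖E6.pt z - E6.pt z'‖ / n ≤ d * infDist (E6.pt z / n) K →
      |dH (X₁.famB h0 h1 hβ) (X₀.famB h0 h1 hβ) n z -
          dH (X₁.famB h0 h1 hβ) (X₀.famB h0 h1 hβ) n z'| ≤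
        C * (‖E6.pt z - E6.pt z'‖ / n / infDist (E6.pt z / n) K) ^ β' := by
  obtain ⟨C, γ, δ, hC, hγ, hδ, key⟩ := eqj_dob h0 h1 hβ hRSW
  obtain ⟨C', d, hd0, hd1, up⟩ := scale_up hC hγ hδ S K C₀
  refine ⟨C', γ, d, hγ, hd0, hd1, ?_⟩
  show ∀ᶠ n : ℕ in X₁.L, _
  filter_upwards [X₁.poly, X₁.enc, X₁.kle, X₁.dob, hL ▸ X₀.poly, hL ▸ X₀.enc, hL ▸ X₀.kle,
    hL ▸ X₀.dob, hb, hbad, (eventually_gt_atTop 0).filter_mono X₁.le] with
    n a1 a2 a3 a4 b1 b2 b3 b4 hbn hbadn hn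
  have h2 := two_poly a1 a2 b1 b2 hbn a3 b3 a4 b4 key b
  have h3 := up n hn b (X₁.q n) (X₁.k n) (X₀.k n)
    (dH (X₁.famB h0 h1 hβ) (X₀.famB h0 h1 hβ) n) hbadn ?_
  · exact h3
  intro z hz R hR1 hR16 ha1 ha0 z' hz' hzz
  have h4 := h2 z hz R hR1 hR16 ha1 ha0 z' hz' hzz
  unfold dH
  rw [famB_hB, famB_hB, famB_hB, famB_hB]
  exact h4

end Vale.Agent.P167.CAQ
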