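import Vale.Agent.P167.CAQ.J7
import Vale.Agent.P167.H411.Q.As2
import Vale.Agent.P167.H760.Q.Dir

/-!
# P167, general `q`, block Q-EQJ: the two limits of the block Q-ID for the Dobrushin families

`lims_DF`, `lims_DW`: for the Dobrushin family `XD` with the junction at the position `α` of the
boundary of a lattice polygon (base point at the position `tp`), the free and the wired family: the
differences `U^D - U^F` and `U^D - U^W` converge along ultrafilters (helper411's `Lims`), from (MOM) and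
helper760's local Neumann input `TwoAll` for the functions `H(0; .)`.
-/

namespace Vale.Agent.P167.CAQ

open MeasureTheory Filter Topology Set Complex Metric
open Vale.Agent.P167.BR (sites)
open Vale.Agent.P167.FK (Ex RSW)
open Vale.Agent.P167.CA (Dat cms)
open Vale.Agent.P167.E6 (IsPolygon Encloses pt)
open Vale.Agent.P167.H718 (Dob)
open Vale.Agent.P167.H542.Q (thB BD)
open Vale.Agent.P167.CAQ.J (poly_rot)
open Vale.Agent.P167.H411.Q (bpt bpt_side arcW arcF arcW_arc arcF_arc Lims)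
open Vale.Agent.P167.H760.Q (TwoAll neu_dH)
open Vale.Agent.P167.H365.NQ (NREDQ)

/-- The vertices of the enlarged polygon are points of the boundary. -/
theorem pt_pe (S : Dat) {n : ℕ} (hn : 0 < n) (t : ℕ) :
    pt (CL.pe S.p n t) / n = bpt S ((t : ℝ) / n) := by
  have hn' : (0 : ℝ) < n := by exact_mod_cast hn
  have hnc : (n : ℂ) ≠ 0 := by exact_mod_cast hn.ne'
  have h1 := Nat.div_add_mod t n
  have e : (t : ℝ) / n = ((t / n : ℕ) : ℤ) + ((t % n : ℕ) : ℝ) / n := by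
    rw [Int.cast_natCast, eq_comm, add_div' _ _ _ hn'.ne', div_left_inj' hn'.ne']
    exact_mod_cast (by rw [mul_comm]; exact h1 : t / n * n + t % n = t)
  have h2 : ((t % n : ℕ) : ℝ) / n ≤ 1 := by
    rw [div_le_one hn']
    exact_mod_cast (Nat.mod_lt t hn).le
  rw [e, bpt_side S _ (by positivity) h2, CL.pe_eq]
  have add : ∀ a b : ℤ × ℤ, pt (a + b) = pt a + pt b := fun a b => by
    apply Complex.ext <;> simp [pt]
  have sub : ∀ a b : ℤ × ℤ, pt (a - b) = pt a - pt b := fun a b => by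
    apply Complex.ext <;> simp [pt]
  have smul : ∀ (c : ℤ) (b : ℤ × ℤ), pt (c • b) = c * pt b := fun c b => by
    apply Complex.ext <;> simp [pt]
  rw [add, smul, smul, sub]
  clear h2 e h1
  generalize t / n = a
  generalize t % n = b
  push_cast
  field_simp

/-- Steps of the enlarged polygon. -/
theorem nm_pe {S : Dat} {n : ℕ} (hn : 0 < n) (s t : ℕ) :
    nm (CL.pe S.p n (s + t) - CL.pe S.p n s) ≤ t := by
  induction t with
  | zero => simp [nm]
  | succ t ih =>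
    obtain ⟨r, hr⟩ := CL.diff_dir S.poly (((s + t) / n : ℕ) : ZMod S.l)
    have h1 : CL.pe S.p n (s + (t + 1)) - CL.pe S.p n (s + t) = E6.dir r := by
      rw [← add_assoc, CL.pe_succ hn, hr]
      abel
    have h2 : nm (E6.dir r) ≤ 1 := by
      rcases H718.dir4 r with h | h | h | h <;> rw [h] <;> simp [nm]
    have h3 := H45.nm_sub_le (CL.pe S.p n (s + (t + 1))) (CL.pe S.p n (s + t)) (CL.pe S.p n s)
    rw [h1] at h3
    push_cast
    linarith

/-- The sides of a polygon around `S.D n` with the base `S.b n`. -/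
theorem q_pos (S : Dat) {n : ℕ} (hn : 0 < n) {N : ℕ} {q : ZMod N → ℤ × ℤ} (hq : IsPolygon q)
    (hD : Encloses q (S.D n)) (hb : q 0 = S.b n) : N = n * S.l ∧
    ∀ j : ℕ, q (j : ZMod N) = CL.pe S.p n (⌊S.tp * n⌋₊ + j) := by
  obtain ⟨rfl, s, hs⟩ := poly_rot hq hD (CL.re_poly S.poly hn ⌊S.tp * n⌋₊)
    (CL.re_encl S.poly S.enc hn ⌊S.tp * n⌋₊)
  refine ⟨rfl, fun j => ?_⟩
  have hn' : (0 : ℝ) < n := by exact_mod_cast hn
  have hl : ⌊S.tp * n⌋₊ < n := by
    rw [Nat.floor_lt (by have := S.tp0; positivity)]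
    nlinarith [S.tp1]
  have hs0 : CL.re S.p n ⌊S.tp * n⌋₊ ((s : ℕ) : ZMod (n * S.l)) =
      CL.re S.p n ⌊S.tp * n⌋₊ ((0 : ℕ) : ZMod (n * S.l)) := by
    have h1 := hs 0
    rw [Nat.cast_zero, add_zero] at h1
    rw [← h1, hb, CL.re_nat hn, zero_add, CL.pe_eq, Nat.div_eq_of_lt hl, Nat.mod_eq_of_lt hl]
    unfold CA.Dat.b
    rw [Nat.cast_zero, zero_add, S.step]
    simp
  have hs1 : ((s : ℕ) : ZMod (n * S.l)) = 0 := by
    have := (CL.re_poly S.poly hn ⌊S.tp * n⌋₊).2.1 hs0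
    rwa [Nat.cast_zero] at this
  rw [hs j, Nat.cast_add, hs1, zero_add, CL.re_nat hn, add_comm]

/-- Points near an arc. -/
theorem infDist_arc (S : Dat) {n : ℕ} (hn : 0 < n) {a b : ℝ} {s J : ℕ} {C : ℝ}
    (h1 : a ≤ (J : ℝ) / n) (h2 : (J : ℝ) / n ≤ b) (h3 : |(s : ℝ) - J| ≤ C) :
    infDist (pt (CL.pe S.p n s) / n) (bpt S '' Icc a b) ≤ 2 * C / n := by
  have hn' : (0 : ℝ) < n := by exact_mod_cast hn
  have hm : bpt S ((J : ℝ) / n) ∈ bpt S '' Icc a b := mem_image_of_mem _ ⟨h1, h2⟩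
  refine (infDist_le_dist_of_mem hm).trans ?_
  rw [← pt_pe S hn, dist_eq_norm, ← sub_div, norm_div, Complex.norm_natCast]
  refine (div_le_div_iff_of_pos_right hn').2 ?_
  have h4 := norm_pt_le (CL.pe S.p n s) (CL.pe S.p n J)
  have h5 : (nm (CL.pe S.p n s - CL.pe S.p n J) : ℝ) ≤ |(s : ℝ) - J| := by
    rcases le_total J s with h | h
    · obtain ⟨t, rfl⟩ := Nat.exists_eq_add_of_le h
      have := nm_pe (S := S) hn J t
      push_cast
      rw [add_sub_cancel_left, abs_of_nonneg (Nat.cast_nonneg t)]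
      exact_mod_cast this
    · obtain ⟨t, rfl⟩ := Nat.exists_eq_add_of_le h
      have := nm_pe (S := S) hn s t
      rw [H45.nm_sub_comm] at this
      push_cast
      rw [show (s : ℝ) - (s + t) = -t by ring, abs_neg, abs_of_nonneg (Nat.cast_nonneg t)]
      exact_mod_cast this
  linarith

/-- The wired sides are near the closed wired arc. -/
theorem near_W (S : Dat) {n : ℕ} (hn : 0 < n) {N : ℕ} {q : ZMod N → ℤ × ℤ} (hq : IsPolygon q)
    (hD : Encloses q (S.D n)) (hb : q 0 = S.b n) {α C₀ : ℝ} (hα0 : 0 ≤ α)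
    (hα : α + 1 / n ≤ S.l + S.tp)
    {k : ℕ} (hk : α * n - C₀ ≤ ⌊S.tp * n⌋₊ + k) {j : ℕ} (hj : k ≤ j) (hjN : j < N) :
    infDist (pt (q j) / n) (arcW S α) ≤ 2 * (|C₀| + 1) / n := by
  obtain ⟨rfl, hpos⟩ := q_pos S hn hq hD hb
  rw [hpos j]
  have hn' : (0 : ℝ) < n := by exact_mod_cast hn
  have htp : (⌊S.tp * n⌋₊ : ℝ) ≤ S.tp * n := Nat.floor_le (by have := S.tp0; positivity)
  have hjN' : (j : ℝ) ≤ n * S.l := by exact_mod_cast hjN.le
  have hj' : (k : ℝ) ≤ j := by exact_mod_cast hj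
  have hC := le_abs_self C₀
  have hup : ((⌊S.tp * n⌋₊ + j : ℕ) : ℝ) ≤ (S.l + S.tp) * n := by
    push_cast
    nlinarith
  by_cases h : α * n ≤ ((⌊S.tp * n⌋₊ + j : ℕ) : ℝ)
  · refine infDist_arc S hn (J := ⌊S.tp * n⌋₊ + j) ?_ ?_ ?_
    · rwa [le_div_iff₀ hn']
    · rwa [div_le_iff₀ hn']
    · rw [sub_self, abs_zero]; positivity
  · rw [not_le] at h
    have h1 : (⌈α * n⌉₊ : ℝ) < α * n + 1 := Nat.ceil_lt_add_one (by positivity)
    have h2 : α * n ≤ ⌈α * n⌉₊ := Nat.le_ceil _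
    refine infDist_arc S hn (J := ⌈α * n⌉₊) ?_ ?_ ?_
    · rwa [le_div_iff₀ hn']
    · rw [div_le_iff₀ hn']
      have h3 : (α + 1 / n) * n ≤ (S.l + S.tp) * n := mul_le_mul_of_nonneg_right hα hn'.le
      have h4 : (α + 1 / n) * n = α * n + 1 := by field_simp
      linarith
    · push_cast at h ⊢
      rw [abs_le]
      constructor <;> linarith

/-- The free sides are near the closed free arc. -/
theorem near_F (S : Dat) {n : ℕ} (hn : 0 < n) {N : ℕ} {q : ZMod N → ℤ × ℤ} (hq : IsPolygon q)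
    (hD : Encloses q (S.D n)) (hb : q 0 = S.b n) {α C₀ : ℝ} (hα : S.tp + 1 / n ≤ α)
    {k : ℕ} (hk : (⌊S.tp * n⌋₊ + k : ℝ) ≤ α * n + C₀) {j : ℕ} (hj : j < k) :
    infDist (pt (q j) / n) (arcF S α) ≤ 2 * (|C₀| + 2) / n := by
  obtain ⟨rfl, hpos⟩ := q_pos S hn hq hD hb
  rw [hpos j]
  have hn' : (0 : ℝ) < n := by exact_mod_cast hn
  have htp0 := S.tp0
  have htp : (⌊S.tp * n⌋₊ : ℝ) ≤ S.tp * n := Nat.floor_le (by positivity)
  have htp' : S.tp * n < ⌊S.tp * n⌋₊ + 1 := Nat.lt_floor_add_one _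
  have hj' : (j : ℝ) < k := by exact_mod_cast hj
  have hC := le_abs_self C₀
  have hj0 : (0 : ℝ) ≤ j := Nat.cast_nonneg _
  have h0 : (0 : ℝ) < 1 / n := by positivity
  have hα0 : 0 < α := by linarith
  have hαn : (S.tp + 1 / n) * n ≤ α * n := mul_le_mul_of_nonneg_right hα hn'.le
  have e4 : (S.tp + 1 / n) * n = S.tp * n + 1 := by field_simp
  by_cases h : S.tp * n ≤ ((⌊S.tp * n⌋₊ + j : ℕ) : ℝ)
  · by_cases h' : ((⌊S.tp * n⌋₊ + j : ℕ) : ℝ) ≤ α * n
    · refine infDist_arc S hn (J := ⌊S.tp * n⌋₊ + j) ?_ ?_ ?_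
      · rwa [le_div_iff₀ hn']
      · rwa [div_le_iff₀ hn']
      · rw [sub_self, abs_zero]; positivity
    · rw [not_le] at h'
      have h1 : (⌊α * n⌋₊ : ℝ) ≤ α * n := Nat.floor_le (by positivity)
      have h2 : α * n < ⌊α * n⌋₊ + 1 := Nat.lt_floor_add_one _
      refine infDist_arc S hn (J := ⌊α * n⌋₊) ?_ ?_ ?_
      · rw [le_div_iff₀ hn']
        linarith
      · rwa [div_le_iff₀ hn']
      · push_cast at h' ⊢
        rw [abs_le]
        constructor <;> linarith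
  · rw [not_le] at h
    have h1 : (⌈S.tp * n⌉₊ : ℝ) < S.tp * n + 1 := Nat.ceil_lt_add_one (by positivity)
    have h2 : S.tp * n ≤ ⌈S.tp * n⌉₊ := Nat.le_ceil _
    refine infDist_arc S hn (J := ⌈S.tp * n⌉₊) ?_ ?_ ?_
    · rwa [le_div_iff₀ hn']
    · rw [div_le_iff₀ hn']
      linarith
    · push_cast at h ⊢
      rw [abs_le]
      have := abs_nonneg C₀
      constructor <;> linarith

section

variable {θ β : ℝ} (h0 : 0 < θ) (h1 : θ ≤ Real.pi / 3) (hβ : Real.cos (θ / 2 + β) = Real.sin θ)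
  (hRSW : RSW (2 * Real.cos θ)) (hN : ∀ t, NREDQ (2 * Real.cos θ) t 8) {S : Dat}
include hRSW hN

/-- **The limit `U^D - U^F`** (`XF` free). -/
theorem lims_DF (XD XF : BD S θ β) (hL : XF.L = XD.L) (hbD : ∀ᶠ n in XD.L, XD.q n 0 = S.b n)
    (hbF : ∀ᶠ n in XD.L, XF.q n 0 = S.b n) (hkF : ∀ᶠ n in XD.L, XF.k n = XF.N n) {α C₀ : ℝ}
    (hα0 : S.tp < α) (hα1 : α < S.l + S.tp)
    (hkD : ∀ᶠ n : ℕ in XD.L, α * n - C₀ ≤ ⌊S.tp * n⌋₊ + (XD.k n : ℝ))
    (mD : (XD.famB h0 h1 hβ).MOM) (mF : (XF.famB h0 h1 hβ).MOM)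
    (nD : TwoAll (2 * Real.cos θ) S XD.L fun n => (XD.famB h0 h1 hβ).H n fun _ => 0)
    (nF : TwoAll (2 * Real.cos θ) S XF.L fun n => (XF.famB h0 h1 hβ).H n fun _ => 0) :
    Lims (XD.famB h0 h1 hβ) (XF.famB h0 h1 hβ) (arcW S α) := by
  intro U hU
  have hK := arcW_arc S hα1
  have hL' : (XD.famB h0 h1 hβ).L = (XF.famB h0 h1 hβ).L := hL.symm
  have hlt : Tendsto (fun n : ℕ => α + 1 / (n : ℝ)) atTop (𝓝 (α + 0)) :=
    tendsto_const_nhds.add tendsto_one_div_atTop_nhds_zero_nat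
  rw [add_zero] at hlt
  have hα0' : 0 ≤ α := by have := S.tp0; linarith
  have heq := eqj_BD h0 h1 hβ hRSW XD XF hL.symm (by
    filter_upwards [hbD, hbF] with n a b using a.trans b.symm) true (K := arcW S α)
    (C₀ := 2 * (|C₀| + 1)) (by
    filter_upwards [hbD, hkF, hkD, XD.poly, XD.enc, (hL ▸ XF.poly : ∀ᶠ n in XD.L, _),
      (hL ▸ XF.enc : ∀ᶠ n in XD.L, _),
      (eventually_gt_atTop 0).filter_mono XD.le,
      (hlt.eventually (ge_mem_nhds hα1)).filter_mono XD.le] with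
      n b1 b2 b3 b4 b5 b6 b7 hn hαn j hj hbad
    have hNN : XD.N n = XF.N n := (poly_rot b4 b5 b6 b7).1
    have h2 : XD.k n ≤ j := by
      by_contra hcon
      apply hbad
      exact ⟨by omega, by rw [b2, ← hNN]; exact hj⟩
    exact near_W S hn b4 b5 b1 hα0' hαn b3 h2 hj)
  exact two_limit hL' mD mF hK heq (fun w r a1 a2 φ a3 a4 _ ε hε =>
    neu_dH (BD.cos_pos h0 h1) hN _ _ hL' nD nF w r a1 a2 φ a3 a4 ε hε) U hU

/-- **The limit `U^D - U^W`** (`XW` wired). -/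
theorem lims_DW (XD XW : BD S θ β) (hL : XW.L = XD.L) (hbD : ∀ᶠ n in XD.L, XD.q n 0 = S.b n)
    (hbW : ∀ᶠ n in XD.L, XW.q n 0 = S.b n) (hkW : ∀ᶠ n in XD.L, XW.k n = 0) {α C₀ : ℝ}
    (hα0 : S.tp < α)
    (hkD : ∀ᶠ n : ℕ in XD.L, ⌊S.tp * n⌋₊ + (XD.k n : ℝ) ≤ α * n + C₀)
    (mD : (XD.famB h0 h1 hβ).MOM) (mW : (XW.famB h0 h1 hβ).MOM)
    (nD : TwoAll (2 * Real.cos θ) S XD.L fun n => (XD.famB h0 h1 hβ).H n fun _ => 0)
    (nW : TwoAll (2 * Real.cos θ) S XW.L fun n => (XW.famB h0 h1 hβ).H n fun _ => 0) :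
    Lims (XD.famB h0 h1 hβ) (XW.famB h0 h1 hβ) (arcF S α) := by
  intro U hU
  have hK := arcF_arc S hα0
  have hL' : (XD.famB h0 h1 hβ).L = (XW.famB h0 h1 hβ).L := hL.symm
  have hlt : Tendsto (fun n : ℕ => S.tp + 1 / (n : ℝ)) atTop (𝓝 (S.tp + 0)) :=
    tendsto_const_nhds.add tendsto_one_div_atTop_nhds_zero_nat
  rw [add_zero] at hlt
  have heq := eqj_BD h0 h1 hβ hRSW XD XW hL.symm (by
    filter_upwards [hbD, hbW] with n a b using a.trans b.symm) false (K := arcF S α)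
    (C₀ := 2 * (|C₀| + 2)) (by
    filter_upwards [hbD, hkW, hkD, XD.poly, XD.enc, (eventually_gt_atTop 0).filter_mono XD.le,
      (hlt.eventually (ge_mem_nhds hα0)).filter_mono XD.le] with
      n b1 b2 b3 b4 b5 hn hαn j hj hbad
    have h2 : j < XD.k n := by
      by_contra hcon
      apply hbad
      exact ⟨by omega, by rw [b2]; exact Nat.zero_le _⟩
    exact near_F S hn b4 b5 b1 hαn b3 h2)
  exact two_limit hL' mD mW hK heq (fun w r a1 a2 φ a3 a4 _ ε hε =>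
    neu_dH (BD.cos_pos h0 h1) hN _ _ hL' nD nW w r a1 a2 φ a3 a4 ε hε) U hU

end

end Vale.Agent.P167.CAQ
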