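import Vale.Agent.P167.CAQ.Core

/-!
# P167, CORE-ASM in law-free form: the case `q = 1` (check of the interface)
-/

namespace Vale.Agent.P167.CAQ

open MeasureTheory Filter Topology Set Complex Metric
open Vale.Agent.P167.BR (VD sites)
open Vale.Agent.P167.H542 (VDc XT)
open Vale.Agent.P167.CA (Dat cms sc enl)

/-- The family of `q = 1`. -/
noncomputable def one (S : Dat) : Fam S where
  L := atTop
  le := le_rfl
  cg := inferInstance
  s := sc
  Vc n := VDc (S.D n) (S.b n)
  Hl n a z := ∫ x, XT (S.D n) (S.b n) a z x ∂Vale.Agent.P167.μ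
  b := S.b
  ok := by
    filter_upwards [eventually_gt_atTop 0] with n hn
    refine ⟨fun a c _ _ => H542.differentiable_VDc _ _, fun a _ => ?_, fun a c _ _ =>
      H542.deriv_VDc_zero a c, ?_, S.b_mem hn, fun a _ => ?_⟩
    · rw [H542.VDc_ofReal, Complex.ofReal_im]
    · have h := CA.V_zero S n
      unfold Dat.V at h
      rw [cms_zero'] at h
      have h2 := H542.VDc_ofReal (D := S.D n) (p := S.b n) fun _ => (0 : ℝ)
      rw [h, Complex.ofReal_one] at h2
      simpa using h2
    · unfold XT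
      have h1 : ∀ A : Finset Ed, ¬ BR.Sep (S.D n) A (S.b n) (S.b n) := by
        rintro A ⟨u, _, h⟩; exact h rfl
      simp [h1]

theorem one_V (S : Dat) (n : ℕ) (f : ℂ → ℝ) : (one S).V n f = S.V n f := by
  unfold Fam.V Dat.V one
  simp only [H542.VDc_ofReal, Complex.ofReal_re]

theorem one_H (S : Dat) (n : ℕ) (f : ℂ → ℝ) (z : ℤ × ℤ) : (one S).H n f z = S.H n f z := rfl

theorem one_W (S : Dat) (n : ℕ) (f : ℂ → ℝ) (z : ℤ × ℤ) : (one S).W n f z = S.W n f z := by
  unfold Fam.W Dat.W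
  rw [one_V, one_H, one_H]

/-- The inputs of `q = 1` give the inputs of the family. -/
theorem one_core (hMOM : CA.I_MOM) (hM : CA.I_M2) (hE : CA.I_EQ) (hN : CA.I_NEU) (S : Dat) :
    (one S).CORE := by
  refine core _ (fun f ψ hf hψ => ?_) (fun f hf => ?_) (fun f hf => ?_) ?_
  · refine (hMOM S f ψ hf hψ).congr fun n => ?_
    rw [one_V]
    rfl
  · obtain ⟨C, hC⟩ := hM S f f hf hf 1
    refine ⟨1, one_pos, C, hC.mono fun n hn t ht s hs => ?_⟩
    have := hn t ht s hs
    have e : (fun z => ((t * cms f (1 / n) z : ℝ) : ℂ) + s * (cms f (1 / n) z : ℂ)) =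
        fun z => (t + s) * (cms f (1 / n) z : ℂ) := by
      funext z; push_cast; ring
    rw [e] at this
    exact this
  · obtain ⟨C, β, hβ, h⟩ := hE S f hf
    refine ⟨C, β, hβ, h.mono fun n hn z hz z' hz' => ?_⟩
    rw [one_W, one_W]
    exact hn z hz z' hz'
  · intro f hf w r h1 h2 φ h3 h4 ε hε
    obtain ⟨r₀, hr, h⟩ := hN S f hf w r h1 h2 φ h3 h4 ε hε
    refine ⟨r₀, hr, fun η h5 h6 => (h η h5 h6).mono fun n hn => ?_⟩
    simp only [one_W]
    exact hn

end Vale.Agent.P167.CAQ
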