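import Vale.Agent.P167.CAQ.Defs
import Vale.Agent.P167.CA.Cell

/-!
# P167, general `q`, CORE-ASM: the path `t ↦ V_n(t f)`
-/

namespace Vale.Agent.P167.CAQ

open MeasureTheory Filter Topology Set Complex Metric
open Vale.Agent.P167.BR (sites)
open Vale.Agent.P167.BVP (Test)
open Vale.Agent.P167.CA (Dat cms en Pair cms_smul cms_zero cms_sub cs_mem mem_cl cms_eq
  measurableSet_cl)

/-- Cell masses of functions with support in the domain are supported by the sites. -/
theorem supp_cms {S : Dat} {n : ℕ} (hn : 0 < n) {f : ℂ → ℝ} (hf : Test S.P f) :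
    Supp S n (cms f (1 / n)) := by
  intro z hz
  by_contra hne
  apply hz
  rw [cms_eq]
  rw [setIntegral_congr_fun (measurableSet_cl n z) (g := fun _ => (0 : ℝ))]
  · simp
  · intro x hx
    by_contra h0
    have h1 : x ∈ interior (E6.region 1 S.Q) := hf.2.2 (subset_tsupport f h0)
    have h2 := cs_mem hn h1
    rw [mem_cl.1 hx] at h2
    exact hne h2

theorem supp_smul {S : Dat} {n : ℕ} {a : ℤ × ℤ → ℝ} (h : Supp S n a) (t : ℝ) :
    Supp S n fun z => t * a z := fun z hz => h z (right_ne_zero_of_mul hz)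

theorem supp_ofReal {S : Dat} {n : ℕ} {a : ℤ × ℤ → ℝ} (h : Supp S n a) :
    Supp S n fun z => (a z : ℂ) := fun z hz => h z fun h0 => hz (by simp [h0])

theorem supp_zero {K : Type*} [Zero K] (S : Dat) (n : ℕ) : Supp S n fun _ => (0 : K) :=
  fun _ hz => absurd rfl hz

variable {S : Dat} (F : Fam S)

/-- The indices which are good. -/
theorem Fam.good : ∀ᶠ n : ℕ in F.L, 0 < n ∧ FamAt S n (F.Vc n) (F.Hl n) (F.b n) :=
  ((eventually_gt_atTop 0).filter_mono F.le).and F.ok

theorem V_path (n : ℕ) (f : ℂ → ℝ) (t : ℝ) :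
    F.V n (fun z => t * f z) = (F.Vc n fun z => ((t * cms f (1 / n) z : ℝ) : ℂ)).re := by
  unfold Fam.V
  congr 2
  funext z
  rw [cms_smul]

theorem H_path (n : ℕ) (f : ℂ → ℝ) (t : ℝ) (z : ℤ × ℤ) :
    F.H n (fun z => t * f z) z = F.Hl n (fun z => t * cms f (1 / n) z) z := by
  unfold Fam.H
  congr 1
  funext z
  exact cms_smul t f _ z

theorem cms_zero' (n : ℕ) : cms (fun _ => 0) (1 / (n : ℝ)) = fun _ => 0 := by
  funext z; exact cms_zero _ z

section

variable {n : ℕ} (hn : 0 < n) (hF : FamAt S n (F.Vc n) (F.Hl n) (F.b n)) {f : ℂ → ℝ}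
  (hf : Test S.P f)

include hn hF hf

theorem deriv_path (t : ℝ) :
    deriv (fun s : ℂ => F.Vc n fun z => ((t * cms f (1 / n) z : ℝ) : ℂ) +
      s * (cms f (1 / n) z : ℂ)) 0 = ((-F.HS n f (fun z => t * f z) : ℝ) : ℂ) := by
  have h := hF.der (fun z => t * cms f (1 / n) z) (cms f (1 / n))
    (supp_smul (supp_cms hn hf) t) (supp_cms hn hf)
  rw [h]
  unfold Fam.HS
  congr 2
  refine Finset.sum_congr rfl fun z _ => ?_
  rw [H_path]

theorem diff_path (a : ℤ × ℤ → ℝ) (ha : Supp S n a) :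
    Differentiable ℂ fun s : ℂ => F.Vc n fun z => (a z : ℂ) + s * (cms f (1 / n) z : ℂ) :=
  hF.entire _ _ (supp_ofReal ha) (supp_ofReal (supp_cms hn hf))

/-- The derivative along the path. -/
theorem hasDerivAt_V (t : ℝ) :
    HasDerivAt (fun t : ℝ => F.V n (fun z => t * f z)) (-F.HS n f (fun z => t * f z)) t := by
  set c : ℤ × ℤ → ℝ := cms f (1 / n) with hc
  have hs := supp_cms hn hf
  have h1 : HasDerivAt (fun s : ℂ => F.Vc n fun z => ((t * c z : ℝ) : ℂ) + s * (c z : ℂ))
      ((-F.HS n f (fun z => t * f z) : ℝ) : ℂ) 0 := by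
    have := ((diff_path F hn hF hf _ (supp_smul hs t)) 0).hasDerivAt
    rwa [deriv_path F hn hF hf t] at this
  have h2 := h1.real_of_complex
  have h3 : (fun x : ℝ => (F.Vc n fun z => ((t * c z : ℝ) : ℂ) + (x : ℂ) * (c z : ℂ)).re) =
      fun x : ℝ => F.V n (fun z => (t + x) * f z) := by
    funext x
    rw [V_path]
    congr 2
    funext z
    push_cast; ring
  rw [h3, Complex.ofReal_re] at h2
  have h4 : HasDerivAt (fun y : ℝ => y - t) 1 t := (hasDerivAt_id t).sub_const t
  have h2' : HasDerivAt (fun x : ℝ => F.V n (fun z => (t + x) * f z))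
      (-F.HS n f (fun z => t * f z)) (t - t) := by rw [sub_self]; exact h2
  have h5 := HasDerivAt.comp (h₂ := fun x : ℝ => F.V n (fun z => (t + x) * f z))
    (h := fun y : ℝ => y - t) t h2' h4
  rw [mul_one] at h5
  have e6 : (fun t : ℝ => F.V n (fun z => t * f z)) =
      (fun x : ℝ => F.V n (fun z => (t + x) * f z)) ∘ fun y : ℝ => y - t := by
    funext y
    simp only [Function.comp_apply]
    congr 1
    funext z
    ring
  rw [e6]
  exact h5

/-- The path is the restriction of an entire function. -/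
theorem V_entire : ∃ Φ : ℂ → ℂ, Differentiable ℂ Φ ∧
    ∀ t : ℝ, F.V n (fun z => t * f z) = (Φ t).re := by
  refine ⟨fun s : ℂ => F.Vc n fun z => ((0 : ℝ) : ℂ) + s * (cms f (1 / n) z : ℂ),
    diff_path F hn hF hf _ (supp_zero S n), fun t => ?_⟩
  rw [V_path]
  congr 2
  funext z
  push_cast; ring

theorem continuous_HS : Continuous fun t : ℝ => F.HS n f (fun z => t * f z) := by
  obtain ⟨Φ, h1, h2⟩ := V_entire F hn hF hf
  have h3 : (fun t : ℝ => F.HS n f (fun z => t * f z)) = fun t : ℝ => -(deriv Φ t).re := by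
    funext t
    have a1 := ((h1 (t : ℂ)).hasDerivAt).real_of_complex
    have a2 : (fun x : ℝ => (Φ x).re) = fun t : ℝ => F.V n (fun z => t * f z) := by
      funext x; rw [← h2]
    rw [a2] at a1
    have := a1.unique (hasDerivAt_V F hn hF hf t)
    linarith
  rw [h3]
  have h4 : Continuous (deriv Φ) := (h1.contDiff (n := 1)).continuous_deriv le_rfl
  exact (Complex.continuous_re.comp (h4.comp Complex.continuous_ofReal)).neg

end

theorem V_zero {n : ℕ} (hF : FamAt S n (F.Vc n) (F.Hl n) (F.b n)) : F.V n (fun _ => 0) = 1 := by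
  unfold Fam.V
  rw [cms_zero']
  simp only [Complex.ofReal_zero]
  rw [hF.one, Complex.one_re]

/-- Bounds from (M2). -/
theorem path_bounds (hM : F.M2) {f : ℂ → ℝ} (hf : S.FF f) :
    ∃ C : ℝ, ∀ᶠ n : ℕ in F.L, (∀ t : ℝ, |t| ≤ 1 → |F.V n (fun z => t * f z)| ≤ C ∧
      |F.HS n f (fun z => t * f z)| ≤ C) ∧ |F.U n f| ≤ C := by
  obtain ⟨ρ, hρ, C, hC⟩ := hM f hf
  refine ⟨max C (C / ρ), ?_⟩
  filter_upwards [hC, F.good] with n hn hg
  obtain ⟨hn0, hF⟩ := hg
  have h1 : ∀ t : ℝ, |t| ≤ 1 → |F.V n (fun z => t * f z)| ≤ C := by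
    intro t ht
    have := hn t ht 0 (by simpa using hρ.le)
    simp only [add_zero] at this
    rw [V_path]
    have e : (fun z => ((t * cms f (1 / n) z : ℝ) : ℂ)) =
        fun z => (t : ℂ) * (cms f (1 / n) z : ℂ) := by
      funext z; push_cast; rfl
    rw [e]
    exact (Complex.abs_re_le_norm _).trans this
  have h2 : ∀ t : ℝ, |t| ≤ 1 → |F.HS n f (fun z => t * f z)| ≤ C / ρ := by
    intro t ht
    have h3 := diff_path F hn0 hF hf.1 _ (supp_smul (supp_cms hn0 hf.1) t)
    have h4 := Complex.norm_deriv_le_of_forall_mem_sphere_norm_le (c := 0) (R := ρ) (C := C)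
      hρ h3.diffContOnCl fun s hs => by
        have h5 := hn t ht s (by simpa using le_of_eq hs)
        have e : (fun z => ((t * cms f (1 / n) z : ℝ) : ℂ) + s * (cms f (1 / n) z : ℂ)) =
            fun z => (t + s) * (cms f (1 / n) z : ℂ) := by
          funext z; push_cast; ring
        rwa [e]
    rw [deriv_path F hn0 hF hf.1 t, Complex.norm_real, Real.norm_eq_abs, abs_neg] at h4
    exact h4
  refine ⟨fun t ht => ⟨(h1 t ht).trans (le_max_left _ _), (h2 t ht).trans (le_max_right _ _)⟩, ?_⟩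
  have h5 := (h2 0 (by simp)).trans (le_max_right C _)
  simp only [zero_mul] at h5
  exact h5

/-- The pairing with `W`. -/
theorem sum_W (n : ℕ) (h f : ℂ → ℝ) :
    ∑ z ∈ sites (S.D n), cms h (1 / n) z * F.W n f z = F.HS n h f - F.V n f * F.U n h := by
  unfold Fam.U Fam.HS Fam.W
  rw [Finset.mul_sum, ← Finset.sum_sub_distrib]
  refine Finset.sum_congr rfl fun z _ => ?_
  ring

/-- `W` vanishes at the base site. -/
theorem W_base {n : ℕ} (hn : 0 < n) (hF : FamAt S n (F.Vc n) (F.Hl n) (F.b n)) {f : ℂ → ℝ}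
    (hf : Test S.P f) : F.W n f (F.b n) = 0 := by
  unfold Fam.W Fam.H
  rw [hF.base _ (supp_cms hn hf), cms_zero', hF.base _ (supp_zero S n)]
  ring

end Vale.Agent.P167.CAQ
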