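import Vale.Agent.P167.CAQ.Core
import Vale.Agent.P167.CA.Mom

/-!
# P167, general `q`: compactness of potentials near a boundary arc (definitions, local bounds)

`K` is a closed set of boundary points (the complement of the arc). The potentials `w n` are
asymptotically harmonic, Hölder at the scale of the distance to `K`, and Neumann off `K`.
-/

namespace Vale.Agent.P167.CAQ

open MeasureTheory Filter Topology Set Complex Metric
open Vale.Agent.P167.BR (sites)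
open Vale.Agent.P167.BVP (Test npot)
open Vale.Agent.P167.CA (Dat cms en Pair enl fs fs_mem norm_fs)
open P198W (lap)
open scoped ContDiff

/-- Potentials which are asymptotically harmonic, scale invariantly Hölder off `K`, and Neumann
off `K`. -/
structure Pot (S : Dat) (L : Filter ℕ) (w : ℕ → ℤ × ℤ → ℝ) (K : Set ℂ) : Prop where
  mom : ∀ φ, Test S.P φ →
    Tendsto (fun n : ℕ => ∑ z ∈ sites (S.D n), cms (lap φ) (1 / n) z * w n z) L (𝓝 0)
  eq : ∃ C β d : ℝ, 0 < β ∧ 0 < d ∧ d ≤ 1 / 2 ∧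
    ∀ᶠ n : ℕ in L, ∀ z ∈ sites (S.D n), ∀ z' ∈ sites (S.D n),
    ‖E6.pt z - E6.pt z'‖ / n ≤ d * infDist (E6.pt z / n) K →
      |w n z - w n z'| ≤ C * (‖E6.pt z - E6.pt z'‖ / n / infDist (E6.pt z / n) K) ^ β
  neu : ∀ (v : ℤ × ℤ) (r : Fin 4), E6.face v r ∈ S.Q → E6.face v (r - 1) ∉ S.Q →
    ∀ φ : ℝ → ℝ, ContDiff ℝ ∞ φ → tsupport φ ⊆ Ioo 0 1 \ {S.tp} →
    (∀ t ∈ tsupport φ, E6.pt v + t * E6.pt (E6.dir r) ∉ K) →
    ∀ ε > 0, ∃ r₀ > 0, ∀ h : ℝ, 0 < h → h < r₀ → ∀ᶠ n : ℕ in L,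
      |(∑ x ∈ Finset.range n, φ (x / n) *
        (w n ((n : ℤ) • v + (x : ℤ) • E6.dir r + (⌊h * n⌋₊ : ℤ) • E6.dir (r + 1)) -
          w n ((n : ℤ) • v + (x : ℤ) • E6.dir r))) / n| ≤ ε * h

/-- A closed nonempty set of boundary points. -/
structure Arc (S : Dat) (K : Set ℂ) : Prop where
  closed : IsClosed K
  ne : K.Nonempty
  sub : K ⊆ frontier S.P

/-- First moments of the difference of two families. -/
theorem pot_mom {S : Dat} {F₁ F₀ : Fam S} (hL : F₁.L = F₀.L) (h1 : F₁.MOM) (h0 : F₀.MOM)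
    {φ : ℂ → ℝ} (hφ : Test S.P φ) :
    Tendsto (fun n : ℕ => ∑ z ∈ sites (S.D n), cms (lap φ) (1 / n) z *
      (F₁.H n (fun _ => 0) z - F₀.H n (fun _ => 0) z)) F₁.L (𝓝 0) := by
  have a1 := U_lap F₁ h1 hφ
  have a0 := U_lap F₀ h0 hφ
  rw [← hL] at a0
  have a := a1.sub a0
  rw [sub_zero] at a
  refine a.congr fun n => ?_
  unfold Fam.U Fam.HS
  rw [← Finset.sum_sub_distrib]
  refine Finset.sum_congr rfl fun z _ => ?_
  ring

variable {S : Dat} {K : Set ℂ}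

theorem isPreconnected_P (S : Dat) : IsPreconnected S.P :=
  (E6.isConnected_D6 one_pos S.poly S.enc).isPreconnected

theorem P_nonempty (S : Dat) : S.P.Nonempty :=
  (E6.isConnected_D6 one_pos S.poly S.enc).nonempty

theorem closure_P (S : Dat) : closure S.P = E6.region 1 S.Q := E6.closure_D6 one_pos S.Q

theorem P_sub (S : Dat) : S.P ⊆ E6.region 1 S.Q := interior_subset

theorem isOpen_P (S : Dat) : IsOpen S.P := isOpen_interior

theorem Arc.notMem (hK : Arc S K) {x : ℂ} (hx : x ∈ S.P) : x ∉ K := fun h => by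
  have h1 := hK.sub h
  rw [(isOpen_P S).frontier_eq] at h1
  exact h1.2 hx

theorem Arc.pos (hK : Arc S K) {x : ℂ} (hx : x ∉ K) : 0 < infDist x K :=
  (hK.closed.notMem_iff_infDist_pos hK.ne).1 hx

theorem Arc.notMem_of_pos {x : ℂ} (hx : 0 < infDist x K) : x ∉ K := fun h => by
  rw [infDist_zero_of_mem h] at hx; exact lt_irrefl _ hx

/-- Local oscillation. -/
theorem Pot.osc {L : Filter ℕ} {w : ℕ → ℤ × ℤ → ℝ} (hw : Pot S L w K) :
    ∃ C d : ℝ, 0 ≤ C ∧ 0 < d ∧ d ≤ 1 / 2 ∧ ∀ᶠ n : ℕ in L, ∀ x : ℂ, 0 < infDist x K →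
      ∀ z ∈ sites (S.D n), ∀ z' ∈ sites (S.D n), ‖E6.pt z / n - x‖ ≤ d / 4 * infDist x K →
      ‖E6.pt z' / n - x‖ ≤ d / 4 * infDist x K → |w n z - w n z'| ≤ C := by
  obtain ⟨C, β, d, hβ, hd0, hd1, h⟩ := hw.eq
  refine ⟨max C 0, d, le_max_right _ _, hd0, hd1, ?_⟩
  filter_upwards [h] with n hn x hx z hz z' hz' h1 h2
  set r := infDist x K with hr
  set R := infDist (E6.pt z / n) K with hR
  have h3 : r ≤ R + ‖E6.pt z / n - x‖ := by
    have := infDist_le_infDist_add_dist (s := K) (x := x) (y := E6.pt z / n)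
    rwa [dist_comm, dist_eq_norm] at this
  have hdr : d / 4 * r ≤ r / 8 := by nlinarith
  have h4 : ‖E6.pt z - E6.pt z'‖ / n ≤ d / 2 * r := by
    have e : ‖E6.pt z - E6.pt z'‖ / n = ‖(E6.pt z / n - x) - (E6.pt z' / n - x)‖ := by
      have e2 : (E6.pt z / n - x) - (E6.pt z' / n - x) = (E6.pt z - E6.pt z') / n := by ring
      rw [e2, norm_div, Complex.norm_natCast]
    rw [e]
    refine (norm_sub_le _ _).trans ?_
    linarith
  have hR0 : 0 < R := by linarith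
  have hdR : d / 2 * r ≤ d * R := by
    have : d / 2 * r = d * (r / 2) := by ring
    rw [this]
    exact mul_le_mul_of_nonneg_left (by linarith) hd0.le
  refine (hn z hz z' hz' (by linarith)).trans ?_
  have h5 : (‖E6.pt z - E6.pt z'‖ / n / R) ^ β ≤ 1 := by
    refine Real.rpow_le_one (by positivity) ?_ hβ.le
    rw [div_le_one hR0]
    nlinarith
  have h6 : 0 ≤ (‖E6.pt z - E6.pt z'‖ / n / R) ^ β := Real.rpow_nonneg (by positivity) _
  calc C * _ ≤ max C 0 * (‖E6.pt z - E6.pt z'‖ / n / R) ^ β :=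
        mul_le_mul_of_nonneg_right (le_max_left _ _) h6
    _ ≤ max C 0 * 1 := mul_le_mul_of_nonneg_left h5 (le_max_right _ _)
    _ = _ := mul_one _

/-- The values at `x` and `y` stay at bounded distance. -/
def Bd (L : Filter ℕ) (w : ℕ → ℤ × ℤ → ℝ) (x y : ℂ) : Prop :=
  ∃ M : ℝ, ∀ᶠ n : ℕ in L, |w n (fs n x) - w n (fs n y)| ≤ M

theorem Bd.symm {L : Filter ℕ} {w : ℕ → ℤ × ℤ → ℝ} {x y : ℂ} (h : Bd L w x y) : Bd L w y x := by
  obtain ⟨M, hM⟩ := h
  exact ⟨M, hM.mono fun n hn => by rwa [abs_sub_comm]⟩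

theorem Bd.trans {L : Filter ℕ} {w : ℕ → ℤ × ℤ → ℝ} {x y z : ℂ} (h : Bd L w x y)
    (h' : Bd L w y z) : Bd L w x z := by
  obtain ⟨M, hM⟩ := h
  obtain ⟨M', hM'⟩ := h'
  refine ⟨M + M', (hM.and hM').mono fun n hn => ?_⟩
  have e : w n (fs n x) - w n (fs n z) = (w n (fs n x) - w n (fs n y)) +
      (w n (fs n y) - w n (fs n z)) := by ring
  rw [e]
  exact (abs_add_le _ _).trans (add_le_add hn.1 hn.2)

theorem eventually_small {L : Filter ℕ} (hL : L ≤ atTop) {r : ℝ} (hr : 0 < r) :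
    ∀ᶠ n : ℕ in L, 0 < n ∧ (2 : ℝ) / n ≤ r := by
  have h1 : Tendsto (fun n : ℕ => (2 : ℝ) / (n : ℝ)) atTop (𝓝 0) :=
    tendsto_const_div_atTop_nhds_zero_nat 2
  exact (((eventually_gt_atTop 0).and (h1.eventually (ge_mem_nhds hr)))).filter_mono hL

theorem Pot.bd_near {L : Filter ℕ} (hL : L ≤ atTop) {w : ℕ → ℤ × ℤ → ℝ} (hw : Pot S L w K) :
    ∃ d : ℝ, 0 < d ∧ ∀ {x y : ℂ}, x ∈ E6.region 1 S.Q → y ∈ E6.region 1 S.Q → 0 < infDist x K →
    ‖y - x‖ ≤ d * infDist x K → Bd L w x y := by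
  obtain ⟨C, d, -, hd0, hd1, hC⟩ := hw.osc
  refine ⟨d / 8, by positivity, fun {x y} hx hy h0 hxy => ⟨C, ?_⟩⟩
  filter_upwards [hC, eventually_small hL (r := d / 8 * infDist x K) (by positivity)] with n hn hs
  obtain ⟨hn0, hs⟩ := hs
  have hdx : 0 < d * infDist x K := by positivity
  refine hn x h0 _ (fs_mem hn0 hx) _ (fs_mem hn0 hy) ?_ ?_
  · refine (norm_fs hn0 x).trans ?_; linarith
  · have e : E6.pt (fs n y) / n - x = (E6.pt (fs n y) / n - y) + (y - x) := by ring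
    rw [e]
    refine (norm_add_le _ _).trans ?_
    have := norm_fs hn0 y
    linarith

theorem Pot.bd {L : Filter ℕ} (hL : L ≤ atTop) {w : ℕ → ℤ × ℤ → ℝ} (hw : Pot S L w K)
    (hK : Arc S K) {x y : ℂ} (hx : x ∈ E6.region 1 S.Q \ K) (hy : y ∈ E6.region 1 S.Q \ K) :
    Bd L w x y := by
  obtain ⟨d, hd, hnear⟩ := hw.bd_near hL
  have hP : ∀ a ∈ S.P, ∀ b ∈ S.P, Bd L w a b := by
    intro a ha b hb
    refine (isPreconnected_P S).induction₂' (Bd L w) (fun u hu => ?_)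
      (fun _ _ _ _ _ _ h h' => h.trans h') ha hb
    have hu0 := hK.pos (hK.notMem hu)
    have h1 : ball u (d * infDist u K) ∈ 𝓝 u := ball_mem_nhds _ (by positivity)
    filter_upwards [mem_nhdsWithin_of_mem_nhds h1, self_mem_nhdsWithin] with v hv hvP
    rw [mem_ball, dist_eq_norm] at hv
    have h2 := hnear (P_sub S hu) (P_sub S hvP) hu0 hv.le
    exact ⟨h2, h2.symm⟩
  have hcl : ∀ a ∈ E6.region 1 S.Q \ K, ∃ b ∈ S.P, Bd L w a b := by
    rintro a ⟨ha, haK⟩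
    have ha0 := hK.pos haK
    have ha' : a ∈ closure S.P := by rw [closure_P]; exact ha
    obtain ⟨b, hb, hab⟩ := Metric.mem_closure_iff.1 ha' (d * infDist a K) (by positivity)
    rw [dist_comm, dist_eq_norm] at hab
    exact ⟨b, hb, hnear ha (P_sub S hb) ha0 hab.le⟩
  obtain ⟨a, ha, h1⟩ := hcl x hx
  obtain ⟨b, hb, h2⟩ := hcl y hy
  exact (h1.trans (hP a ha b hb)).trans h2.symm

/-- Uniform bounds at distance `δ` from `K`. -/
theorem Pot.unif {L : Filter ℕ} (hL : L ≤ atTop) {w : ℕ → ℤ × ℤ → ℝ} (hw : Pot S L w K)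
    (hK : Arc S K) {x₀ : ℂ} (hx₀ : x₀ ∈ S.P) {δ : ℝ} (hδ : 0 < δ) :
    ∃ M : ℝ, 0 ≤ M ∧ ∀ᶠ n : ℕ in L, ∀ z ∈ sites (S.D n), δ ≤ infDist (E6.pt z / n) K →
      |w n z - w n (fs n x₀)| ≤ M := by
  obtain ⟨C, d, hC0, hd0, hd1, hC⟩ := hw.osc
  have hA : IsCompact (E6.region 1 S.Q ∩ {x | δ ≤ infDist x K}) :=
    (CA.isCompact_region S.Q).inter_right (isClosed_le continuous_const (continuous_infDist_pt K))
  obtain ⟨t, ht, hcov⟩ := hA.elim_nhds_subcover (fun x => ball x (d / 4 * δ))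
    fun x _ => ball_mem_nhds x (by positivity)
  have h1 : ∀ x : ℂ, ∃ M : ℝ, 0 ≤ M ∧ (x ∈ t → ∀ᶠ n : ℕ in L,
      |w n (fs n x) - w n (fs n x₀)| ≤ M) := by
    intro x
    by_cases hx : x ∈ t
    · have h2 := ht x hx
      obtain ⟨M, hM⟩ := hw.bd hL hK (x := x) (y := x₀)
        ⟨h2.1, Arc.notMem_of_pos (hδ.trans_le h2.2)⟩ ⟨P_sub S hx₀, hK.notMem hx₀⟩
      exact ⟨max M 0, le_max_right _ _, fun _ => hM.mono fun n hn => hn.trans (le_max_left _ _)⟩
    · exact ⟨0, le_rfl, fun h => absurd h hx⟩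
  choose M hM0 hM using h1
  refine ⟨C + ∑ x ∈ t, M x, add_nonneg hC0 (Finset.sum_nonneg fun x _ => hM0 x), ?_⟩
  have h3 : ∀ᶠ n : ℕ in L, ∀ x ∈ t, |w n (fs n x) - w n (fs n x₀)| ≤ M x := by
    rw [Filter.eventually_all_finset]
    exact fun x hx => hM x hx
  filter_upwards [hC, h3, eventually_small hL (r := d / 4 * δ) (by positivity)] with
    n hn h3 hs z hz hzd
  obtain ⟨hn0, hs⟩ := hs
  have hzR : E6.pt z / n ∈ E6.region 1 S.Q := CA.site_region hn0 hz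
  obtain ⟨x, hx, hzx⟩ := mem_iUnion₂.1 (hcov ⟨hzR, hzd⟩)
  rw [mem_ball, dist_eq_norm] at hzx
  have hxA := ht x hx
  have hx0 : δ ≤ infDist x K := hxA.2
  have hdx : d / 4 * δ ≤ d / 4 * infDist x K := mul_le_mul_of_nonneg_left hx0 (by positivity)
  have h4 := hn x (hδ.trans_le hx0) z hz (fs n x) (fs_mem hn0 hxA.1) (by linarith)
    ((norm_fs hn0 x).trans (by linarith))
  have h5 : M x ≤ ∑ x ∈ t, M x := Finset.single_le_sum (fun y _ => hM0 y) hx
  have e : w n z - w n (fs n x₀) = (w n z - w n (fs n x)) + (w n (fs n x) - w n (fs n x₀)) := by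
    ring
  rw [e]
  refine (abs_add_le _ _).trans ?_
  linarith [h3 x hx]

end Vale.Agent.P167.CAQ
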