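import Vale.Agent.P167.CAQ.Two

/-!
# P167, general `q`: local Hölder bounds off `K` in the closed polygon, change of the constant

A function on `region \ K` with the Hölder bound for `‖x - y‖ < d * infDist x K` has the Hölder bound
for `‖x - y‖ < infDist x K / 2` (`hol_half`): two points of the closed polygon at distance less than one
are joined by a path of one horizontal and one vertical segment in the polygon.
-/

namespace Vale.Agent.P167.CAQ

open MeasureTheory Filter Topology Set Complex Metric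
open Vale.Agent.P167.CA (Dat)

variable {S : Dat} {K : Set ℂ} {Y : ℂ → ℝ}

open Vale.Agent.P167.E6 (IsPolygon Encloses dir face) in
/-- At a vertex the inside faces are not two opposite ones. -/
theorem pinch {l : ℕ} {p : ZMod l → ℤ × ℤ} {Q : Finset (ℤ × ℤ)} (hp : IsPolygon p)
    (hE : Encloses p Q) (v : ℤ × ℤ) (r : Fin 4)
    (h0 : face v r ∈ Q) (h1 : face v (r + 1) ∉ Q) (h2 : face v (r + 2) ∈ Q)
    (h3 : face v (r + 3) ∉ Q) : False := by
  have e1 : r - 1 = r + 3 := (by decide : ∀ r : Fin 4, r - 1 = r + 3) r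
  have e2 : r + 2 - 1 = r + 1 := (by decide : ∀ r : Fin 4, r + 2 - 1 = r + 1) r
  obtain ⟨i, hi, hi'⟩ := (hE v r).2 ⟨h0, by rw [e1]; exact h3⟩
  obtain ⟨j, hj, hj'⟩ := (hE v (r + 2)).2 ⟨h2, by rw [e2]; exact h1⟩
  have hij : i = j := hp.2.1 (hi.trans hj.symm)
  rw [hij] at hi'
  have h4 : dir r = dir (r + 2) := add_left_cancel (hi'.symm.trans hj')
  have h5 : ∀ r : Fin 4, dir r ≠ dir (r + 2) := by
    intro r h
    fin_cases r <;> simp [dir] at h
  exact h5 r h4

open Vale.Agent.P167.E6 (IsPolygon Encloses dir face) in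
/-- Two inside cells in a `2 × 2` block. -/
theorem in_cell {l : ℕ} {p : ZMod l → ℤ × ℤ} {Q : Finset (ℤ × ℤ)} (hp : IsPolygon p)
    (hE : Encloses p Q) {a b c d : ℤ} (h1 : (a, b) ∈ Q)
    (h2 : (c, d) ∈ Q) (hac : c ≤ a + 1 ∧ a ≤ c + 1) (hbd : d ≤ b + 1 ∧ b ≤ d + 1) :
    (c, b) ∈ Q ∨ (a, d) ∈ Q := by
  by_contra hcon
  push Not at hcon
  obtain ⟨h3, h4⟩ := hcon
  have hac' : a ≠ c := by rintro rfl; exact h3 h1
  have hbd' : b ≠ d := by rintro rfl; exact h3 h2
  have f0 : ∀ x y : ℤ, face (x, y) 0 = (x, y) := fun x y => by simp [face]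
  have f1 : ∀ x y : ℤ, face (x, y) 1 = (x - 1, y) := fun x y => by
    show ((x, y) : ℤ × ℤ) + (-1, 0) = _
    ext <;> simp [sub_eq_add_neg]
  have f2 : ∀ x y : ℤ, face (x, y) 2 = (x - 1, y - 1) := fun x y => by
    show ((x, y) : ℤ × ℤ) + (-1, -1) = _
    ext <;> simp [sub_eq_add_neg]
  have f3 : ∀ x y : ℤ, face (x, y) 3 = (x, y - 1) := fun x y => by
    show ((x, y) : ℤ × ℤ) + (0, -1) = _
    ext <;> simp [sub_eq_add_neg]
  rcases (show c = a + 1 ∨ a = c + 1 by omega) with rfl | rfl <;>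
    rcases (show d = b + 1 ∨ b = d + 1 by omega) with rfl | rfl
  · refine pinch hp hE (a + 1, b + 1) 0 ?_ ?_ ?_ ?_
    · rw [f0]; exact h2
    · show face (a + 1, b + 1) 1 ∉ Q
      rw [f1]; simpa using h4
    · show face (a + 1, b + 1) 2 ∈ Q
      rw [f2]; simpa using h1
    · show face (a + 1, b + 1) 3 ∉ Q
      rw [f3]; simpa using h3
  · refine pinch hp hE (a + 1, d + 1) 1 ?_ ?_ ?_ ?_
    · rw [f1]; simpa using h1
    · show face (a + 1, d + 1) 2 ∉ Q
      rw [f2]; simpa using h4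
    · show face (a + 1, d + 1) 3 ∈ Q
      rw [f3]; simpa using h2
    · show face (a + 1, d + 1) 0 ∉ Q
      rw [f0]; exact h3
  · refine pinch hp hE (c + 1, b + 1) 1 ?_ ?_ ?_ ?_
    · rw [f1]; simpa using h2
    · show face (c + 1, b + 1) 2 ∉ Q
      rw [f2]; simpa using h3
    · show face (c + 1, b + 1) 3 ∈ Q
      rw [f3]; simpa using h1
    · show face (c + 1, b + 1) 0 ∉ Q
      rw [f0]; exact h4
  · refine pinch hp hE (c + 1, d + 1) 0 ?_ ?_ ?_ ?_
    · rw [f0]; exact h1
    · show face (c + 1, d + 1) 1 ∉ Q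
      rw [f1]; simpa using h3
    · show face (c + 1, d + 1) 2 ∈ Q
      rw [f2]; simpa using h2
    · show face (c + 1, d + 1) 3 ∉ Q
      rw [f3]; simpa using h4

/-- The middle corner of the path. -/
theorem exists_mid (S : Dat) {x y : ℂ} (hx : x ∈ E6.region 1 S.Q) (hy : y ∈ E6.region 1 S.Q)
    (h1 : |x.re - y.re| < 1) (h2 : |x.im - y.im| < 1) :
    ∃ m : ℂ, ‖m - x‖ ≤ ‖y - x‖ ∧ ‖y - m‖ ≤ ‖y - x‖ ∧
      (∀ t : ℝ, 0 ≤ t → t ≤ 1 → x + t * (m - x) ∈ E6.region 1 S.Q ∧
        ‖x + t * (m - x) - x‖ ≤ ‖y - x‖) ∧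
      (∀ t : ℝ, 0 ≤ t → t ≤ 1 → m + t * (y - m) ∈ E6.region 1 S.Q ∧
        ‖m + t * (y - m) - x‖ ≤ ‖y - x‖) := by
  obtain ⟨⟨a, b⟩, hv, a1, a2, a3, a4⟩ := hx
  obtain ⟨⟨c, d⟩, hv', b1, b2, b3, b4⟩ := hy
  simp only [one_mul] at a1 a2 a3 a4 b1 b2 b3 b4
  rw [abs_lt] at h1 h2
  have hca : c ≤ a + 1 ∧ a ≤ c + 1 := by
    constructor
    · have : (c : ℝ) < a + 2 := by linarith
      have : c < a + 2 := by exact_mod_cast this
      omega
    · have : (a : ℝ) < c + 2 := by linarith
      have : a < c + 2 := by exact_mod_cast this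
      omega
  have hdb : d ≤ b + 1 ∧ b ≤ d + 1 := by
    constructor
    · have : (d : ℝ) < b + 2 := by linarith
      have : d < b + 2 := by exact_mod_cast this
      omega
    · have : (b : ℝ) < d + 2 := by linarith
      have : b < d + 2 := by exact_mod_cast this
      omega
  -- a number between two numbers in neighbouring unit intervals
  have bet : ∀ (a c : ℤ) (u v t : ℝ), c ≤ a + 1 ∧ a ≤ c + 1 → (a : ℝ) ≤ u → u ≤ a + 1 →
      (c : ℝ) ≤ v → v ≤ c + 1 → 0 ≤ t → t ≤ 1 →
      ((a : ℝ) ≤ u + t * (v - u) ∧ u + t * (v - u) ≤ a + 1) ∨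
      ((c : ℝ) ≤ u + t * (v - u) ∧ u + t * (v - u) ≤ c + 1) := by
    intro a c u v t hac h1 h2 h3 h4 h5 h6
    have h7 : (c : ℝ) ≤ a + 1 := by exact_mod_cast hac.1
    have h8 : (a : ℝ) ≤ c + 1 := by exact_mod_cast hac.2
    set w := u + t * (v - u) with hw
    have hw1 : min u v ≤ w := by
      rcases le_total u v with h | h
      · rw [min_eq_left h, hw]; nlinarith
      · rw [min_eq_right h, hw]; nlinarith
    have hw2 : w ≤ max u v := by
      rcases le_total u v with h | h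
      · rw [max_eq_right h, hw]; nlinarith
      · rw [max_eq_left h, hw]; nlinarith
    by_cases k1 : (a : ℝ) ≤ w
    · by_cases k2 : w ≤ a + 1
      · exact Or.inl ⟨k1, k2⟩
      · right
        refine ⟨by linarith [not_le.1 k2], ?_⟩
        rcases max_choice u v with h | h <;> rw [h] at hw2 <;> linarith [not_le.1 k2]
    · right
      refine ⟨?_, by linarith [not_le.1 k1]⟩
      rcases min_choice u v with h | h <;> rw [h] at hw1 <;> linarith [not_le.1 k1]
  have nrm : ∀ z w : ℂ, |z.re| ≤ |w.re| → |z.im| ≤ |w.im| → ‖z‖ ≤ ‖w‖ := by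
    intro z w h1 h2
    rw [← Real.sqrt_sq (norm_nonneg z), ← Real.sqrt_sq (norm_nonneg w)]
    refine Real.sqrt_le_sqrt ?_
    rw [← Complex.normSq_eq_norm_sq, ← Complex.normSq_eq_norm_sq, Complex.normSq_apply,
      Complex.normSq_apply]
    have := sq_le_sq.2 h1
    have := sq_le_sq.2 h2
    nlinarith
  have tabs : ∀ t r : ℝ, 0 ≤ t → t ≤ 1 → |t * r| ≤ |r| := by
    intro t r h1 h2
    rw [abs_mul, abs_of_nonneg h1]
    exact mul_le_of_le_one_left (abs_nonneg _) h2
  rcases in_cell S.poly S.enc hv hv' hca hdb with hc | hc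
  · -- first horizontal, then vertical
    refine ⟨⟨y.re, x.im⟩, ?_, ?_, fun t t0 t1 => ⟨?_, ?_⟩, fun t t0 t1 => ⟨?_, ?_⟩⟩
    · exact nrm _ _ (by simp) (by simp)
    · exact nrm _ _ (by simp) (by simp)
    · have e1 : (x + t * ((⟨y.re, x.im⟩ : ℂ) - x)).re = x.re + t * (y.re - x.re) := by simp
      have e2 : (x + t * ((⟨y.re, x.im⟩ : ℂ) - x)).im = x.im := by simp
      rcases bet a c x.re y.re t hca a1 a2 b1 b2 t0 t1 with h | h
      · exact ⟨(a, b), hv, by rw [e1]; simpa using h.1, by rw [e1]; simpa using h.2,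
          by rw [e2]; simpa using a3, by rw [e2]; simpa using a4⟩
      · exact ⟨(c, b), hc, by rw [e1]; simpa using h.1, by rw [e1]; simpa using h.2,
          by rw [e2]; simpa using a3, by rw [e2]; simpa using a4⟩
    · refine nrm _ _ ?_ (by simp)
      have e1 : (x + t * ((⟨y.re, x.im⟩ : ℂ) - x) - x).re = t * (y.re - x.re) := by simp
      rw [e1]
      simpa using tabs t (y.re - x.re) t0 t1
    · have e1 : ((⟨y.re, x.im⟩ : ℂ) + t * (y - ⟨y.re, x.im⟩)).re = y.re := by simp
      have e2 : ((⟨y.re, x.im⟩ : ℂ) + t * (y - ⟨y.re, x.im⟩)).im = x.im + t * (y.im - x.im) := by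
        simp
      rcases bet b d x.im y.im t hdb a3 a4 b3 b4 t0 t1 with h | h
      · exact ⟨(c, b), hc, by rw [e1]; simpa using b1, by rw [e1]; simpa using b2,
          by rw [e2]; simpa using h.1, by rw [e2]; simpa using h.2⟩
      · exact ⟨(c, d), hv', by rw [e1]; simpa using b1, by rw [e1]; simpa using b2,
          by rw [e2]; simpa using h.1, by rw [e2]; simpa using h.2⟩
    · refine nrm _ _ (by simp) ?_
      have e1 : ((⟨y.re, x.im⟩ : ℂ) + t * (y - ⟨y.re, x.im⟩) - x).im = t * (y.im - x.im) := by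
        simp
      rw [e1]
      simpa using tabs t (y.im - x.im) t0 t1
  · refine ⟨⟨x.re, y.im⟩, ?_, ?_, fun t t0 t1 => ⟨?_, ?_⟩, fun t t0 t1 => ⟨?_, ?_⟩⟩
    · exact nrm _ _ (by simp) (by simp)
    · exact nrm _ _ (by simp) (by simp)
    · have e1 : (x + t * ((⟨x.re, y.im⟩ : ℂ) - x)).re = x.re := by simp
      have e2 : (x + t * ((⟨x.re, y.im⟩ : ℂ) - x)).im = x.im + t * (y.im - x.im) := by simp
      rcases bet b d x.im y.im t hdb a3 a4 b3 b4 t0 t1 with h | h
      · exact ⟨(a, b), hv, by rw [e1]; simpa using a1, by rw [e1]; simpa using a2,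
          by rw [e2]; simpa using h.1, by rw [e2]; simpa using h.2⟩
      · exact ⟨(a, d), hc, by rw [e1]; simpa using a1, by rw [e1]; simpa using a2,
          by rw [e2]; simpa using h.1, by rw [e2]; simpa using h.2⟩
    · refine nrm _ _ (by simp) ?_
      have e1 : (x + t * ((⟨x.re, y.im⟩ : ℂ) - x) - x).im = t * (y.im - x.im) := by simp
      rw [e1]
      simpa using tabs t (y.im - x.im) t0 t1
    · have e1 : ((⟨x.re, y.im⟩ : ℂ) + t * (y - ⟨x.re, y.im⟩)).im = y.im := by simp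
      have e2 : ((⟨x.re, y.im⟩ : ℂ) + t * (y - ⟨x.re, y.im⟩)).re = x.re + t * (y.re - x.re) := by
        simp
      rcases bet a c x.re y.re t hca a1 a2 b1 b2 t0 t1 with h | h
      · exact ⟨(a, d), hc, by rw [e2]; simpa using h.1, by rw [e2]; simpa using h.2,
          by rw [e1]; simpa using b3, by rw [e1]; simpa using b4⟩
      · exact ⟨(c, d), hv', by rw [e2]; simpa using h.1, by rw [e2]; simpa using h.2,
          by rw [e1]; simpa using b3, by rw [e1]; simpa using b4⟩
    · refine nrm _ _ ?_ (by simp)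
      have e1 : ((⟨x.re, y.im⟩ : ℂ) + t * (y - ⟨x.re, y.im⟩) - x).re = t * (y.re - x.re) := by
        simp
      rw [e1]
      simpa using tabs t (y.re - x.re) t0 t1

/-- Continuity. -/
theorem cont_of_hold (hK : Arc S K) {C β d : ℝ} (hβ : 0 < β) (hd : 0 < d)
    (h : ∀ x ∈ E6.region 1 S.Q \ K, ∀ y ∈ E6.region 1 S.Q \ K,
      ‖x - y‖ < d * infDist x K → |Y x - Y y| ≤ C * (‖x - y‖ / infDist x K) ^ β) :
    ContinuousOn Y (E6.region 1 S.Q \ K) := by
  intro x hx
  have hx0 := hK.pos hx.2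
  rw [Metric.continuousWithinAt_iff']
  intro ε hε
  have h4 : Tendsto (fun y : ℂ => C * (‖x - y‖ / infDist x K) ^ β) (𝓝 x) (𝓝 0) := by
    have h5 : Tendsto (fun y : ℂ => ‖x - y‖ / infDist x K) (𝓝 x) (𝓝 (‖x - x‖ / infDist x K)) :=
      (tendsto_const_nhds.sub tendsto_id).norm.div_const _
    have h6 := (((Real.continuous_rpow_const hβ.le).tendsto _).comp h5).const_mul C
    rw [sub_self, norm_zero, zero_div, Real.zero_rpow hβ.ne', mul_zero] at h6
    exact h6
  have h7 : ∀ᶠ y in 𝓝 x, ‖x - y‖ < d * infDist x K := by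
    have h8 : ball x (d * infDist x K) ∈ 𝓝 x := ball_mem_nhds _ (by positivity)
    filter_upwards [h8] with y hy
    rwa [mem_ball, dist_comm, dist_eq_norm] at hy
  filter_upwards [(h4.eventually (gt_mem_nhds hε)).filter_mono nhdsWithin_le_nhds,
    h7.filter_mono nhdsWithin_le_nhds, self_mem_nhdsWithin] with y hy hy7 hy2
  rw [dist_comm, Real.dist_eq]
  exact (h x hx y hy2 hy7).trans_lt hy

/-- A chain of equal steps. -/
theorem chain_eq {φ : ℝ → ℝ} {N : ℕ} (hN : 0 < N) {e : ℝ}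
    (h : ∀ i : ℕ, i < N → |φ ((i : ℝ) / N) - φ (((i + 1 : ℕ) : ℝ) / N)| ≤ e) :
    |φ 0 - φ 1| ≤ N * e := by
  have key : ∀ j : ℕ, j ≤ N → |φ 0 - φ ((j : ℝ) / N)| ≤ j * e := by
    intro j
    induction j with
    | zero => intro _; simp
    | succ j ih =>
      intro hj
      have h1 := ih (by omega)
      have h2 := h j (by omega)
      have e1 : φ 0 - φ (((j + 1 : ℕ) : ℝ) / N) = (φ 0 - φ ((j : ℝ) / N)) +
          (φ ((j : ℝ) / N) - φ (((j + 1 : ℕ) : ℝ) / N)) := by ring
      have e2 : ((j + 1 : ℕ) : ℝ) * e = j * e + e := by push_cast; ring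
      rw [e1, e2]
      refine (abs_add_le _ _).trans ?_
      linarith
  have h1 := key N le_rfl
  rwa [div_self (by exact_mod_cast hN.ne')] at h1

theorem hol_half (hK : Arc S K) {C β d : ℝ} (hC : 0 ≤ C) (hβ : 0 < β) (hd : 0 < d)
    (h : ∀ x ∈ E6.region 1 S.Q \ K, ∀ y ∈ E6.region 1 S.Q \ K,
      ‖x - y‖ < d * infDist x K → |Y x - Y y| ≤ C * (‖x - y‖ / infDist x K) ^ β) :
    ∃ C' : ℝ, 0 ≤ C' ∧ ∀ x ∈ E6.region 1 S.Q \ K, ∀ y ∈ E6.region 1 S.Q \ K,
      ‖x - y‖ < infDist x K / 2 → |Y x - Y y| ≤ C' * (‖x - y‖ / infDist x K) ^ β := by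
  have hc := cont_of_hold hK hβ hd h
  -- bounds at large distance
  have hcp : IsCompact (E6.region 1 S.Q ∩ {x | 1 ≤ infDist x K}) :=
    (CA.isCompact_region S.Q).inter_right (isClosed_le continuous_const (continuous_infDist_pt K))
  obtain ⟨M, hM⟩ := hcp.exists_bound_of_continuousOn (hc.mono fun x hx =>
    ⟨hx.1, Arc.notMem_of_pos (lt_of_lt_of_le one_pos hx.2)⟩)
  obtain ⟨T, hT⟩ := (CA.isCompact_region S.Q).exists_bound_of_continuousOn
    (continuous_infDist_pt K).continuousOn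
  obtain ⟨N, hN⟩ := exists_nat_gt (1 / d)
  have hN0 : 0 < N := by
    have h1 : (0 : ℝ) < N := (one_div_pos.2 hd).trans hN
    exact_mod_cast h1
  have hNr : (0 : ℝ) < N := by exact_mod_cast hN0
  have hNd : 1 / (N : ℝ) < d := by
    rw [div_lt_iff₀ hNr]
    rw [div_lt_iff₀ hd] at hN
    linarith
  set A : ℝ := 2 * N * (C * 2 ^ β) with hA
  set B : ℝ := 2 * |M| * (|T|) ^ β with hB
  have hA0 : 0 ≤ A := by positivity
  have hB0 : 0 ≤ B := mul_nonneg (by positivity) (Real.rpow_nonneg (abs_nonneg _) _)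
  refine ⟨A + B, add_nonneg hA0 hB0, fun x hx y hy hxy => ?_⟩
  set r := infDist x K with hr
  have hr0 : 0 < r := hK.pos hx.2
  set u := ‖x - y‖ with hu
  have hu0 : 0 ≤ u := norm_nonneg _
  have hur : 0 ≤ (u / r) ^ β := Real.rpow_nonneg (by positivity) _
  have inf : ∀ w : ℂ, ‖w - x‖ ≤ u → r / 2 ≤ infDist w K := by
    intro w hw
    have h1 := infDist_le_infDist_add_dist (s := K) (x := x) (y := w)
    rw [dist_comm, dist_eq_norm] at h1
    linarith
  by_cases hbig : 1 ≤ u
  · -- large distance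
    have hxb := hM x ⟨hx.1, by show 1 ≤ infDist x K; linarith⟩
    have hyb := hM y ⟨hy.1, by
      show 1 ≤ infDist y K
      have := inf y (by rw [hu, norm_sub_rev])
      linarith⟩
    rw [Real.norm_eq_abs] at hxb hyb
    have hTr := hT x hx.1
    rw [Real.norm_eq_abs, ← hr, abs_of_pos hr0] at hTr
    have hT0 : 0 < T := hr0.trans_le hTr
    have h1 : 1 ≤ |T| ^ β * (u / r) ^ β := by
      rw [← Real.mul_rpow (abs_nonneg _) (by positivity), abs_of_pos hT0]
      refine Real.one_le_rpow ?_ hβ.le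
      rw [mul_div_assoc', le_div_iff₀ hr0]
      nlinarith
    have hM0 : M ≤ |M| := le_abs_self _
    have h2 : |Y x - Y y| ≤ 2 * |M| := (abs_sub _ _).trans (by linarith)
    have h3 : 2 * |M| ≤ B * (u / r) ^ β := by
      have e : B * (u / r) ^ β = 2 * |M| * (|T| ^ β * (u / r) ^ β) := by rw [hB]; ring
      rw [e]
      exact le_mul_of_one_le_right (by positivity) h1
    have h4 : 0 ≤ A * (u / r) ^ β := mul_nonneg hA0 hur
    linarith [add_mul A B ((u / r) ^ β)]
  · -- small distance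
    rw [not_le] at hbig
    have hre : |x.re - y.re| < 1 := by
      have := Complex.abs_re_le_norm (x - y)
      rw [Complex.sub_re] at this
      linarith
    have him : |x.im - y.im| < 1 := by
      have := Complex.abs_im_le_norm (x - y)
      rw [Complex.sub_im] at this
      linarith
    obtain ⟨m, m1, m2, m3, m4⟩ := exists_mid S hx.1 hy.1 hre him
    rw [norm_sub_rev y x, ← hu] at m1 m2
    -- one segment
    have seg : ∀ a c : ℂ, ‖c - a‖ ≤ u → (∀ t : ℝ, 0 ≤ t → t ≤ 1 →
        a + t * (c - a) ∈ E6.region 1 S.Q ∧ ‖a + t * (c - a) - x‖ ≤ u) →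
        |Y a - Y c| ≤ N * (C * 2 ^ β * (u / r) ^ β) := by
      intro a c hac hseg
      have h1 := chain_eq (φ := fun t => Y (a + t * (c - a))) hN0
        (e := C * 2 ^ β * (u / r) ^ β) ?_
      · simpa using h1
      intro i hi
      have hi0 : (0 : ℝ) ≤ (i : ℝ) / N := by positivity
      have hi1 : (i : ℝ) / N ≤ 1 := by
        rw [div_le_one hNr]; exact_mod_cast hi.le
      have hj0 : (0 : ℝ) ≤ ((i + 1 : ℕ) : ℝ) / N := by positivity
      have hj1 : ((i + 1 : ℕ) : ℝ) / N ≤ 1 := by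
        rw [div_le_one hNr]; exact_mod_cast hi
      obtain ⟨k1, k2⟩ := hseg _ hi0 hi1
      obtain ⟨k3, k4⟩ := hseg _ hj0 hj1
      have k5 := inf _ k2
      have k6 := inf _ k4
      set w := a + ((i : ℝ) / N : ℝ) * (c - a) with hw
      set w' := a + (((i + 1 : ℕ) : ℝ) / N : ℝ) * (c - a) with hw'
      have hww : ‖w - w'‖ ≤ u / N := by
        have e1 : w - w' = -((1 / N : ℝ) : ℂ) * (c - a) := by
          rw [hw, hw']
          push_cast
          field_simp
          ring
        rw [e1, norm_mul, norm_neg, Complex.norm_real, Real.norm_eq_abs,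
          abs_of_pos (by positivity)]
        calc 1 / (N : ℝ) * ‖c - a‖ ≤ 1 / N * u := mul_le_mul_of_nonneg_left hac (by positivity)
          _ = u / N := by ring
      have k7 : ‖w - w'‖ < d * infDist w K := by
        have h2 : u / N ≤ 1 / N * (r / 2) := by
          rw [div_mul_eq_mul_div, one_mul]
          exact (div_le_div_iff_of_pos_right hNr).2 hxy.le
        have h3 : 1 / (N : ℝ) * (r / 2) < d * (r / 2) :=
          mul_lt_mul_of_pos_right hNd (by positivity)
        have h4 : d * (r / 2) ≤ d * infDist w K := mul_le_mul_of_nonneg_left k5 hd.le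
        linarith
      have hwK : w ∉ K := Arc.notMem_of_pos (by linarith)
      have hwK' : w' ∉ K := Arc.notMem_of_pos (by linarith)
      refine (h w ⟨k1, hwK⟩ w' ⟨k3, hwK'⟩ k7).trans ?_
      rw [mul_assoc]
      refine mul_le_mul_of_nonneg_left ?_ hC
      rw [← Real.mul_rpow (by norm_num) (by positivity)]
      refine Real.rpow_le_rpow (div_nonneg (norm_nonneg _) infDist_nonneg) ?_ hβ.le
      rw [div_le_iff₀ (by linarith)]
      have h5 : u / N ≤ u := div_le_self hu0 (by exact_mod_cast hN0)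
      have h6 : 2 * (u / r) * (r / 2) ≤ 2 * (u / r) * infDist w K :=
        mul_le_mul_of_nonneg_left k5 (by positivity)
      have h7 : 2 * (u / r) * (r / 2) = u := by field_simp
      linarith
    have s1 := seg x m (by linarith) fun t t0 t1 => by
      have := m3 t t0 t1
      rw [norm_sub_rev y x] at this
      exact this
    have s2 := seg m y (by linarith) fun t t0 t1 => by
      have := m4 t t0 t1
      rw [norm_sub_rev y x] at this
      exact this
    have e : Y x - Y y = (Y x - Y m) + (Y m - Y y) := by ring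
    have h3 : |Y x - Y y| ≤ A * (u / r) ^ β := by
      rw [e]
      refine (abs_add_le _ _).trans ?_
      have : A * (u / r) ^ β = N * (C * 2 ^ β * (u / r) ^ β) + N * (C * 2 ^ β * (u / r) ^ β) := by
        rw [hA]; ring
      linarith
    have h4 : 0 ≤ B * (u / r) ^ β := mul_nonneg hB0 hur
    linarith [add_mul A B ((u / r) ^ β)]

end Vale.Agent.P167.CAQ
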