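import Vale.Agent.P167.CAQ.Cut
import Vale.Agent.P167.CAQ.TwoCh

/-!
# P167, general `q`: compactness of potentials near a boundary arc (the limit)
-/

namespace Vale.Agent.P167.CAQ

open MeasureTheory Filter Topology Set Complex Metric
open Vale.Agent.P167.BR (sites)
open Vale.Agent.P167.BVP (Test npot)
open Vale.Agent.P167.CA (Dat cms en Pair enl fs fs_mem norm_fs Hol cs)
open P198W (lap)
open scoped ContDiff

variable {S : Dat} {K : Set ℂ}

theorem exists_delta (hK : Arc S K) {A : Set ℂ} (hA : IsCompact A) (h : ∀ x ∈ A, x ∉ K) :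
    ∃ δ > 0, ∀ x ∈ A, 3 * δ ≤ infDist x K := by
  rcases A.eq_empty_or_nonempty with rfl | hne
  · exact ⟨1, one_pos, fun x hx => absurd hx (notMem_empty x)⟩
  · obtain ⟨x, hx, hmin⟩ := hA.exists_isMinOn hne (continuous_infDist_pt K).continuousOn
    have h0 := hK.pos (h x hx)
    refine ⟨infDist x K / 3, by positivity, fun y hy => ?_⟩
    have := hmin hy
    simp only [mem_ofPred_eq] at this
    linarith

theorem tendsto_fs {U : Filter ℕ} (hU : U ≤ atTop) (x : ℂ) :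
    Tendsto (fun n : ℕ => E6.pt (fs n x) / n) U (𝓝 x) := by
  have h1 : Tendsto (fun n : ℕ => (2 : ℝ) / (n : ℝ)) U (𝓝 0) :=
    (tendsto_const_div_atTop_nhds_zero_nat 2).mono_left hU
  rw [tendsto_iff_norm_sub_tendsto_zero]
  refine squeeze_zero' (Eventually.of_forall fun n => norm_nonneg _) ?_ h1
  filter_upwards [(eventually_gt_atTop 0).filter_mono hU] with n hn using norm_fs hn x

section

variable {L : Filter ℕ} {w : ℕ → ℤ × ℤ → ℝ} {x₀ : ℂ}

/-- The limit function. -/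
theorem Pot.exists_Y (hL : L ≤ atTop) (hw : Pot S L w K) (hK : Arc S K) (hx₀ : x₀ ∈ S.P)
    (U : Ultrafilter ℕ) (hU : (U : Filter ℕ) ≤ L) : ∃ Y : ℂ → ℝ, ∀ x ∈ E6.region 1 S.Q \ K,
      Tendsto (fun n => w n (fs n x) - w n (fs n x₀)) U (𝓝 (Y x)) := by
  have h1 : ∀ x : ℂ, ∃ a : ℝ, x ∈ E6.region 1 S.Q \ K →
      Tendsto (fun n => w n (fs n x) - w n (fs n x₀)) U (𝓝 a) := by
    intro x
    by_cases hx : x ∈ E6.region 1 S.Q \ K
    · obtain ⟨M, hM⟩ := hw.bd hL hK hx ⟨P_sub S hx₀, hK.notMem hx₀⟩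
      have h2 : ∀ᶠ n in (U : Filter ℕ), w n (fs n x) - w n (fs n x₀) ∈ Icc (-M) M := by
        filter_upwards [hU hM] with n hn using abs_le.1 hn
      have h3 : IsCompact (Icc (-M) M) := isCompact_Icc
      obtain ⟨a, _, ha⟩ := h3.ultrafilter_le_nhds (U.map fun n => w n (fs n x) - w n (fs n x₀))
        (by rw [le_principal_iff]; exact h2)
      exact ⟨a, fun _ => ha⟩
    · exact ⟨0, fun h => absurd h hx⟩
  choose Y hY using h1
  exact ⟨Y, hY⟩

variable {U : Ultrafilter ℕ} {Y : ℂ → ℝ}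

/-- Hölder continuity of the limit. -/
theorem Pot.hol_Y (hL : L ≤ atTop) (hw : Pot S L w K) (hK : Arc S K) (hU : (U : Filter ℕ) ≤ L)
    (hY : ∀ x ∈ E6.region 1 S.Q \ K,
      Tendsto (fun n => w n (fs n x) - w n (fs n x₀)) U (𝓝 (Y x))) :
    ∃ C β : ℝ, 0 ≤ C ∧ 0 < β ∧ ∀ x ∈ E6.region 1 S.Q \ K, ∀ y ∈ E6.region 1 S.Q \ K,
      ‖x - y‖ < infDist x K / 2 → |Y x - Y y| ≤ C * (‖x - y‖ / infDist x K) ^ β := by
  obtain ⟨C, β, d, hβ, hd0, hd1, h⟩ := hw.eq
  suffices hkey : ∀ x ∈ E6.region 1 S.Q \ K, ∀ y ∈ E6.region 1 S.Q \ K,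
      ‖x - y‖ < d * infDist x K → |Y x - Y y| ≤ max C 0 * (‖x - y‖ / infDist x K) ^ β by
    obtain ⟨C', hC', h'⟩ := hol_half hK (le_max_right _ _) hβ hd0 hkey
    exact ⟨C', β, hC', hβ, h'⟩
  intro x hx y hy hxy
  have hU0 := hU.trans hL
  have hx0 := hK.pos hx.2
  have a1 := tendsto_fs hU0 x
  have a2 := tendsto_fs hU0 y
  have a3 : Tendsto (fun n : ℕ => ‖E6.pt (fs n x) - E6.pt (fs n y)‖ / n) U (𝓝 ‖x - y‖) := by
    refine (a1.sub a2).norm.congr fun n => ?_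
    rw [← sub_div, norm_div, Complex.norm_natCast]
  have a4 : Tendsto (fun n : ℕ => infDist (E6.pt (fs n x) / n) K) U (𝓝 (infDist x K)) :=
    ((continuous_infDist_pt K).tendsto x).comp a1
  have a5 : Tendsto (fun n : ℕ => max C 0 * (‖E6.pt (fs n x) - E6.pt (fs n y)‖ / n /
      infDist (E6.pt (fs n x) / n) K) ^ β) U (𝓝 (max C 0 * (‖x - y‖ / infDist x K) ^ β)) :=
    (((Real.continuous_rpow_const hβ.le).tendsto _).comp (a3.div a4 hx0.ne')).const_mul _
  have a6 : Tendsto (fun n => |(w n (fs n x) - w n (fs n x₀)) - (w n (fs n y) - w n (fs n x₀))|)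
      U (𝓝 |Y x - Y y|) := ((hY x hx).sub (hY y hy)).abs
  have a7 : ∀ᶠ n : ℕ in (U : Filter ℕ), ‖E6.pt (fs n x) - E6.pt (fs n y)‖ / n <
      d * infDist (E6.pt (fs n x) / n) K := a3.eventually_lt (a4.const_mul d) hxy
  refine le_of_tendsto_of_tendsto a6 a5 ?_
  filter_upwards [hU h, a7, (eventually_gt_atTop 0).filter_mono hU0] with n hn h7 hn0
  have e : (w n (fs n x) - w n (fs n x₀)) - (w n (fs n y) - w n (fs n x₀)) =
      w n (fs n x) - w n (fs n y) := by ring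
  rw [e]
  refine (hn _ (fs_mem hn0 hx.1) _ (fs_mem hn0 hy.1) h7.le).trans ?_
  exact mul_le_mul_of_nonneg_right (le_max_left _ _)
    (Real.rpow_nonneg (div_nonneg (by positivity) infDist_nonneg) _)

theorem cont_of_hol (hK : Arc S K) {C β : ℝ} (hβ : 0 < β)
    (h : ∀ x ∈ E6.region 1 S.Q \ K, ∀ y ∈ E6.region 1 S.Q \ K,
      ‖x - y‖ < infDist x K / 2 → |Y x - Y y| ≤ C * (‖x - y‖ / infDist x K) ^ β) :
    ContinuousOn Y (E6.region 1 S.Q \ K) := by
  intro x hx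
  have hx0 := hK.pos hx.2
  rw [Metric.continuousWithinAt_iff']
  intro ε hε
  have h4 : Tendsto (fun y : ℂ => C * (‖x - y‖ / infDist x K) ^ β) (𝓝 x) (𝓝 0) := by
    have h5 : Tendsto (fun y : ℂ => ‖x - y‖ / infDist x K) (𝓝 x) (𝓝 (‖x - x‖ / infDist x K)) :=
      (tendsto_const_nhds.sub tendsto_id).norm.div_const _
    have h6 := (((Real.continuous_rpow_const hβ.le).tendsto _).comp h5).const_mul C
    rw [sub_self, norm_zero, zero_div, Real.zero_rpow hβ.ne', mul_zero] at h6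
    exact h6
  have h7 : ∀ᶠ y in 𝓝 x, ‖x - y‖ < infDist x K / 2 := by
    have h8 : ball x (infDist x K / 2) ∈ 𝓝 x := ball_mem_nhds _ (by positivity)
    filter_upwards [h8] with y hy
    rwa [mem_ball, dist_comm, dist_eq_norm] at hy
  filter_upwards [(h4.eventually (gt_mem_nhds hε)).filter_mono nhdsWithin_le_nhds,
    h7.filter_mono nhdsWithin_le_nhds, self_mem_nhdsWithin] with y hy hy7 hy2
  rw [dist_comm, Real.dist_eq]
  exact (h x hx y hy2 hy7).trans_lt hy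

/-- The limit of the truncated potentials. -/
theorem Pot.tr_lim (hL : L ≤ atTop) (hw : Pot S L w K) (hK : Arc S K) (hx₀ : x₀ ∈ S.P)
    (hU : (U : Filter ℕ) ≤ L) (hY : ∀ x ∈ E6.region 1 S.Q \ K,
      Tendsto (fun n => w n (fs n x) - w n (fs n x₀)) U (𝓝 (Y x))) {δ : ℝ} (hδ : 0 < δ) :
    ∃ (w' : ℕ → ℤ × ℤ → ℝ) (C β M : ℝ) (W : ℂ → ℝ), 0 ≤ C ∧ 0 < β ∧
      (∀ᶠ n : ℕ in atTop, Hol S.Q w' C β M n) ∧
      (∀ᶠ n : ℕ in (U : Filter ℕ), w' n = tr K w x₀ δ n) ∧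
      (∀ x ∈ E6.region 1 S.Q, Tendsto (fun n => w' n (fs n x)) U (𝓝 (W x))) ∧
      (∀ x ∈ E6.region 1 S.Q, |W x| ≤ M) ∧
      (∀ x ∈ E6.region 1 S.Q, ∀ y ∈ E6.region 1 S.Q, |W x - W y| ≤ C * ‖x - y‖ ^ β) ∧
      (∀ x ∈ E6.region 1 S.Q, 2 * δ < infDist x K → W x = Y x) := by
  obtain ⟨C, β, M, hC, hβ, hM0, hH0⟩ := hw.hol_tr hL hK hx₀ hδ
  have hU0 := hU.trans hL
  obtain ⟨w', hH, hw'⟩ := hol_fix (Q := S.Q) (β := β) (tr K w x₀ δ) hC hM0
  have hwU : ∀ᶠ n in (U : Filter ℕ), w' n = tr K w x₀ δ n := by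
    filter_upwards [hU hH0] with n hn using hw' n hn
  obtain ⟨W, hW1, hW2, hW3⟩ := CA.exists_lim hC hβ hH U hU0
  refine ⟨w', C, β, M, W, hC, hβ, hH, hwU, hW1, hW2, hW3, fun x hx hx2 => ?_⟩
  have hxK : x ∉ K := Arc.notMem_of_pos (by linarith)
  refine tendsto_nhds_unique (hW1 x hx) ((hY x ⟨hx, hxK⟩).congr' ?_)
  have a4 : Tendsto (fun n : ℕ => infDist (E6.pt (fs n x) / n) K) U (𝓝 (infDist x K)) :=
    ((continuous_infDist_pt K).tendsto x).comp (tendsto_fs hU0 x)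
  filter_upwards [hwU, a4.eventually (lt_mem_nhds hx2)] with n h1 h2
  rw [h1]
  unfold tr
  rw [chi_one hδ h2.le, one_mul]

/-- Pairings with neutral smooth charges converge. -/
theorem Pot.pair_Y (hL : L ≤ atTop) (hw : Pot S L w K) (hK : Arc S K) (hx₀ : x₀ ∈ S.P)
    (hU : (U : Filter ℕ) ≤ L) (hY : ∀ x ∈ E6.region 1 S.Q \ K,
      Tendsto (fun n => w n (fs n x) - w n (fs n x₀)) U (𝓝 (Y x))) {f : ℂ → ℝ} (hf : S.FF f) :
    Tendsto (fun n : ℕ => ∑ z ∈ sites (S.D n), cms f (1 / n) z * w n z) U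
      (𝓝 (∫ x, f x * Y x)) := by
  have hU0 := hU.trans hL
  obtain ⟨δ, hδ, hd⟩ := exists_delta hK hf.1.2.1.isCompact fun x hx => hK.notMem (hf.1.2.2 hx)
  obtain ⟨w', C, β, M, W, hC, hβ, hH, hwU, hW1, hW2, hW3, hWY⟩ :=
    hw.tr_lim hL hK hx₀ hU hY hδ
  have hfi : Integrable f := CA.Test.integrable hf.1
  have hfs : ∀ x, f x ≠ 0 → x ∈ interior (E6.region 1 S.Q) := fun x hx =>
    hf.1.2.2 (subset_tsupport f hx)
  have hWc : ContinuousOn W (E6.region 1 S.Q) := by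
    intro x hx
    rw [Metric.continuousWithinAt_iff']
    intro ε hε
    have h4 : Tendsto (fun y : ℂ => C * ‖x - y‖ ^ β) (𝓝 x) (𝓝 (C * ‖x - x‖ ^ β)) := by
      have h5 : Tendsto (fun y : ℂ => ‖x - y‖) (𝓝 x) (𝓝 ‖x - x‖) :=
        (tendsto_const_nhds.sub tendsto_id).norm
      exact (((Real.continuous_rpow_const hβ.le).tendsto _).comp h5).const_mul C
    rw [sub_self, norm_zero, Real.zero_rpow hβ.ne', mul_zero] at h4
    filter_upwards [(h4.eventually (gt_mem_nhds hε)).filter_mono nhdsWithin_le_nhds,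
      self_mem_nhdsWithin] with y hy hy2
    rw [dist_comm, Real.dist_eq]
    exact (hW3 x hx y hy2).trans_lt hy
  have hWm : AEStronglyMeasurable W (volume.restrict (interior (E6.region 1 S.Q))) :=
    (hWc.mono interior_subset).aestronglyMeasurable isOpen_interior.measurableSet
  have h1 := CA.lim_pair hC hβ hH U hU0 hW1 hW2 hW3 hfi hfs hWm
  have h2 : ∫ x, f x * W x = ∫ x, f x * Y x := by
    refine integral_congr_ae (Eventually.of_forall fun x => ?_)
    by_cases h0 : f x = 0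
    · simp [h0]
    · have h3 := hd x (subset_tsupport f h0)
      simp only
      rw [hWY x (interior_subset (hfs x h0)) (by linarith)]
  rw [h2] at h1
  refine h1.congr' ?_
  filter_upwards [hwU, eventually_small hU0 hδ] with n hn hs
  obtain ⟨hn0, hs⟩ := hs
  rw [hn]
  have h3 : ∀ z ∈ sites (enl S.Q n), cms f (1 / n) z * tr K w x₀ δ n z =
      cms f (1 / n) z * w n z - w n (fs n x₀) * (cms f (1 / n) z * 1) := by
    intro z _
    by_cases h0 : cms f (1 / n) z = 0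
    · rw [h0]; ring
    · have h4 : ∃ x ∈ CA.cl n z, f x ≠ 0 := by
        by_contra hne
        push Not at hne
        apply h0
        rw [CA.cms_eq, setIntegral_congr_fun (CA.measurableSet_cl n z) (g := fun _ => (0 : ℝ))]
        · simp
        · intro x hx
          exact hne x hx
      obtain ⟨x, hx, hfx⟩ := h4
      rw [CA.mem_cl] at hx
      have h5 := hd x (subset_tsupport f hfx)
      have h6 := CA.norm_cs hn0 x
      rw [hx] at h6
      have h7 : infDist x K ≤ infDist (E6.pt z / n) K + dist x (E6.pt z / n) :=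
        infDist_le_infDist_add_dist
      rw [dist_comm, dist_eq_norm] at h7
      unfold tr
      rw [chi_one hδ (by linarith)]
      ring
  rw [Finset.sum_congr rfl h3, Finset.sum_sub_distrib, ← Finset.mul_sum,
    CA.sum_cms hn0 hfi hfs fun _ => 1]
  simp only [mul_one]
  rw [hf.2]
  ring_nf
  rfl

end

end Vale.Agent.P167.CAQ
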