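import Vale.Agent.P167.CAQ.TwoLim

/-!
# P167, general `q`: compactness of potentials near a boundary arc (harmonicity, flat sides)
-/

namespace Vale.Agent.P167.CAQ

open MeasureTheory Filter Topology Set Complex Metric
open Vale.Agent.P167.BR (sites)
open Vale.Agent.P167.BVP (Test npot SideHarm)
open Vale.Agent.P167.CA (Dat cms en Pair enl fs fs_mem norm_fs Hol cs)
open P198W (lap)
open InnerProductSpace
open scoped ContDiff ComplexConjugate

variable {S : Dat} {K : Set ℂ}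

theorem norm_I_dir (r : Fin 4) : ‖I * E6.pt (E6.dir r)‖ = 1 := by
  rw [norm_mul, Complex.norm_I, BVP.norm_pt_dir, one_mul]

section

variable {L : Filter ℕ} {w : ℕ → ℤ × ℤ → ℝ} {x₀ : ℂ} {U : Ultrafilter ℕ} {Y : ℂ → ℝ}

/-- The weak Laplace equation. -/
theorem Pot.weak (hL : L ≤ atTop) (hw : Pot S L w K) (hK : Arc S K) (hx₀ : x₀ ∈ S.P)
    (hU : (U : Filter ℕ) ≤ L) (hY : ∀ x ∈ E6.region 1 S.Q \ K,
      Tendsto (fun n => w n (fs n x) - w n (fs n x₀)) U (𝓝 (Y x))) {φ : ℂ → ℝ}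
    (hφ : Test S.P φ) : ∫ z, Y z * lap φ z = 0 := by
  have h1 := hw.pair_Y hL hK hx₀ hU hY (CA.FF.lap hφ)
  have h2 := (hw.mom φ hφ).mono_left hU
  have h3 := tendsto_nhds_unique h1 h2
  rw [← h3]
  congr 1; funext z; ring

/-- The averaged Neumann condition in the limit. -/
theorem Pot.neu_Y (hL : L ≤ atTop) (hw : Pot S L w K) (hK : Arc S K) (hx₀ : x₀ ∈ S.P)
    (hU : (U : Filter ℕ) ≤ L) (hY : ∀ x ∈ E6.region 1 S.Q \ K,
      Tendsto (fun n => w n (fs n x) - w n (fs n x₀)) U (𝓝 (Y x)))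
    {v : ℤ × ℤ} {r : Fin 4} (hv1 : E6.face v r ∈ S.Q) (hv2 : E6.face v (r - 1) ∉ S.Q)
    {φ : ℝ → ℝ} (hφ1 : ContDiff ℝ ∞ φ) (hφ2 : tsupport φ ⊆ Ioo 0 1 \ {S.tp})
    (hφ3 : ∀ t ∈ tsupport φ, E6.pt v + t * E6.pt (E6.dir r) ∉ K) {ε : ℝ} (hε : 0 < ε) :
    ∃ r₀ > 0, ∀ h : ℝ, 0 < h → h < r₀ →
      |∫ t : ℝ, φ t * (Y (E6.pt v + t * E6.pt (E6.dir r) + h * (I * E6.pt (E6.dir r))) -
        Y (E6.pt v + t * E6.pt (E6.dir r)))| ≤ ε * h := by
  have hU0 := hU.trans hL
  have hφc : IsCompact (tsupport φ) := by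
    have : HasCompactSupport φ := by
      refine HasCompactSupport.of_support_subset_isCompact (K := Icc 0 1) isCompact_Icc ?_
      exact (subset_tsupport φ).trans ((hφ2.trans sdiff_subset).trans Ioo_subset_Icc_self)
    exact this
  have hA : IsCompact ((fun t : ℝ => E6.pt v + t * E6.pt (E6.dir r)) '' tsupport φ) :=
    hφc.image (by fun_prop)
  obtain ⟨δ, hδ, hd⟩ := exists_delta hK hA (by rintro _ ⟨t, ht, rfl⟩; exact hφ3 t ht)
  obtain ⟨w', C, β, M, W, hC, hβ, hH, hwU, hW1, hW2, hW3, hWY⟩ :=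
    hw.tr_lim hL hK hx₀ hU hY hδ
  obtain ⟨r₀, hr0, hr⟩ := hw.neu v r hv1 hv2 φ hφ1 hφ2 hφ3 ε hε
  refine ⟨min r₀ (min 1 (δ / 2)), by positivity, fun h h1 h2 => ?_⟩
  have h2a : h < r₀ := h2.trans_le (min_le_left _ _)
  have h2b : h < 1 := h2.trans_le ((min_le_right _ _).trans (min_le_left _ _))
  have h2c : h < δ / 2 := h2.trans_le ((min_le_right _ _).trans (min_le_right _ _))
  have h3 := hU (hr h h1 h2a)
  have h4 := CA.neu_lim hC hβ hH U hU0 hW1 hW3 hv1 hφ1.continuous (hφ2.trans sdiff_subset)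
    h1.le h2b.le
  -- the points
  have hfar : ∀ (x : ℂ), 3 * δ ≤ infDist x K → ∀ y : ℂ, ‖y - x‖ ≤ δ / 2 → 2 * δ < infDist y K := by
    intro x hx y hy
    have h7 : infDist x K ≤ infDist y K + dist x y := infDist_le_infDist_add_dist
    rw [dist_comm, dist_eq_norm] at h7
    linarith
  have h5 : (∫ t : ℝ, φ t * (Y (E6.pt v + t * E6.pt (E6.dir r) + h * (I * E6.pt (E6.dir r))) -
        Y (E6.pt v + t * E6.pt (E6.dir r)))) =
      ∫ t : ℝ, φ t * (W (E6.pt v + t * E6.pt (E6.dir r) + h * (I * E6.pt (E6.dir r))) -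
        W (E6.pt v + t * E6.pt (E6.dir r))) := by
    refine integral_congr_ae (Eventually.of_forall fun t => ?_)
    by_cases h0 : φ t = 0
    · simp [h0]
    · have ht := subset_tsupport φ h0
      have ht1 := (hφ2 ht).1
      have hd1 := hd _ ⟨t, ht, rfl⟩
      have m1 : E6.pt v + t * E6.pt (E6.dir r) ∈ E6.region 1 S.Q := by
        have := CA.left_region hv1 ht1.1.le ht1.2.le (le_refl (0 : ℝ)) zero_le_one
        simpa using this
      have m2 := CA.left_region hv1 ht1.1.le ht1.2.le h1.le h2b.le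
      have n1 := hfar _ hd1 (E6.pt v + t * E6.pt (E6.dir r)) (by
        rw [sub_self, norm_zero]; positivity)
      have n2 := hfar _ hd1 (E6.pt v + t * E6.pt (E6.dir r) + h * (I * E6.pt (E6.dir r))) (by
        rw [add_sub_cancel_left, norm_mul, norm_I_dir, mul_one, Complex.norm_real,
          Real.norm_eq_abs, abs_of_pos h1]
        exact h2c.le)
      simp only
      rw [hWY _ m1 n1, hWY _ m2 n2]
  rw [h5]
  refine le_of_tendsto h4.abs ?_
  filter_upwards [hwU, h3, (eventually_gt_atTop 0).filter_mono hU0] with n hn hn3 hn0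
  have hn' : (0 : ℝ) < n := by exact_mod_cast hn0
  have hnC : (n : ℂ) ≠ 0 := by exact_mod_cast hn0.ne'
  rw [hn]
  refine le_trans (le_of_eq ?_) hn3
  congr 2
  refine Finset.sum_congr rfl fun x hx => ?_
  by_cases h0 : φ (x / n) = 0
  · rw [h0]; ring
  · congr 1
    have ht := subset_tsupport φ h0
    have hd1 := hd _ ⟨_, ht, rfl⟩
    have e1 : E6.pt ((n : ℤ) • v + (x : ℤ) • E6.dir r) / n =
        E6.pt v + (((x : ℝ) / n : ℝ) : ℂ) * E6.pt (E6.dir r) := by
      rw [CA.pt_add, CA.pt_smul, CA.pt_smul]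
      push_cast
      field_simp
    have e2 : E6.pt ((n : ℤ) • v + (x : ℤ) • E6.dir r + (⌊h * n⌋₊ : ℤ) • E6.dir (r + 1)) / n =
        E6.pt v + (((x : ℝ) / n : ℝ) : ℂ) * E6.pt (E6.dir r) +
          (((⌊h * n⌋₊ : ℝ) / n : ℝ) : ℂ) * (I * E6.pt (E6.dir r)) := by
      rw [CA.pt_add, CA.pt_add, CA.pt_smul, CA.pt_smul, CA.pt_smul, CA.tg_aux]
      push_cast
      field_simp
    have hfl : (⌊h * n⌋₊ : ℝ) / n ≤ h := by
      rw [div_le_iff₀ hn']
      exact Nat.floor_le (by positivity)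
    have n1 := hfar _ hd1 (E6.pt v + (((x : ℝ) / n : ℝ) : ℂ) * E6.pt (E6.dir r)) (by
        rw [sub_self, norm_zero]; positivity)
    have n2 := hfar _ hd1 (E6.pt v + (((x : ℝ) / n : ℝ) : ℂ) * E6.pt (E6.dir r) +
          (((⌊h * n⌋₊ : ℝ) / n : ℝ) : ℂ) * (I * E6.pt (E6.dir r))) (by
        rw [add_sub_cancel_left, norm_mul, norm_I_dir, mul_one, Complex.norm_real,
          Real.norm_eq_abs, abs_of_nonneg (by positivity)]
        linarith)
    unfold tr
    rw [e1, e2, chi_one hδ n1.le, chi_one hδ n2.le]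
    ring

end

/-- **Local even reflection** at the flat points off `K` and off the exceptional points. -/
theorem sideHarm_of_local (S : Dat) (hK : Arc S K) {ψ g : ℂ → ℂ} (h : Pair S.P ψ g) {Y : ℂ → ℝ}
    (hYc : ContinuousOn Y (E6.region 1 S.Q \ K))
    (hYw : ∀ φ, Test S.P φ → ∫ z, Y z * lap φ z = 0)
    (hN : ∀ (v : ℤ × ℤ) (r : Fin 4), E6.face v r ∈ S.Q → E6.face v (r - 1) ∉ S.Q →
      ∀ φ : ℝ → ℝ, ContDiff ℝ ∞ φ → tsupport φ ⊆ Ioo 0 1 \ {S.tp} →
      (∀ t ∈ tsupport φ, E6.pt v + t * E6.pt (E6.dir r) ∉ K) → ∀ ε > 0, ∃ r₀ > 0, ∀ h : ℝ,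
      0 < h → h < r₀ →
      |∫ t : ℝ, φ t * (Y (E6.pt v + t * E6.pt (E6.dir r) + h * (I * E6.pt (E6.dir r))) -
        Y (E6.pt v + t * E6.pt (E6.dir r)))| ≤ ε * h)
    {x : ℝ} (hx : ψ x ∉ BVP.bad S) (hxK : ψ x ∉ K) : SideHarm S.P ψ Y x := by
  have hYP : ContinuousOn Y S.P := hYc.mono fun z hz => ⟨P_sub S hz, hK.notMem hz⟩
  have hf0 : Test S.P fun _ => (0 : ℝ) := (CA.FF.zero S).1
  refine BVP.sideHarm_of_neuSideAv (isOpen_P S) (s := 0) hf0 hYP (fun φ hφ => by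
    rw [hYw φ hφ]; simp) ?_
  obtain ⟨w, r, t₀, hl, hr, h0, h1, htp, hv⟩ := BVP.exists_side S h hx
  set q : ℂ := E6.pt w + t₀ * E6.pt (E6.dir r) with hq
  set ν : ℂ := E6.pt (E6.dir (r + 1)) with hν
  have hM := BVP.mapFlat_side S h hl hr h0 h1 hv
  rw [← hq, ← hν] at hM
  rw [hv] at hxK
  have hqK := hK.pos hxK
  set ρ : ℝ := min (min (min t₀ (1 - t₀)) |t₀ - S.tp|) (infDist q K / 2) with hρ
  have hρ0 : 0 < ρ := lt_min (lt_min (lt_min h0 (by linarith)) (abs_pos.2 (sub_ne_zero.2 htp)))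
    (by positivity)
  have hρ1 : ρ ≤ min t₀ (1 - t₀) := (min_le_left _ _).trans (min_le_left _ _)
  have hρ2 : ρ ≤ |t₀ - S.tp| := (min_le_left _ _).trans (min_le_right _ _)
  have hρ3 : ρ ≤ infDist q K / 2 := min_le_right _ _
  have hM' := hM.mono hρ0 hρ1
  have hball : ∀ z ∈ ball q ρ, z ∉ K := by
    intro z hz hzK
    have h5 := infDist_le_dist_of_mem (x := q) hzK
    rw [mem_ball, dist_comm] at hz
    linarith
  refine ⟨q, ν, ρ, hM', ?_, ?_⟩
  · refine hYc.mono ?_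
    rintro z ⟨hz1, hz2⟩
    refine ⟨?_, hball z hz1⟩
    rw [← closure_P]
    have hz2' : 0 ≤ ((z - q) * conj ν).re := hz2
    have hνν : ν * conj ν = 1 := by
      rw [Complex.mul_conj, Complex.normSq_eq_norm_sq, hM'.flat.norm]; norm_num
    have hc : Tendsto (fun ε : ℝ => z + ε * ν) (𝓝[>] 0) (𝓝 z) := by
      have h3 : Continuous fun ε : ℝ => z + ε * ν := by fun_prop
      have h4 := h3.tendsto 0
      simp only [ofReal_zero, zero_mul, add_zero] at h4
      exact h4.mono_left nhdsWithin_le_nhds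
    refine mem_closure_of_tendsto hc ?_
    filter_upwards [hc.eventually (isOpen_ball.mem_nhds hz1), self_mem_nhdsWithin] with ε h5 h6
    have hε : (0 : ℝ) < ε := h6
    rw [hM'.flat.mem _ h5]
    have e : (z + ε * ν - q) * conj ν = (z - q) * conj ν + ε * (ν * conj ν) := by ring
    rw [e, hνν, mul_one, Complex.add_re, ofReal_re]
    linarith
  · intro θ hθ1 hθ2 hθ3
    -- the shifted test function
    have hs1 : ContDiff ℝ ∞ fun t : ℝ => θ (t - t₀) := hθ1.comp (contDiff_id.sub contDiff_const)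
    have hts0 : ∀ t ∈ tsupport (fun t : ℝ => θ (t - t₀)), |t - t₀| < ρ := by
      have h5 : tsupport (fun t : ℝ => θ (t - t₀)) ⊆ (fun t : ℝ => t - t₀) ⁻¹' tsupport θ := by
        refine closure_minimal ?_ ((isClosed_tsupport θ).preimage (by fun_prop))
        intro t ht
        exact subset_tsupport _ ht
      intro t ht
      exact abs_lt.2 (hθ3 (h5 ht))
    have hts : tsupport (fun t : ℝ => θ (t - t₀)) ⊆ Ioo 0 1 \ {S.tp} := by
      intro t ht
      have h7 := hts0 t ht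
      have h6 := abs_lt.1 h7
      have h10 : min t₀ (1 - t₀) ≤ t₀ := min_le_left _ _
      have h11 : min t₀ (1 - t₀) ≤ 1 - t₀ := min_le_right _ _
      refine ⟨⟨?_, ?_⟩, ?_⟩
      · linarith [h6.1]
      · linarith [h6.2]
      · intro hh
        rw [mem_singleton_iff] at hh
        rw [hh, abs_sub_comm] at h7
        linarith
    have htK : ∀ t ∈ tsupport (fun t : ℝ => θ (t - t₀)),
        E6.pt w + t * E6.pt (E6.dir r) ∉ K := by
      intro t ht
      refine hball _ ?_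
      rw [mem_ball, dist_eq_norm]
      have e : E6.pt w + t * E6.pt (E6.dir r) - q = ((t - t₀ : ℝ) : ℂ) * E6.pt (E6.dir r) := by
        rw [hq]; push_cast; ring
      rw [e, norm_mul, BVP.norm_pt_dir, mul_one, Complex.norm_real, Real.norm_eq_abs]
      exact hts0 t ht
    have hI : -(I * ν) = E6.pt (E6.dir r) := by
      rw [hν, BVP.pt_dir_succ, ← mul_assoc, I_mul_I]; ring
    have key : Tendsto (fun h : ℝ => (∫ t : ℝ, θ (t - t₀) *
        (Y (E6.pt w + t * E6.pt (E6.dir r) + h * E6.pt (E6.dir (r + 1))) -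
          Y (E6.pt w + t * E6.pt (E6.dir r)))) / h) (𝓝[>] 0) (𝓝 0) := by
      rw [Metric.tendsto_nhdsWithin_nhds]
      intro ε hε
      obtain ⟨r₀, hr₀, hr₀'⟩ := hN w r hl hr _ hs1 hts htK (ε / 2) (by positivity)
      refine ⟨r₀, hr₀, fun {η} hη0 hηd => ?_⟩
      have hη : (0 : ℝ) < η := hη0
      rw [Real.dist_eq, sub_zero, abs_of_pos hη] at hηd
      have h3 := hr₀' η hη hηd
      rw [← BVP.pt_dir_succ] at h3
      rw [Real.dist_eq, sub_zero, abs_div, abs_of_pos hη, div_lt_iff₀ hη]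
      have : ε / 2 * η < ε * η := by nlinarith
      linarith
    refine key.congr fun h' => ?_
    congr 1
    rw [← integral_add_right_eq_self (fun t : ℝ => θ (t - t₀) *
      (Y (E6.pt w + t * E6.pt (E6.dir r) + h' * E6.pt (E6.dir (r + 1))) -
        Y (E6.pt w + t * E6.pt (E6.dir r)))) t₀]
    refine integral_congr_ae (Eventually.of_forall fun t => ?_)
    have e1 : E6.pt w + ((t + t₀ : ℝ) : ℂ) * E6.pt (E6.dir r) = q - I * ν * t := by
      have : q - I * ν * t = q + -(I * ν) * t := by ring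
      rw [this, hI, hq]; push_cast; ring
    simp only [add_sub_cancel_right, e1, ← hν]

end Vale.Agent.P167.CAQ
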